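import Vale.Agent.P113.Sim.Defs

/-!
# P113, simulation version: periodization
-/

open Set Function Filter Topology
open scoped ContDiff

namespace Vale.Agent.P113.Sim

variable {α β : Type*} [Primcodable α] [Primcodable β]

theorem per_periodic (c : ℝ) (g : ℝ → ℝ) : Function.Periodic (per c g) 1 := by
  intro x
  unfold per
  rw [show x + 1 - c = (x - c) + 1 by ring, Int.floor_add_one]
  congr 1
  push_cast
  ring

theorem per_of_mem {c x : ℝ} (g : ℝ → ℝ) (hx : x ∈ Ico c (c + 1)) : per c g x = g x := by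
  unfold per
  have h : ⌊x - c⌋ = 0 := by
    rw [Int.floor_eq_iff]
    constructor
    · push_cast; linarith [hx.1]
    · push_cast; linarith [hx.2]
  rw [h]
  simp

theorem per_arg_mem (c x : ℝ) : x - ⌊x - c⌋ ∈ Ico c (c + 1) := by
  have h1 := Int.floor_le (x - c)
  have h2 := Int.lt_floor_add_one (x - c)
  constructor <;> linarith

theorem per_eventuallyEq {c δ : ℝ} (hδ : 0 < δ) {g : ℝ → ℝ}
    (h0 : ∀ x, x ≤ c + δ ∨ c + 1 - δ ≤ x → g x = 0) (x : ℝ) :
    per c g =ᶠ[𝓝 x] fun x' => g (x' - ⌊x - c⌋) := by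
  have hu := per_arg_mem c x
  set n : ℤ := ⌊x - c⌋ with hn
  have hr : 0 < min (min δ 1) (c + 1 - (x - n)) := by
    refine lt_min (lt_min hδ one_pos) ?_
    linarith [hu.2]
  filter_upwards [Metric.ball_mem_nhds x hr] with x' hx'
  rw [Metric.mem_ball, Real.dist_eq, abs_lt] at hx'
  have a1 : min (min δ 1) (c + 1 - (x - n)) ≤ δ := (min_le_left _ _).trans (min_le_left _ _)
  have a2 : min (min δ 1) (c + 1 - (x - n)) ≤ 1 := (min_le_left _ _).trans (min_le_right _ _)
  have a3 : min (min δ 1) (c + 1 - (x - n)) ≤ c + 1 - (x - n) := min_le_right _ _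
  rcases le_or_gt c (x' - n) with h | h
  · have hf : ⌊x' - c⌋ = n := by
      rw [Int.floor_eq_iff]
      constructor <;> linarith
    unfold per
    rw [hf]
  · have hf : ⌊x' - c⌋ = n - 1 := by
      rw [Int.floor_eq_iff]
      push_cast
      constructor <;> linarith [hu.1]
    unfold per
    rw [hf]
    push_cast
    rw [h0 (x' - (n - 1)) (Or.inr (by linarith [hu.1])), h0 (x' - n) (Or.inl (by linarith))]

theorem per_contDiff {c δ : ℝ} (hδ : 0 < δ) {g : ℝ → ℝ} (hg : ContDiff ℝ ∞ g)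
    (h0 : ∀ x, x ≤ c + δ ∨ c + 1 - δ ≤ x → g x = 0) : ContDiff ℝ ∞ (per c g) := by
  rw [contDiff_iff_contDiffAt]
  intro x
  refine ContDiffAt.congr_of_eventuallyEq ?_ (per_eventuallyEq hδ h0 x)
  exact (hg.comp (contDiff_id.sub contDiff_const)).contDiffAt

theorem iteratedDeriv_per {c δ : ℝ} (hδ : 0 < δ) {g : ℝ → ℝ} (hg : ContDiff ℝ ∞ g)
    (h0 : ∀ x, x ≤ c + δ ∨ c + 1 - δ ≤ x → g x = 0) (k : ℕ) :
    iteratedDeriv k (per c g) = per c (iteratedDeriv k g) := by
  funext x
  rw [(per_eventuallyEq hδ h0 x).iteratedDeriv_eq, iteratedDeriv_comp_sub_const]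
  rfl

/-- the code of the argument of a periodized function -/
def qarg (c q : Q3) : Q3 :=
  qadd c (((qadd q (qneg c)).1 + (qadd q (qneg c)).2.1 * (qadd q (qneg c)).2.2) %
    ((qadd q (qneg c)).2.2 + 1), 0, (qadd q (qneg c)).2.2)

theorem fract_code (p : Q3) :
    rv ((p.1 + p.2.1 * p.2.2) % (p.2.2 + 1), 0, p.2.2) = rv p - ⌊rv p⌋ := by
  obtain ⟨a, b, d⟩ := p
  simp only
  have hd : (0 : ℝ) < (d : ℝ) + 1 := by positivity
  set m := (a + b * d) % (d + 1) with hm
  set k := (a + b * d) / (d + 1) with hk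
  have h1 : (d + 1) * k + m = a + b * d := Nat.div_add_mod _ _
  have h2 : ((d : ℝ) + 1) * k + m = a + b * d := by exact_mod_cast h1
  have h3 : (m : ℝ) < d + 1 := by
    have : m < d + 1 := Nat.mod_lt _ (by omega)
    exact_mod_cast this
  have h4 : rv (a, b, d) = m / ((d : ℝ) + 1) + (((k : ℤ) - (b : ℤ) : ℤ) : ℝ) := by
    rw [rv_def]
    push_cast
    field_simp
    linarith
  have h5 : ⌊rv (a, b, d)⌋ = (k : ℤ) - (b : ℤ) := by
    rw [Int.floor_eq_iff, h4]
    have h6 : 0 ≤ (m : ℝ) / ((d : ℝ) + 1) := by positivity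
    have h7 : (m : ℝ) / ((d : ℝ) + 1) < 1 := by rwa [div_lt_one hd]
    constructor <;> linarith
  rw [h5, h4, rv_def]
  simp

theorem rv_qarg (c q : Q3) : rv (qarg c q) = rv q - ⌊rv q - rv c⌋ := by
  unfold qarg
  rw [rv_qadd, fract_code, rv_qadd, rv_qneg]
  have : rv q + -rv c = rv q - rv c := by ring
  rw [this]
  ring

theorem computable_qarg (c : Q3) : Computable (qarg c) := by
  have hp : Primrec fun q : Q3 => qadd q (qneg c) :=
    primrec_qadd.comp Primrec.id (Primrec.const _)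
  have h1 : Primrec fun q : Q3 => (qadd q (qneg c)).1 := Primrec.fst.comp hp
  have h2 : Primrec fun q : Q3 => (qadd q (qneg c)).2.1 := Primrec.fst.comp (Primrec.snd.comp hp)
  have h3 : Primrec fun q : Q3 => (qadd q (qneg c)).2.2 := Primrec.snd.comp (Primrec.snd.comp hp)
  refine Primrec.to_comp ?_
  refine primrec_qadd.comp (Primrec.const c) (Primrec.pair ?_ (Primrec.pair (Primrec.const 0) h3))
  exact Primrec.nat_mod.comp (Primrec.nat_add.comp h1 (Primrec.nat_mul.comp h2 h3))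
    (Primrec.succ.comp h3)

theorem Eff.periodize {F : α → ℝ → ℝ} (hF : Eff F) (c : Q3)
    (h0 : ∀ a, ∃ δ : ℝ, 0 < δ ∧ ∀ x, x ≤ rv c + δ ∨ rv c + 1 - δ ≤ x → F a x = 0) :
    Eff fun a => per (rv c) (F a) := by
  obtain ⟨hs, hc, B, hB, hb⟩ := hF
  refine ⟨fun a => ?_, ?_, ?_⟩
  · obtain ⟨δ, hδ, h⟩ := h0 a
    exact per_contDiff hδ (hs a) h
  · refine (hc.comp (h := fun z : α × Q3 => (z.1, qarg c z.2))
      (Computable.pair Computable.fst ((computable_qarg c).comp Computable.snd))).of_eq ?_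
    intro z
    simp only [rv_qarg]
    rfl
  · obtain ⟨M, hM⟩ := exists_nat_ge (|rv c| + 1)
    refine ⟨fun a p => B a (p.1, M), ?_, ?_⟩
    · exact hB.comp Computable.fst (Computable.pair (Computable.fst.comp Computable.snd)
        (Computable.const M))
    · intro a k n t _
      obtain ⟨δ, hδ, h⟩ := h0 a
      simp only
      rw [iteratedDeriv_per hδ (hs a) h]
      refine hb a k M _ ?_
      have hu := per_arg_mem (rv c) t
      refine le_trans ?_ hM
      rw [abs_le]
      have h1 := neg_abs_le (rv c)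
      have h2 := le_abs_self (rv c)
      constructor <;> linarith [hu.1, hu.2]

end Vale.Agent.P113.Sim
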