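import Vale.Agent.P113.Sim.Sw
import Vale.Agent.P113.Sim.Per
import Vale.Agent.P113.Unique

/-!
# P113, simulation version: the solution of the Navier-Stokes system
-/

open Set Function Filter Topology
open scoped ContDiff

namespace Vale.Agent.P113.Sim

/-! ### Derivatives of smooth functions -/

theorem itd_hasDerivAt {f : ℝ → ℝ} (hf : ContDiff ℝ ∞ f) (k : ℕ) (t : ℝ) :
    HasDerivAt (iteratedDeriv k f) (iteratedDeriv (k + 1) f t) t := by
  have h1 : Differentiable ℝ (iteratedDeriv k f) :=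
    hf.differentiable_iteratedDeriv k (by exact_mod_cast ENat.natCast_lt_top k)
  have h2 := (h1 t).hasDerivAt
  rwa [← iteratedDeriv_succ] at h2

theorem itd_contDiff {f : ℝ → ℝ} (hf : ContDiff ℝ ∞ f) (k : ℕ) :
    ContDiff ℝ ∞ (iteratedDeriv k f) := by
  rw [iteratedDeriv_eq_iterate]
  exact ContDiff.iterate_deriv k hf

theorem itd_zero_of_ge {f : ℝ → ℝ} (hf : ContDiff ℝ ∞ f) {a : ℝ} (h0 : ∀ t, a ≤ t → f t = 0)
    (k : ℕ) {t : ℝ} (ht : a ≤ t) : iteratedDeriv k f t = 0 := by
  induction k generalizing t with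
  | zero => rw [iteratedDeriv_zero]; exact h0 t ht
  | succ k ih =>
    have h1 := (itd_hasDerivAt hf k t).hasDerivWithinAt (s := Ici t)
    have h2 : HasDerivWithinAt (iteratedDeriv k f) 0 (Ici t) t := by
      refine (hasDerivWithinAt_const t (Ici t) (0 : ℝ)).congr_of_mem (fun x hx => ?_) (by simp)
      exact ih (ht.trans hx)
    exact (uniqueDiffWithinAt_Ici t).eq_deriv _ h1 h2

theorem itd_periodic {f : ℝ → ℝ} (hf : Function.Periodic f 1) (k : ℕ) :
    Function.Periodic (iteratedDeriv k f) 1 := by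
  intro x
  have h : (fun x => f (x + 1)) = f := by funext x; exact hf x
  have h2 := iteratedDeriv_comp_add_const k f 1
  rw [h] at h2
  exact (congrFun h2 x).symm

/-! ### Time profiles -/

theorem deriv_sw_contDiff : ContDiff ℝ ∞ (deriv sw) := by
  have h := itd_contDiff sw_contDiff 1
  rwa [iteratedDeriv_one] at h

theorem deriv_sw_of_nonpos {t : ℝ} (ht : t ≤ 0) : deriv sw t = 0 := by
  have h := iteratedDeriv_sw_of_nonpos 0 ht
  rwa [zero_add, iteratedDeriv_one] at h

theorem deriv_sw_of_one_le {t : ℝ} (ht : 1 ≤ t) : deriv sw t = 0 := by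
  have h := iteratedDeriv_sw_of_one_le 0 ht
  rwa [zero_add, iteratedDeriv_one] at h

/-- the profile before periodization -/
noncomputable def tbr (s : Fin 12) (t : ℝ) : ℝ := 16 * deriv sw (16 * t - ((s : ℕ) + 1 : ℝ))

theorem tb_eq (s : Fin 12) : tb s = per 0 (tbr s) := rfl

theorem tbr_contDiff (s : Fin 12) : ContDiff ℝ ∞ (tbr s) :=
  contDiff_const.mul (deriv_sw_contDiff.comp
    ((contDiff_const.mul contDiff_id).sub contDiff_const))

theorem tbr_of_le (s : Fin 12) {t : ℝ} (ht : t ≤ ((s : ℕ) + 1) / 16) : tbr s t = 0 := by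
  rw [tbr, deriv_sw_of_nonpos (by linarith), mul_zero]

theorem tbr_of_ge (s : Fin 12) {t : ℝ} (ht : ((s : ℕ) + 2 : ℝ) / 16 ≤ t) : tbr s t = 0 := by
  rw [tbr, deriv_sw_of_one_le (by linarith), mul_zero]

theorem fin12_le (s : Fin 12) : ((s : ℕ) : ℝ) ≤ 11 := by
  have : (s : ℕ) ≤ 11 := by omega
  exact_mod_cast this

theorem tbr_zero (s : Fin 12) (x : ℝ) (hx : x ≤ 0 + 1 / 16 ∨ 0 + 1 - 1 / 16 ≤ x) :
    tbr s x = 0 := by
  have h1 : (0 : ℝ) ≤ (s : ℕ) := by positivity
  have h2 := fin12_le s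
  rcases hx with hx | hx
  · exact tbr_of_le s (by linarith)
  · exact tbr_of_ge s (by linarith)

theorem tb_contDiff (s : Fin 12) : ContDiff ℝ ∞ (tb s) :=
  per_contDiff (δ := 1 / 16) (by norm_num) (tbr_contDiff s) (tbr_zero s)

theorem tb_periodic (s : Fin 12) : Function.Periodic (tb s) 1 := per_periodic _ _

theorem tβ_contDiff : ContDiff ℝ ∞ tβ :=
  contDiff_const.mul (deriv_sw_contDiff.comp (contDiff_const.mul contDiff_id))

theorem tβ_of_ge {t : ℝ} (ht : 1 / 16 ≤ t) : tβ t = 0 := by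
  rw [tβ, deriv_sw_of_one_le (by linarith), mul_zero]

theorem tβ_of_le {t : ℝ} (ht : t ≤ 0) : tβ t = 0 := by
  rw [tβ, deriv_sw_of_nonpos (by linarith), mul_zero]

theorem iteratedDeriv_tβ_of_le (k : ℕ) {t : ℝ} (ht : 1 / 16 ≤ t) : iteratedDeriv k tβ t = 0 :=
  itd_zero_of_ge tβ_contDiff (fun _ h => tβ_of_ge h) k ht

/-- at most one profile is active at any time -/
theorem tb_mul (s s' : Fin 12) (h : s ≠ s') (t : ℝ) : tb s t * tb s' t = 0 := by
  rw [tb_eq, tb_eq]
  simp only [per]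
  set x : ℝ := t - ⌊t - 0⌋
  rcases le_total x (((s : ℕ) + 1) / 16) with h1 | h1
  · rw [tbr_of_le s h1, zero_mul]
  rcases le_total (((s : ℕ) + 2 : ℝ) / 16) x with h2 | h2
  · rw [tbr_of_ge s h2, zero_mul]
  rcases lt_or_gt_of_ne (fun h' => h (Fin.ext h') : (s : ℕ) ≠ (s' : ℕ)) with h3 | h3
  · have h4 : ((s : ℕ) : ℝ) + 1 ≤ (s' : ℕ) := by exact_mod_cast h3
    rw [tbr_of_le s' (by linarith), mul_zero]
  · have h4 : ((s' : ℕ) : ℝ) + 1 ≤ (s : ℕ) := by exact_mod_cast h3
    rw [tbr_of_ge s' (by linarith), mul_zero]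

theorem tb_mul_tβ (s : Fin 12) (t : ℝ) : tb s t * tβ t = 0 := by
  rcases le_total t 0 with h1 | h1
  · rw [tβ_of_le h1, mul_zero]
  rcases le_total (1 / 16) t with h2 | h2
  · rw [tβ_of_ge h2, mul_zero]
  · rw [tb_eq, per_of_mem _ ⟨h1, by linarith⟩, tbr_zero s t (Or.inl (by linarith)), zero_mul]

theorem tb_zero (s : Fin 12) : tb s 0 = 0 := by
  rw [tb_eq, per_of_mem _ ⟨le_rfl, by norm_num⟩, tbr_zero s 0 (Or.inl (by norm_num))]

/-! ### Lifts to the circle -/

theorem circ_coe {g : ℝ → ℝ} (hg : Function.Periodic g 1) (k : ℕ) (y : ℝ) :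
    circ g k (y : UnitAddCircle) = iteratedDeriv k g y := by
  unfold circ
  have h1 : ((AddCircle.equivIco 1 0 (y : UnitAddCircle) : Ico (0 : ℝ) (0 + 1)) : ℝ) =
      Int.fract (y / 1) * 1 := AddCircle.coe_equivIco_mk_apply (1 : ℝ) y
  rw [h1, div_one, mul_one, Int.fract]
  have h2 := (itd_periodic hg k).sub_zsmul_eq ⌊y⌋ (x := y)
  simpa using h2

theorem circ_hasDerivAt {g : ℝ → ℝ} (hg : Function.Periodic g 1) (hs : ContDiff ℝ ∞ g) (k : ℕ)
    (x : UnitAddCircle) (s : ℝ) : HasDerivAt (fun s : ℝ => circ g k (x + (s : UnitAddCircle)))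
      (circ g (k + 1) (x + (s : UnitAddCircle))) s := by
  obtain ⟨y, rfl⟩ := QuotientAddGroup.mk_surjective x
  have e : (fun s : ℝ => circ g k ((QuotientAddGroup.mk y : UnitAddCircle) +
      (s : UnitAddCircle))) = fun s : ℝ => iteratedDeriv k g (y + s) := by
    funext s; rw [← circ_coe hg]; rfl
  have e2 : circ g (k + 1) ((QuotientAddGroup.mk y : UnitAddCircle) + (s : UnitAddCircle)) =
      iteratedDeriv (k + 1) g (y + s) := by
    rw [← circ_coe hg]; rfl
  rw [e, e2]
  exact (itd_hasDerivAt hs k (y + s)).comp_const_add y s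

theorem circ_continuous {g : ℝ → ℝ} (hg : Function.Periodic g 1) (hs : ContDiff ℝ ∞ g) (k : ℕ) :
    Continuous (circ g k) := by
  have h : Continuous (circ g k ∘ ((↑) : ℝ → UnitAddCircle)) := by
    have e : (circ g k ∘ ((↑) : ℝ → UnitAddCircle)) = iteratedDeriv k g := by
      funext y; exact circ_coe hg k y
    rw [e]; exact (itd_contDiff hs k).continuous
  exact (QuotientAddGroup.isOpenQuotientMap_mk.isQuotientMap.continuous_iff).2 h

theorem circ_smooth {g : ℝ → ℝ} (hg : Function.Periodic g 1) (hs : ContDiff ℝ ∞ g) (k : ℕ)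
    (j : Fin 3) : ContDiff ℝ ∞ (fun z : ℝ × V3 => circ g k (proj z.2 j)) := by
  have e : (fun z : ℝ × V3 => circ g k (proj z.2 j)) =
      fun z : ℝ × V3 => iteratedDeriv k g (z.2 j) := by
    funext z; exact circ_coe hg k (z.2 j)
  rw [e]
  refine (itd_contDiff hs k).comp ?_
  fun_prop

theorem shift_same (x : T3) (j : Fin 3) (s : ℝ) : shift x j s j = x j + (s : UnitAddCircle) := by
  simp [shift]

theorem shift_ne (x : T3) {j k : Fin 3} (hjk : k ≠ j) (s : ℝ) : shift x j s k = x k := by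
  simp [shift, Pi.single_eq_of_ne hjk]

/-! ### The fields `V` -/

/-- add one space derivative -/
def incS (j : Fin 3) (α : ℕ × ℕ × ℕ × ℕ) : ℕ × ℕ × ℕ × ℕ :=
  (α.1, if j = 0 then α.2.1 + 1 else α.2.1, if j = 1 then α.2.2.1 + 1 else α.2.2.1,
    if j = 2 then α.2.2.2 + 1 else α.2.2.2)

/-- the product of the profiles -/
noncomputable def TT (S : Shears) (s : Fin 12) (α : ℕ × ℕ × ℕ × ℕ) (x : T3) : ℝ :=
  circ (S.g s 0) α.2.1 (x 0) * circ (S.g s 1) α.2.2.1 (x 1) * circ (S.g s 2) α.2.2.2 (x 2)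

theorem V_apply (S : Shears) (P : V3) (α : ℕ × ℕ × ℕ × ℕ) (t : ℝ) (x : T3) (i : Fin 3) :
    V S P α t x i = (∑ s : Fin 12, if S.ax s = i then iteratedDeriv α.1 (tb s) t * TT S s α x
      else 0) + if α.2 = (0, 0, 0) then iteratedDeriv α.1 tβ t * P i else 0 := rfl

theorem TT_hasDerivAt (S : Shears) (s : Fin 12) (α : ℕ × ℕ × ℕ × ℕ) (x : T3) (j : Fin 3) :
    HasDerivAt (fun r : ℝ => TT S s α (shift x j r)) (TT S s (incS j α) x) 0 := by
  have h0 : ∀ k, HasDerivAt (fun r : ℝ => circ (S.g s j) k (x j + (r : UnitAddCircle)))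
      (circ (S.g s j) (k + 1) (x j)) 0 := by
    intro k
    have := circ_hasDerivAt (S.periodic s j) (S.smooth s j) k (x j) 0
    simpa using this
  unfold TT
  fin_cases j
  · simp only [Fin.zero_eta, Fin.isValue] at h0 ⊢
    simp only [shift_same, shift_ne x (show (1 : Fin 3) ≠ 0 by decide),
      shift_ne x (show (2 : Fin 3) ≠ 0 by decide)]
    have := ((h0 α.2.1).mul_const (circ (S.g s 1) α.2.2.1 (x 1))).mul_const
      (circ (S.g s 2) α.2.2.2 (x 2))
    refine this.congr_deriv ?_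
    simp [incS]
  · simp only [Fin.mk_one, Fin.isValue] at h0 ⊢
    simp only [shift_same, shift_ne x (show (0 : Fin 3) ≠ 1 by decide),
      shift_ne x (show (2 : Fin 3) ≠ 1 by decide)]
    have := ((h0 α.2.2.1).const_mul (circ (S.g s 0) α.2.1 (x 0))).mul_const
      (circ (S.g s 2) α.2.2.2 (x 2))
    refine this.congr_deriv ?_
    simp [incS]
  · simp only [Fin.reduceFinMk, Fin.isValue] at h0 ⊢
    simp only [shift_same, shift_ne x (show (0 : Fin 3) ≠ 2 by decide),
      shift_ne x (show (1 : Fin 3) ≠ 2 by decide)]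
    have := (h0 α.2.2.2).const_mul (circ (S.g s 0) α.2.1 (x 0) * circ (S.g s 1) α.2.2.1 (x 1))
    refine this.congr_deriv ?_
    simp [incS]

theorem incS_ne (j : Fin 3) (α : ℕ × ℕ × ℕ × ℕ) : (incS j α).2 ≠ (0, 0, 0) := by
  fin_cases j <;> simp [incS]

theorem V_hasDerivAt_space (S : Shears) (P : V3) (α : ℕ × ℕ × ℕ × ℕ) (t : ℝ) (x : T3) (i j : Fin 3) :
    HasDerivAt (fun r : ℝ => V S P α t (shift x j r) i) (V S P (incS j α) t x i) 0 := by
  simp only [V_apply]
  rw [if_neg (incS_ne j α), add_zero]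
  have h1 : HasDerivAt (fun r : ℝ => ∑ s : Fin 12, if S.ax s = i then
      iteratedDeriv α.1 (tb s) t * TT S s α (shift x j r) else 0)
      (∑ s : Fin 12, if S.ax s = i then iteratedDeriv (incS j α).1 (tb s) t *
        TT S s (incS j α) x else 0) 0 := by
    refine HasDerivAt.fun_sum fun s _ => ?_
    split_ifs
    · exact (TT_hasDerivAt S s α x j).const_mul _
    · exact hasDerivAt_const _ _
  exact h1.add_const _

theorem V_hasDerivAt_time (S : Shears) (P : V3) (α : ℕ × ℕ × ℕ × ℕ) (t : ℝ) (x : T3) (i : Fin 3) :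
    HasDerivAt (fun t : ℝ => V S P α t x i) (V S P (α.1 + 1, α.2) t x i) t := by
  simp only [V_apply]
  refine HasDerivAt.add ?_ ?_
  · refine HasDerivAt.fun_sum fun s _ => ?_
    split_ifs
    · exact (itd_hasDerivAt (tb_contDiff s) α.1 t).mul_const _
    · exact hasDerivAt_const _ _
  · split_ifs
    · exact (itd_hasDerivAt tβ_contDiff α.1 t).mul_const _
    · exact hasDerivAt_const _ _

theorem V_contDiff (S : Shears) (P : V3) (α : ℕ × ℕ × ℕ × ℕ) (i : Fin 3) :
    ContDiff ℝ ∞ (fun z : ℝ × V3 => V S P α z.1 (proj z.2) i) := by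
  simp only [V_apply]
  refine ContDiff.add ?_ ?_
  · refine ContDiff.sum fun s _ => ?_
    split_ifs
    · refine ContDiff.mul ((itd_contDiff (tb_contDiff s) α.1).comp contDiff_fst) ?_
      exact ((circ_smooth (S.periodic s 0) (S.smooth s 0) _ 0).mul
        (circ_smooth (S.periodic s 1) (S.smooth s 1) _ 1)).mul
        (circ_smooth (S.periodic s 2) (S.smooth s 2) _ 2)
    · exact contDiff_const
  · split_ifs
    · exact ((itd_contDiff tβ_contDiff α.1).comp contDiff_fst).mul contDiff_const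
    · exact contDiff_const

theorem V_smooth (S : Shears) (P : V3) (α : ℕ × ℕ × ℕ × ℕ) : SmoothField (V S P α) := by
  refine ContDiff.contDiffOn ?_
  rw [contDiff_pi]
  intro i
  exact V_contDiff S P α i

theorem frc_smooth (ν : ℝ) (S : Shears) (P : V3) : SmoothField (frc ν S P) := by
  refine ContDiff.contDiffOn ?_
  rw [contDiff_pi]
  intro i
  exact (V_contDiff S P _ i).sub (contDiff_const.mul
    (((V_contDiff S P _ i).add (V_contDiff S P _ i)).add (V_contDiff S P _ i)))

theorem V_continuous (S : Shears) (P : V3) (α : ℕ × ℕ × ℕ × ℕ) : Continuous (uncurry (V S P α)) := by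
  refine continuous_pi fun i => ?_
  simp only [uncurry, V_apply]
  refine Continuous.add ?_ ?_
  · refine continuous_finsetSum _ fun s _ => ?_
    split_ifs
    · refine Continuous.mul ((itd_contDiff (tb_contDiff s) α.1).continuous.comp
        continuous_fst) ?_
      have hc : ∀ (j : Fin 3) (k : ℕ), Continuous fun z : ℝ × T3 => circ (S.g s j) k (z.2 j) :=
        fun j k => (circ_continuous (S.periodic s j) (S.smooth s j) k).comp
          ((continuous_apply j).comp continuous_snd)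
      exact ((hc 0 _).mul (hc 1 _)).mul (hc 2 _)
    · exact continuous_const
  · split_ifs
    · exact ((itd_contDiff tβ_contDiff α.1).continuous.comp continuous_fst).mul continuous_const
    · exact continuous_const

theorem circ_one {g : ℝ → ℝ} (h : ∀ x, g x = 1) (k : ℕ) (x : UnitAddCircle) :
    circ g (k + 1) x = 0 := by
  have e : g = fun _ => 1 := funext h
  unfold circ
  rw [e, iteratedDeriv_const]
  simp

/-- a shear does not depend on its own coordinate -/
theorem TT_ax (S : Shears) (s : Fin 12) (α : ℕ × ℕ × ℕ × ℕ) (x : T3) :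
    TT S s (incS (S.ax s) α) x = 0 := by
  have h := S.indep s
  unfold TT
  generalize S.ax s = j at h
  fin_cases j
  · simp only [Fin.zero_eta, Fin.isValue] at h ⊢
    simp [incS, circ_one h]
  · simp only [Fin.mk_one, Fin.isValue] at h ⊢
    simp [incS, circ_one h]
  · simp only [Fin.reduceFinMk, Fin.isValue] at h ⊢
    simp [incS, circ_one h]

theorem vel_apply (S : Shears) (P : V3) (t : ℝ) (x : T3) (i : Fin 3) :
    vel S P t x i = (∑ s : Fin 12, if S.ax s = i then tb s t * TT S s (0, 0, 0, 0) x else 0)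
      + tβ t * P i := by
  rw [vel, V_apply]
  simp

/-- every term of the convective derivative vanishes -/
theorem convective (S : Shears) (P : V3) (t : ℝ) (x : T3) (i j : Fin 3) :
    vel S P t x j * V S P (incS j (0, 0, 0, 0)) t x i = 0 := by
  rw [vel_apply, V_apply, if_neg (incS_ne j _), add_zero, add_mul, Finset.sum_mul_sum,
    Finset.mul_sum]
  have h1 : (∑ s : Fin 12, ∑ s' : Fin 12,
      (if S.ax s = j then tb s t * TT S s (0, 0, 0, 0) x else 0) *
        (if S.ax s' = i then iteratedDeriv (incS j (0, 0, 0, 0)).1 (tb s') t *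
          TT S s' (incS j (0, 0, 0, 0)) x else 0)) = 0 := by
    refine Finset.sum_eq_zero fun s _ => Finset.sum_eq_zero fun s' _ => ?_
    have e : iteratedDeriv (incS j (0, 0, 0, 0)).1 (tb s') t = tb s' t := by
      simp [incS]
    rw [e]
    split_ifs with h2 h3
    · by_cases hs : s = s'
      · subst hs
        rw [← h2, TT_ax]
        ring
      · have := tb_mul s s' hs t
        linear_combination TT S s (0, 0, 0, 0) x * TT S s' (incS j (0, 0, 0, 0)) x * this
    · simp
    · simp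
    · simp
  have h2 : (∑ s' : Fin 12, tβ t * P j *
        (if S.ax s' = i then iteratedDeriv (incS j (0, 0, 0, 0)).1 (tb s') t *
          TT S s' (incS j (0, 0, 0, 0)) x else 0)) = 0 := by
    refine Finset.sum_eq_zero fun s' _ => ?_
    have e : iteratedDeriv (incS j (0, 0, 0, 0)).1 (tb s') t = tb s' t := by
      simp [incS]
    rw [e]
    split_ifs
    · have := tb_mul_tβ s' t
      linear_combination P j * TT S s' (incS j (0, 0, 0, 0)) x * this
    · simp
  rw [h1, h2, add_zero]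

theorem V_div (S : Shears) (P : V3) (t : ℝ) (x : T3) (j : Fin 3) :
    V S P (incS j (0, 0, 0, 0)) t x j = 0 := by
  rw [V_apply, if_neg (incS_ne j _), add_zero]
  refine Finset.sum_eq_zero fun s _ => ?_
  split_ifs with h
  · rw [← h, TT_ax, mul_zero]
  · rfl

theorem vel_isSolution (ν T : ℝ) (S : Shears) (P : V3) :
    IsClassicalSolution ν (frc ν S P) T (vel S P) (fun _ _ => 0) := by
  refine ⟨V S P (1, 0, 0, 0), fun j => V S P (incS j (0, 0, 0, 0)),
    fun j k => V S P (incS k (incS j (0, 0, 0, 0))), fun j t x => 0,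
    ?_, ?_, ?_, ?_, ?_, ?_, ?_, ?_, ?_, ?_, ?_, ?_, ?_, ?_⟩
  · intro t _ x
    refine HasDerivAt.hasDerivWithinAt ?_
    rw [hasDerivAt_pi]
    intro i
    exact V_hasDerivAt_time S P (0, 0, 0, 0) t x i
  · intro t _ x j
    rw [hasDerivAt_pi]
    intro i
    exact V_hasDerivAt_space S P (0, 0, 0, 0) t x i j
  · intro t _ x j k
    rw [hasDerivAt_pi]
    intro i
    exact V_hasDerivAt_space S P (incS j (0, 0, 0, 0)) t x i k
  · intro t _ x j
    exact hasDerivAt_const _ _
  · exact (V_continuous S P _).continuousOn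
  · exact (V_continuous S P _).continuousOn
  · intro j
    exact (V_continuous S P _).continuousOn
  · intro j k
    exact (V_continuous S P _).continuousOn
  · exact continuous_const.continuousOn
  · intro j
    exact continuous_const.continuousOn
  · intro t _ x i
    have e0 : incS 0 (incS 0 (0, 0, 0, 0)) = (0, 2, 0, 0) := rfl
    have e1 : incS 1 (incS 1 (0, 0, 0, 0)) = (0, 0, 2, 0) := rfl
    have e2 : incS 2 (incS 2 (0, 0, 0, 0)) = (0, 0, 0, 2) := rfl
    rw [Finset.sum_eq_zero fun j _ => convective S P t x i j, Fin.sum_univ_three]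
    simp only [frc, e0, e1, e2]
    ring
  · intro t _ x
    exact Finset.sum_eq_zero fun j _ => V_div S P t x j
  · intro x
    funext i
    rw [vel_apply, tβ_of_le le_rfl]
    simp [tb_zero]
  · intro t _
    simp

/-! ### Mixed derivatives of the force -/

/-- the mixed derivatives of the force -/
noncomputable def WW (ν : ℝ) (S : Shears) (P : V3) (i : Fin 3) (α : ℕ × ℕ × ℕ × ℕ) (t : ℝ)
    (x : T3) : ℝ :=
  V S P (α.1 + 1, α.2.1, α.2.2.1, α.2.2.2) t x i -
    ν * (V S P (α.1, α.2.1 + 2, α.2.2.1, α.2.2.2) t x i +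
      V S P (α.1, α.2.1, α.2.2.1 + 2, α.2.2.2) t x i +
      V S P (α.1, α.2.1, α.2.2.1, α.2.2.2 + 2) t x i)

theorem WW_space (ν : ℝ) (S : Shears) (P : V3) (i j : Fin 3) (α : ℕ × ℕ × ℕ × ℕ) :
    spaceDeriv j (WW ν S P i α) = WW ν S P i (incS j α) := by
  funext t x
  have h1 := V_hasDerivAt_space S P (α.1 + 1, α.2.1, α.2.2.1, α.2.2.2) t x i j
  have h2 := V_hasDerivAt_space S P (α.1, α.2.1 + 2, α.2.2.1, α.2.2.2) t x i j
  have h3 := V_hasDerivAt_space S P (α.1, α.2.1, α.2.2.1 + 2, α.2.2.2) t x i j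
  have h4 := V_hasDerivAt_space S P (α.1, α.2.1, α.2.2.1, α.2.2.2 + 2) t x i j
  have h5 := (h1.sub (((h2.add h3).add h4).const_mul ν)).deriv
  have e : (spaceDeriv j (WW ν S P i α)) t x = deriv (fun r : ℝ =>
    WW ν S P i α t (shift x j r)) 0 := rfl
  rw [e]
  refine Eq.trans h5 ?_
  have e1 : ((incS j α).1, (incS j α).2.1 + 2, (incS j α).2.2.1, (incS j α).2.2.2) =
      incS j (α.1, α.2.1 + 2, α.2.2.1, α.2.2.2) := by
    simp only [incS, Prod.mk.injEq, true_and, and_true]
    split_ifs <;> omega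
  have e2 : ((incS j α).1, (incS j α).2.1, (incS j α).2.2.1 + 2, (incS j α).2.2.2) =
      incS j (α.1, α.2.1, α.2.2.1 + 2, α.2.2.2) := by
    simp only [incS, Prod.mk.injEq, true_and, and_true]
    split_ifs <;> omega
  have e3 : ((incS j α).1, (incS j α).2.1, (incS j α).2.2.1, (incS j α).2.2.2 + 2) =
      incS j (α.1, α.2.1, α.2.2.1, α.2.2.2 + 2) := by
    simp only [incS, Prod.mk.injEq, true_and]
    split_ifs <;> omega
  simp only [WW]
  rw [e1, e2, e3]
  rfl

theorem WW_space_iter (ν : ℝ) (S : Shears) (P : V3) (i j : Fin 3) (α : ℕ × ℕ × ℕ × ℕ) (n : ℕ) :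
    (spaceDeriv j)^[n] (WW ν S P i α) = WW ν S P i ((incS j)^[n] α) := by
  induction n with
  | zero => rfl
  | succ n ih => rw [iterate_succ_apply', ih, WW_space, iterate_succ_apply']

theorem WW_time_iter (ν : ℝ) (S : Shears) (P : V3) (i : Fin 3) (a : ℕ × ℕ × ℕ) (n : ℕ) {t : ℝ}
    (ht : 0 ≤ t) (x : T3) :
    timeDeriv^[n] (WW ν S P i (0, a)) t x = WW ν S P i (n, a) t x := by
  induction n generalizing t with
  | zero => rfl
  | succ n ih =>
    rw [iterate_succ_apply']
    have h1 : timeDeriv (timeDeriv^[n] (WW ν S P i (0, a))) t x =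
        derivWithin (fun s => WW ν S P i (n, a) s x) (Ici 0) t := by
      simp only [timeDeriv]
      exact derivWithin_congr (fun s hs => ih hs) (ih ht)
    rw [h1]
    have h2 := V_hasDerivAt_time S P (n + 1, a.1, a.2.1, a.2.2) t x i
    have h3 := V_hasDerivAt_time S P (n, a.1 + 2, a.2.1, a.2.2) t x i
    have h4 := V_hasDerivAt_time S P (n, a.1, a.2.1 + 2, a.2.2) t x i
    have h5 := V_hasDerivAt_time S P (n, a.1, a.2.1, a.2.2 + 2) t x i
    have h6 : HasDerivAt (fun s => WW ν S P i (n, a) s x) (WW ν S P i (n + 1, a) t x) t :=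
      h2.sub (((h3.add h4).add h5).const_mul ν)
    exact h6.hasDerivWithinAt.derivWithin (uniqueDiffOn_Ici 0 t ht)

theorem incS_iter_zero (n a b c d : ℕ) : (incS 0)^[n] (a, b, c, d) = (a, b + n, c, d) := by
  induction n with
  | zero => rfl
  | succ n ih => rw [iterate_succ_apply', ih]; simp [incS, add_assoc]

theorem incS_iter_one (n a b c d : ℕ) : (incS 1)^[n] (a, b, c, d) = (a, b, c + n, d) := by
  induction n with
  | zero => rfl
  | succ n ih => rw [iterate_succ_apply', ih]; simp [incS, add_assoc]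

theorem incS_iter_two (n a b c d : ℕ) : (incS 2)^[n] (a, b, c, d) = (a, b, c, d + n) := by
  induction n with
  | zero => rfl
  | succ n ih => rw [iterate_succ_apply', ih]; simp [incS, add_assoc]

theorem mixedDeriv_frc (ν : ℝ) (S : Shears) (P : V3) (α : ℕ × ℕ × ℕ × ℕ) (i : Fin 3) {t : ℝ}
    (ht : 0 ≤ t) (x : T3) : mixedDeriv α (fun s Q => frc ν S P s Q i) t x =
      V S P (α.1 + 1, α.2.1, α.2.2.1, α.2.2.2) t x i -
        ν * (V S P (α.1, α.2.1 + 2, α.2.2.1, α.2.2.2) t x i +
          V S P (α.1, α.2.1, α.2.2.1 + 2, α.2.2.2) t x i +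
          V S P (α.1, α.2.1, α.2.2.1, α.2.2.2 + 2) t x i) := by
  have e : (fun s Q => frc ν S P s Q i) = WW ν S P i (0, 0, 0, 0) := rfl
  rw [mixedDeriv, e, WW_space_iter, WW_space_iter, WW_space_iter, incS_iter_two, incS_iter_one,
    incS_iter_zero, WW_time_iter ν S P i _ _ ht]
  simp only [zero_add]
  rfl

/-! ### Periodicity -/

theorem V_periodic (S : Shears) (P : V3) (α : ℕ × ℕ × ℕ × ℕ) {t : ℝ} (ht : 1 / 16 ≤ t) (x : T3)
    (i : Fin 3) : V S P α (t + 1) x i = V S P α t x i := by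
  rw [V_apply, V_apply, iteratedDeriv_tβ_of_le _ ht, iteratedDeriv_tβ_of_le _ (by linarith)]
  simp only [itd_periodic (tb_periodic _) _ t]

theorem V_indep (S : Shears) (P P' : V3) (α : ℕ × ℕ × ℕ × ℕ) {t : ℝ} (ht : 1 / 16 ≤ t) (x : T3)
    (i : Fin 3) : V S P α t x i = V S P' α t x i := by
  rw [V_apply, V_apply, iteratedDeriv_tβ_of_le _ ht]
  simp

theorem frc_periodic (ν : ℝ) (S : Shears) (P : V3) {t : ℝ} (ht : 1 ≤ t) (x : T3) :
    frc ν S P (t + 1) x = frc ν S P t x := by
  have h : (1 : ℝ) / 16 ≤ t := by linarith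
  funext i
  simp only [frc, V_periodic S P _ h]

theorem frc_indep (ν : ℝ) (S : Shears) (P P' : V3) {t : ℝ} (ht : 1 ≤ t) (x : T3) :
    frc ν S P t x = frc ν S P' t x := by
  have h : (1 : ℝ) / 16 ≤ t := by linarith
  funext i
  simp only [frc, V_indep S P P' _ h]

end Vale.Agent.P113.Sim
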