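import Vale.Agent.P113.Sim.Tab
import Vale.Agent.P113.Sim.NS
import Vale.Agent.P113.Compiler

/-!
# P113 simulation: the compiler
-/

open Set Function
open scoped ContDiff

namespace Vale.Agent.P113.Sim

variable {β : Type*} [Primcodable β]

theorem CR_finsum {ι : Type*} (s : Finset ι) {F : ι → β → ℝ} (hF : ∀ i ∈ s, CR (F i)) :
    CR fun b => ∑ i ∈ s, F i b := by
  classical
  induction s using Finset.induction_on with
  | empty => exact CR.zero.of_eq fun b => by simp
  | insert i s hi ih =>
    have h1 := (hF i (Finset.mem_insert_self _ _)).add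
      (ih fun j hj => hF j (Finset.mem_insert_of_mem hj))
    exact h1.of_eq fun b => by rw [Finset.sum_insert hi]

/-- The mixed derivatives of the velocity at rational points. -/
noncomputable def VD (x : Machine.Descr × List ℕ) (α : ℕ × ℕ × ℕ × ℕ) (i : ℕ) (t a b c : Q3) : ℝ :=
  (∑ s : Fin 12, if ((axes s : Fin 3) : ℕ) = i then iteratedDeriv α.1 (tb s) (rv t) *
    (iteratedDeriv α.2.1 (gfun x.1 s 0) (rv a) * iteratedDeriv α.2.2.1 (gfun x.1 s 1) (rv b) *
      iteratedDeriv α.2.2.2 (gfun x.1 s 2) (rv c)) else 0) +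
  if α.2 = (0, 0, 0) then iteratedDeriv α.1 tβ (rv t) *
    (if i = 0 then pt x.1 ([], queue0 x) 0 else if i = 1 then pt x.1 ([], queue0 x) 1 else
      pt x.1 ([], queue0 x) 2) else 0

theorem VD_eq (x : Machine.Descr × List ℕ) (α : ℕ × ℕ × ℕ × ℕ) (i : Fin 3) (t a b c : Q3) :
    V (shears x.1) (pt x.1 ([], queue0 x)) α (rv t) (proj ![rv a, rv b, rv c]) i =
      VD x α (i : ℕ) t a b c := by
  have e0 : ∀ s k, circ ((shears x.1).g s 0) k (proj ![rv a, rv b, rv c] 0) =
      iteratedDeriv k (gfun x.1 s 0) (rv a) := fun s k => circ_coe (gfun_periodic _ _ _) k (rv a)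
  have e1 : ∀ s k, circ ((shears x.1).g s 1) k (proj ![rv a, rv b, rv c] 1) =
      iteratedDeriv k (gfun x.1 s 1) (rv b) := fun s k => circ_coe (gfun_periodic _ _ _) k (rv b)
  have e2 : ∀ s k, circ ((shears x.1).g s 2) k (proj ![rv a, rv b, rv c] 2) =
      iteratedDeriv k (gfun x.1 s 2) (rv c) := fun s k => circ_coe (gfun_periodic _ _ _) k (rv c)
  have eax : (shears x.1).ax = axes := rfl
  unfold V VD
  simp only [e0, e1, e2, eax]
  have hi : ∀ s, ((axes s : Fin 3) : ℕ) = (i : ℕ) ↔ axes s = i := fun s => Fin.ext_iff.symm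
  simp only [hi]
  congr 1
  fin_cases i <;> rfl

theorem CR_VD {x : β → Machine.Descr × List ℕ} {a0 a1 a2 a3 i : β → ℕ} {t a b c : β → Q3}
    (hx : Computable x) (h0 : Computable a0) (h1 : Computable a1) (h2 : Computable a2)
    (h3 : Computable a3) (hi : Computable i) (ht : Computable t) (ha : Computable a)
    (hb : Computable b) (hc : Computable c) :
    CR fun z => VD (x z) (a0 z, a1 z, a2 z, a3 z) (i z) (t z) (a z) (b z) (c z) := by
  have hD : Computable fun z => (x z).1 := Computable.fst.comp hx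
  have heq : ∀ {f g : β → ℕ}, Computable f → Computable g →
      Computable fun z => decide (f z = g z) := fun hf hg =>
    (Primrec.eq (α := ℕ)).decide.to_comp.comp hf hg
  refine CR.add (CR_finsum _ fun s _ => ?_) ?_
  · refine CR.ite (heq (Computable.const _) hi) ?_ CR.zero
    refine CR.mul ?_ (CR.mul (CR.mul ?_ ?_) ?_)
    · exact (Eff_tb s).CR_deriv (f := fun _ => ()) (Computable.const ()) h0 ht
    · exact (Eff_gfun s 0).CR_deriv hD h1 ha
    · exact (Eff_gfun s 1).CR_deriv hD h2 hb
    · exact (Eff_gfun s 2).CR_deriv hD h3 hc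
  · have hdec : Computable fun z => decide ((a1 z, a2 z, a3 z) = ((0, 0, 0) : ℕ × ℕ × ℕ)) :=
      (Primrec.eq (α := ℕ × ℕ × ℕ)).decide.to_comp.comp (h1.pair (h2.pair h3))
        (Computable.const _)
    refine CR.ite hdec ?_ CR.zero
    refine CR.mul ((Eff_tβ).CR_deriv (f := fun _ => ()) (Computable.const ()) h0 ht) ?_
    exact CR.ite (heq hi (Computable.const _)) ((CR_pt 0).comp hx)
      (CR.ite (heq hi (Computable.const _)) ((CR_pt 1).comp hx) ((CR_pt 2).comp hx))

/-- The mixed derivatives of the force at rational points. -/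
noncomputable def FDs (ν : ℝ) (z : Par) : ℝ :=
  VD z.1 (z.2.1.1 + 1, z.2.1.2.1, z.2.1.2.2.1, z.2.1.2.2.2) z.2.2.1 z.2.2.2.1 z.2.2.2.2.1
      z.2.2.2.2.2.1 z.2.2.2.2.2.2.1 -
    ν * (VD z.1 (z.2.1.1, z.2.1.2.1 + 2, z.2.1.2.2.1, z.2.1.2.2.2) z.2.2.1 z.2.2.2.1
        z.2.2.2.2.1 z.2.2.2.2.2.1 z.2.2.2.2.2.2.1 +
      VD z.1 (z.2.1.1, z.2.1.2.1, z.2.1.2.2.1 + 2, z.2.1.2.2.2) z.2.2.1 z.2.2.2.1
        z.2.2.2.2.1 z.2.2.2.2.2.1 z.2.2.2.2.2.2.1 +
      VD z.1 (z.2.1.1, z.2.1.2.1, z.2.1.2.2.1, z.2.1.2.2.2 + 2) z.2.2.1 z.2.2.2.1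
        z.2.2.2.2.1 z.2.2.2.2.2.1 z.2.2.2.2.2.2.1)

theorem CR_FDs {ν : ℝ} (hν : IsComputableReal ν) : CR (FDs ν) := by
  have x : Computable fun z : Par => z.1 := Computable.fst
  have al : Computable fun z : Par => z.2.1 := Computable.fst.comp Computable.snd
  have a0 : Computable fun z : Par => z.2.1.1 := Computable.fst.comp al
  have a1 : Computable fun z : Par => z.2.1.2.1 := Computable.fst.comp (Computable.snd.comp al)
  have a2 : Computable fun z : Par => z.2.1.2.2.1 :=
    Computable.fst.comp (Computable.snd.comp (Computable.snd.comp al))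
  have a3 : Computable fun z : Par => z.2.1.2.2.2 :=
    Computable.snd.comp (Computable.snd.comp (Computable.snd.comp al))
  have s0 : Computable fun z : Par => z.2.1.1 + 1 := Computable.succ.comp a0
  have s1 : Computable fun z : Par => z.2.1.2.1 + 2 :=
    Computable.succ.comp (Computable.succ.comp a1)
  have s2 : Computable fun z : Par => z.2.1.2.2.1 + 2 :=
    Computable.succ.comp (Computable.succ.comp a2)
  have s3 : Computable fun z : Par => z.2.1.2.2.2 + 2 :=
    Computable.succ.comp (Computable.succ.comp a3)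
  have r1 : Computable fun z : Par => z.2.2 := Computable.snd.comp Computable.snd
  have i : Computable fun z : Par => z.2.2.1 := Computable.fst.comp r1
  have r2 : Computable fun z : Par => z.2.2.2 := Computable.snd.comp r1
  have t : Computable fun z : Par => z.2.2.2.1 := Computable.fst.comp r2
  have r3 : Computable fun z : Par => z.2.2.2.2 := Computable.snd.comp r2
  have a : Computable fun z : Par => z.2.2.2.2.1 := Computable.fst.comp r3
  have r4 : Computable fun z : Par => z.2.2.2.2.2 := Computable.snd.comp r3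
  have b : Computable fun z : Par => z.2.2.2.2.2.1 := Computable.fst.comp r4
  have r5 : Computable fun z : Par => z.2.2.2.2.2.2 := Computable.snd.comp r4
  have c : Computable fun z : Par => z.2.2.2.2.2.2.1 := Computable.fst.comp r5
  exact (CR_VD x s0 a1 a2 a3 i t a b c).sub ((CR.of_real hν).mul
    (((CR_VD x a0 s1 a2 a3 i t a b c).add (CR_VD x a0 a1 s2 a3 i t a b c)).add
      (CR_VD x a0 a1 a2 s3 i t a b c)))

theorem FDs_eq (ν : ℝ) (x : Machine.Descr × List ℕ) (α : ℕ × ℕ × ℕ × ℕ) (i : Fin 3)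
    (t a b c ε : Q3) (ht : 0 ≤ rv t) :
    mixedDeriv α (fun s P => frc ν (shears x.1) (pt x.1 ([], queue0 x)) s P i) (rv t)
      (proj ![rv a, rv b, rv c]) = FDs ν (x, α, (i : ℕ), t, a, b, c, ε) := by
  rw [mixedDeriv_frc ν _ _ α i ht]
  simp only [VD_eq, FDs]

/-- the data of a machine and of an input -/
def dat (M : Machine) (w : List M.Sym) : Machine.Descr × List ℕ := (M.descr, w.map Fin.val)

/-- the point prepared for the input -/
noncomputable def inp (M : Machine) (w : List M.Sym) : V3 := pt M.descr ([], queue0 (dat M w))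

/-- The force compiler for the viscosity `ν`. -/
theorem exists_compiler {ν : ℝ} (hν : IsComputableReal ν) :
    ∃ F : ForceCompiler, F.T₀ = 1 / 16 ∧ (∀ M, F.period M = 1) ∧
      ∀ M w, F.force M w = frc ν (shears M.descr) (inp M w) := by
  obtain ⟨compile, hc, hc'⟩ := exists_compile (FDs ν) (CR_FDs hν)
  exact ⟨{
    compile := compile
    computable_compile := hc
    force := fun M w => frc ν (shears M.descr) (inp M w)
    smooth := fun M w => frc_smooth ν _ _
    effective := by
      intro M w α i t x y z ε ht hε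
      have ht' : 0 ≤ rv t := by exact_mod_cast ht
      have hε' : 0 < rv ε := by exact_mod_cast hε
      obtain ⟨q, hq, hq'⟩ := hc' (M.descr, w.map Fin.val) (α, (i : ℕ), t, x, y, z, ε) hε'
      refine ⟨q, hq, ?_⟩
      have := FDs_eq ν (M.descr, w.map Fin.val) α i t x y z ε ht'
      rw [inp, dat, this]
      exact hq'
    T₀ := 1 / 16
    period := fun _ => 1
    period_pos := fun _ => one_pos
    periodic := fun M w t x ht => by
      funext i
      simp only [frc, V_periodic _ _ _ ht]
    machine_only := fun M w w' t x ht => by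
      funext i
      simp only [frc, V_indep _ (inp M w) (inp M w') _ ht] }, rfl, fun _ => rfl, fun M w => rfl⟩

end Vale.Agent.P113.Sim
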