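import Vale.Agent.P113.Phase
import Vale.Agent.P113.TMComp

/-!
# P113, simulation version: definitions

A time-periodic composition of twelve shears of the torus that simulates a Turing machine.
-/

open Set Function
open scoped ContDiff

namespace Vale.Agent.P113.Sim

/-! ## Analysis: switch, effective families, periodization, plateau functions -/

/-- The smooth switch: `0` for `t ≤ 0`, `1` for `t ≥ 1`. -/
noncomputable def sw (t : ℝ) : ℝ := h (h t)

/-- A family of smooth functions on `ℝ`, uniformly computable at rational points, with computable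
bounds on all its derivatives on `[-n, n]`. -/
def Eff {α : Type*} [Primcodable α] (F : α → ℝ → ℝ) : Prop :=
  (∀ a, ContDiff ℝ ∞ (F a)) ∧ (CR fun z : α × Q3 => F z.1 (rv z.2)) ∧
    ∃ B : α → ℕ × ℕ → ℕ, Computable₂ B ∧
      ∀ (a : α) (k n : ℕ) (t : ℝ), |t| ≤ n → |iteratedDeriv k (F a) t| ≤ B a (k, n)

/-- The function of period `1` that agrees with `g` on `[c, c + 1)`. -/
noncomputable def per (c : ℝ) (g : ℝ → ℝ) (x : ℝ) : ℝ := g (x - ⌊x - c⌋)

/-- A plateau: `1` on `[0, 1/2]`, `0` outside `(-1/4, 3/4)`. -/
noncomputable def plat (t : ℝ) : ℝ := sw (4 * t + 1) * sw (3 - 4 * t)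

/-- The function with the value `v j` on `[j ρ, (j + 1/2) ρ]`, `j < n`. -/
noncomputable def PL (n : ℕ) (ρ : ℝ) (v : ℕ → ℝ) (x : ℝ) : ℝ :=
  ∑ j ∈ Finset.range n, v j * plat (x / ρ - j)

/-- The identity on `[0, 1/4]`, cut off outside `(-1/8, 3/8)`. -/
noncomputable def kap (x : ℝ) : ℝ := x * plat (2 * x)

/-! ## Shear programs on the torus -/

/-- Twelve shears: the `s`-th one moves `x` by `∏ j, g s j (x j)` in the direction `ax s`. -/
structure Shears where
  ax : Fin 12 → Fin 3
  g : Fin 12 → Fin 3 → ℝ → ℝ
  smooth : ∀ s j, ContDiff ℝ ∞ (g s j)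
  periodic : ∀ s j, Function.Periodic (g s j) 1
  indep : ∀ s x, g s (ax s) x = 1

/-- The displacement of the `s`-th shear. -/
noncomputable def Shears.F (S : Shears) (s : Fin 12) (y : V3) : ℝ := ∏ j, S.g s j (y j)

/-- The `s`-th shear. -/
noncomputable def Shears.shear (S : Shears) (s : Fin 12) (y : V3) : V3 :=
  y + Pi.single (S.ax s) (S.F s y)

/-- The point reached after the first `j` shears. -/
noncomputable def Shears.stage (S : Shears) (y : V3) : ℕ → V3
  | 0 => y
  | j + 1 => if hj : j < 12 then S.shear ⟨j, hj⟩ (S.stage y j) else S.stage y j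

/-- All twelve shears. -/
noncomputable def Shears.map (S : Shears) (y : V3) : V3 := S.stage y 12

/-- Time profile of the `s`-th shear: in each period `[k, k+1]` it is active during
`[k + (s+1)/16, k + (s+2)/16]`. -/
noncomputable def tb (s : Fin 12) : ℝ → ℝ :=
  per 0 fun t => 16 * deriv sw (16 * t - ((s : ℕ) + 1 : ℝ))

/-- Time profile of the initial translation, active during `[0, 1/16]`. -/
noncomputable def tβ (t : ℝ) : ℝ := 16 * deriv sw (16 * t)

/-- The lift to the circle of the `k`-th derivative of a function of period `1`. -/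
noncomputable def circ (g : ℝ → ℝ) (k : ℕ) (x : UnitAddCircle) : ℝ :=
  iteratedDeriv k g ((AddCircle.equivIco 1 0 x : Ico (0 : ℝ) (0 + 1)) : ℝ)

/-- The mixed derivatives of the velocity field: the shears `S` preceded by the translation by
`P`. -/
noncomputable def V (S : Shears) (P : V3) (α : ℕ × ℕ × ℕ × ℕ) (t : ℝ) (x : T3) : V3 := fun i =>
  (∑ s : Fin 12, if S.ax s = i then iteratedDeriv α.1 (tb s) t *
    (circ (S.g s 0) α.2.1 (x 0) * circ (S.g s 1) α.2.2.1 (x 1) * circ (S.g s 2) α.2.2.2 (x 2))
      else 0) +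
  if α.2 = (0, 0, 0) then iteratedDeriv α.1 tβ t * P i else 0

/-- The velocity field. -/
noncomputable def vel (S : Shears) (P : V3) : ℝ → T3 → V3 := V S P (0, 0, 0, 0)

/-- The force. -/
noncomputable def frc (ν : ℝ) (S : Shears) (P : V3) (t : ℝ) (x : T3) : V3 := fun i =>
  V S P (1, 0, 0, 0) t x i -
    ν * (V S P (0, 2, 0, 0) t x i + V S P (0, 0, 2, 0) t x i + V S P (0, 0, 0, 2) t x i)

/-! ## The queue automaton of a machine -/

/-- the number of tape symbols -/
def nS (D : Machine.Descr) : ℕ := D.2.1 + 1

/-- the number of digits: `0` is the marker, `1 + a` the cell `a`, `1 + (q+1) nS + a` the cell `a`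
with the head in state `q` -/
def nD (D : Machine.Descr) : ℕ := 1 + (D.1 + 2) * nS D

/-- the base of the positional system -/
def base (D : Machine.Descr) : ℕ := 2 * nD D

/-- the digit of a cell with the head -/
def headc (D : Machine.Descr) (q a : ℕ) : ℕ := 1 + (q + 1) * nS D + a

/-- the table entry of a machine in state `q` reading `a` -/
def tabE (D : Machine.Descr) (q a : ℕ) : ℕ × ℕ × ℕ :=
  (D.2.2.2.2[q * nS D + a]?).getD (0, 0, 0)

/-- the state in the digit `c` -/
def hq (D : Machine.Descr) (c : ℕ) : ℕ := (c - 1) / nS D - 1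

/-- the symbol in the digit `c` -/
def ha (D : Machine.Descr) (c : ℕ) : ℕ := (c - 1) % nS D

/-- the table entry for the digit `c` -/
def tab (D : Machine.Descr) (c : ℕ) : ℕ × ℕ × ℕ := tabE D (hq D c) (ha D c)

/-- the local rule: the new digit of a cell, from the digits of the cell and of its neighbours -/
def rule (D : Machine.Descr) (l c r : ℕ) : ℕ :=
  if 1 + nS D ≤ c then
    (if (tab D c).2.2 = 0 then headc D (tab D c).1 (tab D c).2.1 else (tab D c).2.1 + 1)
  else if 1 + nS D ≤ l ∧ (tab D l).2.2 ≠ 0 ∧ (tab D l).2.2 ≠ 1 then headc D (tab D l).1 (c - 1)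
  else if 1 + nS D ≤ r ∧ (tab D r).2.2 = 1 then headc D (tab D r).1 (c - 1)
  else if c = 0 then 1 else c

/-- the digits of the next row on a row, read from left to right (`l`, `c` the previous two) -/
def slide (D : Machine.Descr) : ℕ → ℕ → List ℕ → List ℕ
  | _, _, [] => []
  | l, c, r :: t => rule D l c r :: slide D c r t

/-- first digit written by a step of the queue automaton, `s`, `h0`, `h1` the last digits read -/
def wr1 (D : Machine.Descr) (s h0 h1 : ℕ) : ℕ := rule D (if h0 = 0 then 0 else h1) h0 s

/-- the digits written by a step of the queue automaton, `s`, `h0`, `h1` the last digits read -/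
def wr (D : Machine.Descr) (s h0 h1 : ℕ) : List ℕ :=
  if s = 0 then [wr1 D s h0 h1, rule D h0 0 0, 0, 0, 0] else [wr1 D s h0 h1]

/-- a state of the queue automaton: the digits already read (last one first) and the queue -/
abbrev QS : Type := List ℕ × List ℕ

/-- a step of the queue automaton -/
def qstep (D : Machine.Descr) (c : QS) : QS :=
  (c.2.headI :: c.1, (if c.2.headI = 0 then c.2.drop 3 else c.2.tail) ++
    wr D c.2.headI c.1.headI c.1.tail.headI)

/-- rows: state, cells to the left of the head (nearest first), cell under the head, cells to the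
right of the head -/
abbrev Row : Type := ℕ × List ℕ × ℕ × List ℕ

/-- the digits of a row -/
def rowWord (D : Machine.Descr) (ρ : Row) : List ℕ :=
  ρ.2.1.reverse.map (· + 1) ++ headc D ρ.1 ρ.2.2.1 :: ρ.2.2.2.map (· + 1)

/-- a step of the machine on rows; the row grows by one blank at both ends -/
def rstep (D : Machine.Descr) (ρ : Row) : Row :=
  let e := tabE D ρ.1 ρ.2.2.1
  if e.2.2 = 0 then (e.1, ρ.2.1 ++ [0], e.2.1, ρ.2.2.2 ++ [0])
  else if e.2.2 = 1 then
    (e.1, (ρ.2.1 ++ [0]).tail, (ρ.2.1 ++ [0]).headI, e.2.1 :: (ρ.2.2.2 ++ [0]))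
  else (e.1, e.2.1 :: (ρ.2.1 ++ [0]), (ρ.2.2.2 ++ [0]).headI, (ρ.2.2.2 ++ [0]).tail)

/-- the initial row -/
def row0 (x : Machine.Descr × List ℕ) : Row := (x.1.2.2.1, [], x.2.headI, x.2.tail)

/-- the initial queue -/
def queue0 (x : Machine.Descr × List ℕ) : List ℕ := rowWord x.1 (row0 x) ++ [0, 0, 0]

/-- the digit of a cell with the head in a halting state -/
def haltDigit (D : Machine.Descr) (c : ℕ) : Prop :=
  1 + nS D ≤ c ∧ (D.2.2.2.1[hq D c]?).getD false = true

instance (D : Machine.Descr) : DecidablePred (haltDigit D) := fun _ =>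
  inferInstanceAs (Decidable (_ ∧ _))

/-! ## The points of the torus -/

/-- the value `∑ d_i b^{-i-1}` of a list of digits -/
noncomputable def dval (b : ℝ) : List ℕ → ℝ
  | [] => 0
  | d :: l => (d + dval b l) / b

/-- the unit of length `1/(8 base)` -/
noncomputable def eps (D : Machine.Descr) : ℝ := 1 / (8 * base D)

/-- the point of a state of the queue automaton -/
noncomputable def pt (D : Machine.Descr) (c : QS) : V3 :=
  ![eps D * dval (base D) c.2, eps D * (base D : ℝ)⁻¹ ^ c.2.length, eps D * dval (base D) c.1]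

/-- the value of the shear that writes: window number `j = s b² + h0 b + h1` -/
def Sval (D : Machine.Descr) (j : ℕ) : ℕ :=
  let b := base D
  let s := j / b ^ 2
  let h0 := j / b % b
  let h1 := j % b
  if s = 0 then wr1 D s h0 h1 * b ^ 4 + rule D h0 0 0 * b ^ 3 else wr1 D s h0 h1

/-- The kinds of one-dimensional profiles. -/
inductive Kind
  | one | lin (c : Fin 8) | dig | int | mark | halt | write

/-- The slopes of the linear profiles. -/
noncomputable def slope (D : Machine.Descr) : Fin 8 → ℝ :=
  let b : ℝ := base D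
  ![1, -1, b, (b - 1) / b, -(b - 1), b ^ 2, (b ^ 2 - 1) / b ^ 2, -(b ^ 2 - 1)]

/-- The one-dimensional profiles, before periodization. -/
noncomputable def prof (D : Machine.Descr) : Kind → ℝ → ℝ
  | .one => fun _ => 1
  | .lin c => fun x => slope D c * kap x
  | .dig => PL (nD D) (eps D / base D) fun j => eps D * j
  | .int => PL (nD D) (eps D) fun j => -(eps D / base D * j)
  | .mark => PL 1 (eps D / base D) fun _ => 1
  | .halt => PL (nD D) (eps D / base D) fun j => if haltDigit D j then 1 / 2 else 0
  | .write => PL (base D ^ 3) (eps D / base D ^ 3) fun j => (Sval D j : ℝ)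

/-- The periodic profiles. -/
noncomputable def pprof (D : Machine.Descr) : Kind → ℝ → ℝ
  | .one => fun _ => 1
  | k => per (-(1 / 2)) (prof D k)

/-- The profiles of the twelve shears (coordinates `0, 1, 2` = queue, unit, history). -/
def kind : Fin 12 → Fin 3 → Kind :=
  ![![.dig, .one, .one],
    ![.one, .one, .int],
    ![.lin 2, .one, .one],
    ![.one, .one, .lin 3],
    ![.lin 1, .one, .one],
    ![.one, .one, .lin 4],
    ![.lin 5, .one, .mark],
    ![.one, .lin 6, .mark],
    ![.lin 1, .one, .mark],
    ![.one, .lin 7, .mark],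
    ![.one, .lin 0, .write],
    ![.one, .one, .halt]]

/-- The directions of the twelve shears. -/
def axes : Fin 12 → Fin 3 := ![2, 0, 2, 0, 2, 0, 1, 0, 1, 0, 0, 1]

/-- The profiles of the twelve shears. -/
noncomputable def gfun (D : Machine.Descr) (s : Fin 12) (j : Fin 3) : ℝ → ℝ := pprof D (kind s j)

end Vale.Agent.P113.Sim
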