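import Vale.Agent.P113.Sim.Defs

/-!
# P113, simulation version: effective families of smooth functions
-/

open Set Function
open scoped ContDiff

namespace Vale.Agent.P113.Sim

variable {α β : Type*} [Primcodable α] [Primcodable β]

namespace EffAux

/-- sums of computable natural numbers are computable -/
theorem computable_nsum {f : α → ℕ → ℕ} {n : α → ℕ} (hf : Computable₂ f) (hn : Computable n) :
    Computable fun a => ∑ i ∈ Finset.range (n a), f a i := by
  have h : Computable fun a => (Nat.rec 0 (fun i r => r + f a i) (n a) : ℕ) := by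
    refine Computable.nat_rec (f := n) (g := fun _ => (0 : ℕ))
      (h := fun a (p : ℕ × ℕ) => p.2 + f a p.1) hn (Computable.const _) ?_
    exact Primrec.nat_add.to_comp.comp (Computable.snd.comp Computable.snd)
      (hf.comp Computable.fst (Computable.fst.comp Computable.snd))
  refine h.of_eq fun a => ?_
  induction n a with
  | zero => simp
  | succ n ih => rw [Finset.sum_range_succ, ← ih]

theorem abs_rv_le (q : Q3) : |rv q| ≤ ((q.1 + q.2.1 : ℕ) : ℝ) := by
  rw [rv_def, abs_div, abs_of_pos (by positivity : (0 : ℝ) < (q.2.2 : ℝ) + 1)]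
  have h4 : |(q.1 : ℝ) - q.2.1| ≤ q.1 + q.2.1 := by
    rw [abs_le]
    have := Nat.cast_nonneg (α := ℝ) q.1
    have := Nat.cast_nonneg (α := ℝ) q.2.1
    constructor <;> linarith
  have h5 : (0 : ℝ) ≤ q.2.2 := Nat.cast_nonneg _
  push_cast
  calc _ ≤ |(q.1 : ℝ) - q.2.1| / 1 := by
        apply div_le_div_of_nonneg_left (abs_nonneg _) one_pos; linarith
    _ ≤ _ := by rw [div_one]; exact h4

/-- bound of a rational code -/
def qb (q : Q3) : ℕ := q.1 + q.2.1

theorem primrec_qb : Primrec qb :=
  Primrec.nat_add.comp Primrec.fst (Primrec.fst.comp Primrec.snd)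

theorem abs_le_qb (q : Q3) : |rv q| ≤ (qb q : ℝ) := abs_rv_le q

end EffAux

open EffAux

theorem _root_.Vale.Agent.P113.CR.sum {F : α × ℕ → ℝ} (hF : CR F) {n : α → ℕ} (hn : Computable n) :
    CR fun a => ∑ i ∈ Finset.range (n a), F (a, i) := by
  obtain ⟨g, hg, H⟩ := hF
  have hN : Computable (fun z : α × ℕ => n z.1 * (z.2 + 1)) :=
    Primrec.nat_mul.to_comp.comp (hn.comp Computable.fst) (Computable.succ.comp Computable.snd)
  have hf : Computable₂ fun (z : α × ℕ) (i : ℕ) => g (z.1, i) (n z.1 * (z.2 + 1)) := by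
    exact hg.comp (Computable.pair (Computable.fst.comp Computable.fst) Computable.snd)
      (hN.comp Computable.fst)
  refine ⟨fun a k => qsum (fun i => g (a, i) (n a * (k + 1))) (n a), ?_, fun a k => ?_⟩
  · exact computable_qsum (f := fun (z : α × ℕ) (i : ℕ) => g (z.1, i) (n z.1 * (z.2 + 1)))
      (n := fun z : α × ℕ => n z.1) hf (hn.comp Computable.fst)
  · rw [rv_qsum, ← Finset.sum_sub_distrib]
    refine (Finset.abs_sum_le_sum_abs _ _).trans ?_
    have h1 : ∀ i ∈ Finset.range (n a), |F (a, i) - rv (g (a, i) (n a * (k + 1)))| ≤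
        1 / ((n a : ℝ) * (k + 1) + 1) := by
      intro i _
      have := H (a, i) (n a * (k + 1))
      push_cast at this
      exact this
    refine (Finset.sum_le_sum h1).trans ?_
    rw [Finset.sum_const, Finset.card_range, nsmul_eq_mul, mul_one_div,
      div_le_div_iff₀ (by positivity) (by positivity)]
    have : (0 : ℝ) ≤ n a := Nat.cast_nonneg _
    linarith

theorem Eff.of_eq {F G : α → ℝ → ℝ} (h : Eff F) (e : ∀ a t, F a t = G a t) : Eff G := by
  obtain rfl : F = G := funext fun a => funext (e a)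
  exact h

theorem Eff.const {c : α → ℝ} (hc : CR c) : Eff fun a _ => c a := by
  obtain ⟨B, hB, hB'⟩ := hc.bound
  refine ⟨fun a => contDiff_const, hc.comp Computable.fst,
    fun a _ => B a, hB.comp Computable.fst, fun a k n t _ => ?_⟩
  rw [iteratedDeriv_const]
  split_ifs
  · exact hB' a
  · simp

theorem Eff.ident : Eff fun (_ : α) (t : ℝ) => t := by
  refine ⟨fun a => contDiff_id, CR.rat Computable.snd,
    fun _ z => z.2 + 1, Computable.succ.comp (Computable.snd.comp Computable.snd),
    fun a k n t ht => ?_⟩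
  rw [iteratedDeriv_fun_id]
  push_cast
  have h0 : (0 : ℝ) ≤ n := Nat.cast_nonneg _
  split_ifs
  · linarith
  · rw [abs_one]; linarith
  · rw [abs_zero]; linarith

theorem Eff.comp {F : α → ℝ → ℝ} (hF : Eff F) {g : β → α} (hg : Computable g) :
    Eff fun b => F (g b) := by
  obtain ⟨h1, h2, B, hB, h3⟩ := hF
  exact ⟨fun b => h1 (g b), h2.comp (h := fun z : β × Q3 => (g z.1, z.2))
      (Computable.pair (hg.comp Computable.fst) Computable.snd),
    fun b => B (g b), hB.comp (hg.comp Computable.fst) Computable.snd,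
    fun b k n t ht => h3 (g b) k n t ht⟩

theorem Eff.add {F G : α → ℝ → ℝ} (hF : Eff F) (hG : Eff G) : Eff fun a t => F a t + G a t := by
  obtain ⟨f1, f2, B, hB, f3⟩ := hF
  obtain ⟨g1, g2, C, hC, g3⟩ := hG
  refine ⟨fun a => (f1 a).add (g1 a), f2.add g2, fun a z => B a z + C a z,
    Primrec.nat_add.to_comp.comp hB hC, fun a k n t ht => ?_⟩
  have hf : ContDiffAt ℝ k (F a) t := ((f1 a).contDiffAt).of_le (mod_cast le_top)
  have hg : ContDiffAt ℝ k (G a) t := ((g1 a).contDiffAt).of_le (mod_cast le_top)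
  rw [iteratedDeriv_fun_add hf hg]
  push_cast
  exact (abs_add_le _ _).trans (add_le_add (f3 a k n t ht) (g3 a k n t ht))

theorem Eff.mul {F G : α → ℝ → ℝ} (hF : Eff F) (hG : Eff G) : Eff fun a t => F a t * G a t := by
  obtain ⟨f1, f2, B, hB, f3⟩ := hF
  obtain ⟨g1, g2, C, hC, g3⟩ := hG
  -- cumulative bounds
  have hM : ∀ {B : α → ℕ × ℕ → ℕ}, Computable₂ B →
      Computable fun z : α × (ℕ × ℕ) => ∑ i ∈ Finset.range (z.2.1 + 1), B z.1 (i, z.2.2) := by
    intro B hB
    refine computable_nsum (f := fun (z : α × (ℕ × ℕ)) (i : ℕ) => B z.1 (i, z.2.2))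
      (n := fun z : α × (ℕ × ℕ) => z.2.1 + 1) ?_
      (Computable.succ.comp (Computable.fst.comp Computable.snd))
    exact hB.comp (Computable.fst.comp Computable.fst)
      (Computable.pair Computable.snd (Computable.snd.comp (Computable.snd.comp Computable.fst)))
  refine ⟨fun a => (f1 a).mul (g1 a), f2.mul g2,
    fun a z => 2 ^ z.1 * ((∑ i ∈ Finset.range (z.1 + 1), B a (i, z.2)) *
      ∑ i ∈ Finset.range (z.1 + 1), C a (i, z.2)), ?_, fun a k n t ht => ?_⟩
  · exact Primrec.nat_mul.to_comp.comp
      (primrec_nat_pow.to_comp.comp (Computable.const 2) (Computable.fst.comp Computable.snd))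
      (Primrec.nat_mul.to_comp.comp (hM hB) (hM hC))
  · have hf : ContDiffAt ℝ k (F a) t := ((f1 a).contDiffAt).of_le (mod_cast le_top)
    have hg : ContDiffAt ℝ k (G a) t := ((g1 a).contDiffAt).of_le (mod_cast le_top)
    rw [iteratedDeriv_fun_mul hf hg]
    refine (Finset.abs_sum_le_sum_abs _ _).trans ?_
    have key : ∀ i ∈ Finset.range (k + 1),
        |(k.choose i : ℝ) * iteratedDeriv i (F a) t * iteratedDeriv (k - i) (G a) t| ≤
        (k.choose i : ℝ) * (((∑ i ∈ Finset.range (k + 1), B a (i, n) : ℕ) : ℝ) *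
          ((∑ i ∈ Finset.range (k + 1), C a (i, n) : ℕ) : ℝ)) := by
      intro i hi
      rw [Finset.mem_range] at hi
      rw [abs_mul, abs_mul, Nat.abs_cast, mul_assoc]
      apply mul_le_mul_of_nonneg_left _ (Nat.cast_nonneg _)
      apply mul_le_mul _ _ (abs_nonneg _) (Nat.cast_nonneg _)
      · refine (f3 a i n t ht).trans ?_
        exact_mod_cast Finset.single_le_sum (f := fun i => B a (i, n))
          (fun j _ => Nat.zero_le _) (Finset.mem_range.2 hi)
      · refine (g3 a (k - i) n t ht).trans ?_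
        exact_mod_cast Finset.single_le_sum (f := fun i => C a (i, n))
          (fun j _ => Nat.zero_le _) (Finset.mem_range.2 (by omega : k - i < k + 1))
    refine (Finset.sum_le_sum key).trans (le_of_eq ?_)
    rw [← Finset.sum_mul]
    have : (∑ i ∈ Finset.range (k + 1), (k.choose i : ℝ)) = 2 ^ k := by
      have := Nat.sum_range_choose k
      exact_mod_cast this
    rw [this]
    push_cast
    ring

theorem Eff.affine {F : α → ℝ → ℝ} (hF : Eff F) {c d : α → Q3} (hc : Computable c)
    (hd : Computable d) : Eff fun a t => F a (rv (c a) * t + rv (d a)) := by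
  obtain ⟨f1, f2, B, hB, f3⟩ := hF
  have hcb : Computable fun a => qb (c a) := primrec_qb.to_comp.comp hc
  have hdb : Computable fun a => qb (d a) := primrec_qb.to_comp.comp hd
  refine ⟨fun a => (f1 a).comp ((contDiff_const.mul contDiff_id).add contDiff_const), ?_,
    fun a z => qb (c a) ^ z.1 * B a (z.1, qb (c a) * z.2 + qb (d a)), ?_, fun a k n t ht => ?_⟩
  · refine (f2.comp (h := fun z : α × Q3 => (z.1, qadd (qmul (c z.1) z.2) (d z.1))) ?_).of_eq ?_
    · exact Computable.pair Computable.fst (primrec_qadd.to_comp.comp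
        (primrec_qmul.to_comp.comp (hc.comp Computable.fst) Computable.snd)
        (hd.comp Computable.fst))
    · intro z
      simp only [rv_qadd, rv_qmul]
  · have hcb' := hcb.comp (Computable.fst (α := α) (β := ℕ × ℕ))
    have hdb' := hdb.comp (Computable.fst (α := α) (β := ℕ × ℕ))
    exact Primrec.nat_mul.to_comp.comp
      (primrec_nat_pow.to_comp.comp hcb' (Computable.fst.comp Computable.snd))
      (hB.comp Computable.fst (Computable.pair (Computable.fst.comp Computable.snd)
        (Primrec.nat_add.to_comp.comp (Primrec.nat_mul.to_comp.comp hcb'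
          (Computable.snd.comp Computable.snd)) hdb')))
  · have e : iteratedDeriv k (fun t => F a (rv (c a) * t + rv (d a))) t =
        rv (c a) ^ k * iteratedDeriv k (F a) (rv (c a) * t + rv (d a)) := by
      have h1 : ContDiff ℝ k (fun x => F a (x + rv (d a))) :=
        ((f1 a).of_le (mod_cast le_top)).comp (contDiff_id.add contDiff_const)
      have h2 := congrFun (iteratedDeriv_comp_const_mul h1 (rv (c a))) t
      have h3 := congrFun (iteratedDeriv_comp_add_const k (F a) (rv (d a))) (rv (c a) * t)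
      rw [h2, h3]
    rw [e, abs_mul, abs_pow]
    push_cast
    apply mul_le_mul _ _ (abs_nonneg _) (by positivity)
    · exact pow_le_pow_left₀ (abs_nonneg _) (abs_le_qb _) _
    · apply f3
      refine (abs_add_le _ _).trans ?_
      rw [abs_mul]
      push_cast
      exact add_le_add (mul_le_mul (abs_le_qb _) ht (abs_nonneg _) (Nat.cast_nonneg _))
        (abs_le_qb _)

theorem Eff.sum {F : α × ℕ → ℝ → ℝ} (hF : Eff F) {n : α → ℕ} (hn : Computable n) :
    Eff fun a t => ∑ i ∈ Finset.range (n a), F (a, i) t := by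
  obtain ⟨f1, f2, B, hB, f3⟩ := hF
  refine ⟨fun a => ContDiff.sum fun i _ => f1 (a, i), ?_,
    fun a z => ∑ i ∈ Finset.range (n a), B (a, i) z, ?_, fun a k m t ht => ?_⟩
  · refine CR.sum (F := fun z : (α × Q3) × ℕ => F (z.1.1, z.2) (rv z.1.2))
      (f2.comp (h := fun z : (α × Q3) × ℕ => ((z.1.1, z.2), z.1.2)) ?_)
      (n := fun z : α × Q3 => n z.1) (hn.comp Computable.fst)
    exact Computable.pair (Computable.pair (Computable.fst.comp Computable.fst) Computable.snd)
      (Computable.snd.comp Computable.fst)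
  · refine computable_nsum (f := fun (z : α × (ℕ × ℕ)) (i : ℕ) => B (z.1, i) z.2)
      (n := fun z : α × (ℕ × ℕ) => n z.1) ?_ (hn.comp Computable.fst)
    exact hB.comp (Computable.pair (Computable.fst.comp Computable.fst) Computable.snd)
      (Computable.snd.comp Computable.fst)
  · rw [iteratedDeriv_fun_sum fun i _ => ((f1 (a, i)).contDiffAt).of_le (mod_cast le_top)]
    refine (Finset.abs_sum_le_sum_abs _ _).trans ?_
    push_cast
    exact Finset.sum_le_sum fun i _ => f3 (a, i) k m t ht

namespace EffAux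

/-- finite differences and derivatives -/
theorem fwdDiff_eq {h : ℝ} (hh : 0 < h) (k : ℕ) : ∀ {f : ℝ → ℝ}, ContDiff ℝ ∞ f → ∀ t : ℝ,
    ∃ ξ ∈ Icc t (t + k * h), (fwdDiff h)^[k] f t = h ^ k * iteratedDeriv k f ξ := by
  induction k with
  | zero =>
    intro f _ t
    exact ⟨t, ⟨le_rfl, by simp⟩, by simp⟩
  | succ k ih =>
    intro f hf t
    have hg : ContDiff ℝ ∞ (fwdDiff h f) := by
      unfold fwdDiff
      exact (hf.comp (contDiff_id.add contDiff_const)).sub hf
    obtain ⟨ξ, hξ, e⟩ := ih hg t
    rw [Function.iterate_succ_apply, e]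
    have e1 : iteratedDeriv k (fwdDiff h f) ξ = iteratedDeriv k f (ξ + h) - iteratedDeriv k f ξ := by
      have h1 : ContDiff ℝ ∞ (fun x => f (x + h)) := hf.comp (contDiff_id.add contDiff_const)
      have h2 : iteratedDeriv k (fun x => f (x + h) - f x) ξ =
          iteratedDeriv k (fun x => f (x + h)) ξ - iteratedDeriv k f ξ :=
        iteratedDeriv_fun_sub ((h1.contDiffAt).of_le (mod_cast le_top))
          ((hf.contDiffAt).of_le (mod_cast le_top))
      have h3 := congrFun (iteratedDeriv_comp_add_const k f h) ξ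
      rw [h3] at h2
      exact h2
    rw [e1]
    have hd : ∀ x, HasDerivAt (iteratedDeriv k f) (iteratedDeriv (k + 1) f x) x := by
      intro x
      rw [iteratedDeriv_succ]
      exact ((hf.differentiable_iteratedDeriv k (mod_cast WithTop.coe_lt_top _)) x).hasDerivAt
    obtain ⟨η, hη, e2⟩ := exists_hasDerivAt_eq_slope (iteratedDeriv k f)
      (iteratedDeriv (k + 1) f) (by linarith : ξ < ξ + h)
      (fun x _ => (hd x).continuousAt.continuousWithinAt) (fun x _ => hd x)
    refine ⟨η, ⟨by linarith [hξ.1, hη.1], ?_⟩, ?_⟩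
    · push_cast
      linarith [hξ.2, hη.2]
    · rw [e2, add_sub_cancel_left, pow_succ]
      have := hh.ne'
      field_simp

/-- the code of the coefficient `(-1)^(k-i) C(k,i)` -/
def coef (k i : ℕ) : Q3 :=
  if (k - i) % 2 = 0 then (k.factorial / (i.factorial * (k - i).factorial), 0, 0)
  else (0, k.factorial / (i.factorial * (k - i).factorial), 0)

theorem primrec_coef : Primrec₂ coef := by
  have h1 : Primrec fun z : ℕ × ℕ => z.1 - z.2 := Primrec.nat_sub.comp Primrec.fst Primrec.snd
  have h2 : Primrec fun z : ℕ × ℕ =>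
      z.1.factorial / (z.2.factorial * (z.1 - z.2).factorial) :=
    Primrec.nat_div.comp (primrec_factorial.comp Primrec.fst)
      (Primrec.nat_mul.comp (primrec_factorial.comp Primrec.snd) (primrec_factorial.comp h1))
  exact Primrec.ite (Primrec.eq.comp (Primrec.nat_mod.comp h1 (Primrec.const 2))
    (Primrec.const 0)) (Primrec.pair h2 (Primrec.const (0, 0)))
    (Primrec.pair (Primrec.const 0) (Primrec.pair h2 (Primrec.const 0)))

theorem rv_coef {k i : ℕ} (hi : i ≤ k) : rv (coef k i) = (-1) ^ (k - i) * (k.choose i : ℝ) := by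
  rw [Nat.choose_eq_factorial_div_factorial hi]
  unfold coef
  generalize k.factorial / (i.factorial * (k - i).factorial) = c
  split_ifs with h
  · rw [rv_def, (Nat.even_iff.2 h).neg_one_pow]
    simp
  · rw [rv_def, (Nat.odd_iff.2 (by omega)).neg_one_pow]
    simp

theorem fwdDiff_sum (h : ℝ) (f : ℝ → ℝ) (k : ℕ) (t : ℝ) :
    (fwdDiff h)^[k] f t = ∑ i ∈ Finset.range (k + 1), rv (coef k i) * f (t + i * h) := by
  rw [fwdDiff_iter_eq_sum_shift]
  refine Finset.sum_congr rfl fun i hi => ?_
  rw [rv_coef (by rw [Finset.mem_range] at hi; omega)]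
  simp

end EffAux

/-- finite differences: `∑ (-1)^(k-i) C(k,i) F(t+ih) / h^k → F^(k)(t)` -/
theorem Eff.deriv {F : α → ℝ → ℝ} (hF : Eff F) :
    Eff fun z : α × ℕ => iteratedDeriv z.2 (F z.1) := by
  obtain ⟨f1, f2, B, hB, f3⟩ := hF
  have hsm : ∀ (a : α) (k : ℕ), ContDiff ℝ ∞ (iteratedDeriv k (F a)) := by
    intro a k
    rw [iteratedDeriv_eq_iterate]
    exact (f1 a).iterate_deriv k
  refine ⟨fun z => hsm z.1 z.2, ?_,
    fun z y => B z.1 (y.1 + z.2, y.2), ?_, fun z k n t ht => ?_⟩
  · -- the precision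
    let N : ((α × ℕ) × Q3) → ℕ → ℕ := fun z n =>
      z.1.2 * B z.1.1 (z.1.2 + 1, qb z.2 + z.1.2) * (n + 1)
    have hN : Computable fun y : ((α × ℕ) × Q3) × ℕ => N y.1 y.2 := by
      have a1 : Computable fun y : ((α × ℕ) × Q3) × ℕ => y.1.1.2 :=
        Computable.snd.comp (Computable.fst.comp Computable.fst)
      have a2 : Computable fun y : ((α × ℕ) × Q3) × ℕ => y.1.1.1 :=
        Computable.fst.comp (Computable.fst.comp Computable.fst)
      have a3 : Computable fun y : ((α × ℕ) × Q3) × ℕ => qb y.1.2 :=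
        primrec_qb.to_comp.comp (Computable.snd.comp Computable.fst)
      exact Primrec.nat_mul.to_comp.comp (Primrec.nat_mul.to_comp.comp a1
        (hB.comp a2 (Computable.pair (Computable.succ.comp a1)
          (Primrec.nat_add.to_comp.comp a3 a1)))) (Computable.succ.comp Computable.snd)
    -- the approximations
    have hS : CR fun w : ((((α × ℕ) × Q3) × ℕ) × ℕ) =>
        rv (coef w.1.1.1.2 w.2) * F w.1.1.1.1 (rv (qadd w.1.1.2 (w.2, 0, N w.1.1 w.1.2))) := by
      have b1 : Computable fun w : ((((α × ℕ) × Q3) × ℕ) × ℕ) => w.1.1.1.2 :=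
        Computable.snd.comp (Computable.fst.comp (Computable.fst.comp Computable.fst))
      have b2 : Computable fun w : ((((α × ℕ) × Q3) × ℕ) × ℕ) => w.1.1.1.1 :=
        Computable.fst.comp (Computable.fst.comp (Computable.fst.comp Computable.fst))
      have b3 : Computable fun w : ((((α × ℕ) × Q3) × ℕ) × ℕ) => w.1.1.2 :=
        Computable.snd.comp (Computable.fst.comp Computable.fst)
      have b4 : Computable fun w : ((((α × ℕ) × Q3) × ℕ) × ℕ) => N w.1.1 w.1.2 :=
        hN.comp Computable.fst
      refine (CR.rat (primrec_coef.to_comp.comp b1 Computable.snd)).mul ?_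
      exact f2.comp (h := fun w : ((((α × ℕ) × Q3) × ℕ) × ℕ) =>
        (w.1.1.1.1, qadd w.1.1.2 (w.2, 0, N w.1.1 w.1.2)))
        (Computable.pair b2 (primrec_qadd.to_comp.comp b3
          (Computable.pair Computable.snd (Computable.pair (Computable.const 0) b4))))
    have hS' := CR.sum hS (n := fun y : ((α × ℕ) × Q3) × ℕ => y.1.1.2 + 1)
      (Computable.succ.comp (Computable.snd.comp (Computable.fst.comp Computable.fst)))
    have hT : CR fun y : ((α × ℕ) × Q3) × ℕ => (((N y.1 y.2 + 1) ^ y.1.1.2 : ℕ) : ℝ) := by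
      apply CR.nat
      exact primrec_nat_pow.to_comp.comp (Computable.succ.comp hN)
        (Computable.snd.comp (Computable.fst.comp Computable.fst))
    refine CR.lim (hT.mul hS') fun z n => ?_
    obtain ⟨⟨a, k⟩, q⟩ := z
    simp only
    set M : ℕ := N ((a, k), q) n with hM
    have hMdef : M = k * B a (k + 1, qb q + k) * (n + 1) := rfl
    set h : ℝ := 1 / ((M : ℝ) + 1) with hh
    have hh0 : 0 < h := by positivity
    have hh1 : h ≤ 1 := by
      rw [hh, div_le_one (by positivity)]
      have : (0 : ℝ) ≤ M := Nat.cast_nonneg _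
      linarith
    have hsum : ∑ i ∈ Finset.range (k + 1), rv (coef k i) * F a (rv (qadd q (i, 0, M))) =
        (fwdDiff h)^[k] (F a) (rv q) := by
      rw [fwdDiff_sum]
      refine Finset.sum_congr rfl fun i _ => ?_
      rw [rv_qadd]
      congr 3
      rw [rv_def]
      simp only [Nat.cast_zero, sub_zero]
      rw [hh]
      ring
    rw [hsum]
    obtain ⟨ξ, hξ, e⟩ := fwdDiff_eq hh0 k (f1 a) (rv q)
    rw [e]
    have e2 : (((M + 1) ^ k : ℕ) : ℝ) * (h ^ k * iteratedDeriv k (F a) ξ) =
        iteratedDeriv k (F a) ξ := by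
      push_cast
      rw [← mul_assoc, ← mul_pow, hh]
      have : ((M : ℝ) + 1) * (1 / ((M : ℝ) + 1)) = 1 := by field_simp
      rw [this]; simp
    rw [e2]
    -- mean value bound
    have hd : ∀ x, HasDerivAt (iteratedDeriv k (F a)) (iteratedDeriv (k + 1) (F a) x) x := by
      intro x
      rw [iteratedDeriv_succ]
      exact (((f1 a).differentiable_iteratedDeriv k (mod_cast WithTop.coe_lt_top _)) x).hasDerivAt
    have hkh : (k : ℝ) * h ≤ k := by
      have : (0 : ℝ) ≤ k := Nat.cast_nonneg _
      nlinarith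
    have hb : ∀ x ∈ Icc (rv q) (rv q + k * h), ‖iteratedDeriv (k + 1) (F a) x‖ ≤
        (B a (k + 1, qb q + k) : ℝ) := by
      intro x hx
      apply f3
      have h1 := abs_le.1 (abs_le_qb q)
      push_cast
      rw [abs_le]
      have : (0 : ℝ) ≤ k := Nat.cast_nonneg _
      constructor <;> linarith [hx.1, hx.2]
    have hmv := (convex_Icc (rv q) (rv q + k * h)).norm_image_sub_le_of_norm_hasDerivWithin_le
      (f := iteratedDeriv k (F a)) (f' := fun x => iteratedDeriv (k + 1) (F a) x)
      (fun x _ => (hd x).hasDerivWithinAt) hb hξ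
      (⟨le_rfl, by have : (0 : ℝ) ≤ k * h := by positivity
                   linarith⟩ : rv q ∈ Icc (rv q) (rv q + k * h))
    rw [Real.norm_eq_abs, Real.norm_eq_abs] at hmv
    refine hmv.trans ?_
    have h2 : |rv q - ξ| ≤ k * h := by
      rw [abs_le]; constructor <;> linarith [hξ.1, hξ.2]
    calc (B a (k + 1, qb q + k) : ℝ) * |rv q - ξ|
        ≤ (B a (k + 1, qb q + k) : ℝ) * (k * h) :=
          mul_le_mul_of_nonneg_left h2 (Nat.cast_nonneg _)
      _ ≤ 1 / ((n : ℝ) + 1) := by
          rw [hh, hMdef]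
          push_cast
          rw [mul_one_div, mul_div_assoc', div_le_div_iff₀ (by positivity) (by positivity)]
          nlinarith
  · exact hB.comp (Computable.fst.comp Computable.fst)
      (Computable.pair (Primrec.nat_add.to_comp.comp (Computable.fst.comp Computable.snd)
        (Computable.snd.comp Computable.fst)) (Computable.snd.comp Computable.snd))
  · have e : iteratedDeriv k (iteratedDeriv z.2 (F z.1)) = iteratedDeriv (k + z.2) (F z.1) := by
      rw [iteratedDeriv_eq_iterate, iteratedDeriv_eq_iterate, iteratedDeriv_eq_iterate,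
        Function.iterate_add_apply]
    rw [e]
    exact f3 z.1 (k + z.2) n t ht

/-- consequence: the form used in the end -/
theorem Eff.CR_deriv {F : α → ℝ → ℝ} (hF : Eff F) {f : β → α} (hf : Computable f) {k : β → ℕ}
    (hk : Computable k) {q : β → Q3} (hq : Computable q) :
    CR fun b => iteratedDeriv (k b) (F (f b)) (rv (q b)) :=
  hF.deriv.2.1.comp (h := fun b => ((f b, k b), q b))
    (Computable.pair (Computable.pair hf hk) hq)

end Vale.Agent.P113.Sim
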