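import Vale.Agent.P113.Sim.Defs

/-! # P113, simulation version, piece F: the queue automaton simulates the machine -/

open Set Function

namespace Vale.Agent.P113.Sim

namespace QAux

/-- a blank is written as the digit `1` -/
def nm (c : ℕ) : ℕ := if c = 0 then 1 else c

/-- last two digits read -/
def st (l c : ℕ) : List ℕ → ℕ × ℕ
  | [] => (l, c)
  | a :: t => st c a t

theorem slide_append (D : Machine.Descr) (l c : ℕ) (A Z : List ℕ) :
    slide D l c (A ++ Z) = slide D l c A ++ slide D (st l c A).1 (st l c A).2 Z := by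
  induction A generalizing l c with
  | nil => simp [slide, st]
  | cons a A ih => simp [slide, st, ih]

theorem st_snoc (l c : ℕ) (A : List ℕ) (x : ℕ) : (st l c (A ++ [x])).2 = x := by
  induction A generalizing l c with
  | nil => rfl
  | cons a A ih => exact ih c a

theorem st_append_snd (l c : ℕ) (A : List ℕ) (x : ℕ) :
    (st l c (A ++ [x])).1 = (st l c A).2 := by
  induction A generalizing l c with
  | nil => rfl
  | cons a A ih => exact ih c a

theorem st_lt {N : ℕ} {l c : ℕ} {A : List ℕ} (hl : l < N) (hc : c < N) (hA : ∀ x ∈ A, x < N) :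
    (st l c A).1 < N ∧ (st l c A).2 < N := by
  induction A generalizing l c with
  | nil => exact ⟨hl, hc⟩
  | cons a A ih =>
    exact ih hc (hA a (by simp)) (fun x hx => hA x (by simp [hx]))

theorem rule_plain {D : Machine.Descr} {l c r : ℕ} (hl : l < 1 + nS D) (hc : c < 1 + nS D)
    (hr : r < 1 + nS D) : rule D l c r = nm c := by
  unfold rule nm
  rw [if_neg (by omega), if_neg (by omega), if_neg (by omega)]

theorem slide_plain {D : Machine.Descr} {l c : ℕ} {A : List ℕ} (hl : l < 1 + nS D)
    (hc : c < 1 + nS D) (hA : ∀ x ∈ A, x < 1 + nS D) :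
    slide D l c A = ((c :: A).dropLast).map nm := by
  induction A generalizing l c with
  | nil => simp [slide]
  | cons a A ih =>
    have ha := hA a (by simp)
    rw [slide, ih hc ha (fun x hx => hA x (by simp [hx])), rule_plain hl hc ha]
    simp

theorem nS_pos (D : Machine.Descr) : 0 < nS D := Nat.succ_pos _

theorem hq_headc {D : Machine.Descr} {q a : ℕ} (ha : a < nS D) : hq D (headc D q a) = q := by
  unfold hq headc
  have e : 1 + (q + 1) * nS D + a - 1 = nS D * (q + 1) + a := by
    rw [Nat.mul_comm]; omega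
  rw [e, Nat.mul_add_div (nS_pos D), Nat.div_eq_of_lt ha]
  omega

theorem ha_headc {D : Machine.Descr} {q a : ℕ} (ha : a < nS D) :
    P113.Sim.ha D (headc D q a) = a := by
  unfold P113.Sim.ha headc
  have e : 1 + (q + 1) * nS D + a - 1 = nS D * (q + 1) + a := by
    rw [Nat.mul_comm]; omega
  rw [e, Nat.mul_add_mod, Nat.mod_eq_of_lt ha]

theorem tab_headc {D : Machine.Descr} {q a : ℕ} (ha : a < nS D) :
    tab D (headc D q a) = tabE D q a := by
  unfold tab
  rw [hq_headc ha, ha_headc ha]

theorem headc_ge (D : Machine.Descr) (q a : ℕ) : 1 + nS D ≤ headc D q a := by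
  unfold headc
  have : nS D ≤ (q + 1) * nS D := Nat.le_mul_of_pos_left _ (Nat.succ_pos q)
  omega

theorem rule_center {D : Machine.Descr} {l r q a : ℕ} (ha : a < nS D) :
    rule D l (headc D q a) r = (if (tabE D q a).2.2 = 0 then
      headc D (tabE D q a).1 (tabE D q a).2.1 else (tabE D q a).2.1 + 1) := by
  unfold rule
  rw [if_pos (headc_ge D q a), tab_headc ha]

theorem rule_right {D : Machine.Descr} {c r q a : ℕ} (ha : a < nS D) (hc : c < 1 + nS D)
    (hr : r < 1 + nS D) :
    rule D (headc D q a) c r = (if (tabE D q a).2.2 ≠ 0 ∧ (tabE D q a).2.2 ≠ 1 then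
      headc D (tabE D q a).1 (c - 1) else nm c) := by
  unfold rule nm
  rw [if_neg (by omega), tab_headc ha]
  by_cases h : (tabE D q a).2.2 ≠ 0 ∧ (tabE D q a).2.2 ≠ 1
  · rw [if_pos ⟨headc_ge D q a, h.1, h.2⟩, if_pos h]
  · rw [if_neg (fun h' => h ⟨h'.2.1, h'.2.2⟩), if_neg (by omega), if_neg h]

theorem rule_left {D : Machine.Descr} {l c q a : ℕ} (ha : a < nS D) (hc : c < 1 + nS D)
    (hl : l < 1 + nS D) :
    rule D l c (headc D q a) = (if (tabE D q a).2.2 = 1 then
      headc D (tabE D q a).1 (c - 1) else nm c) := by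
  unfold rule nm
  rw [if_neg (by omega), if_neg (by omega), tab_headc ha]
  by_cases h : (tabE D q a).2.2 = 1
  · rw [if_pos ⟨headc_ge D q a, h⟩, if_pos h]
  · rw [if_neg (fun h' => h h'.2), if_neg h]

theorem map_nm (R : List ℕ) : (R.map (· + 1)).map nm = R.map (· + 1) := by
  rw [List.map_map]
  apply List.map_congr_left
  intro x _
  simp [nm]

/-- the local rule computes the next row -/
theorem slide_row (D : Machine.Descr) (q : ℕ) (L : List ℕ) (a : ℕ) (R : List ℕ)
    (hL : ∀ x ∈ L, x < nS D) (ha : a < nS D) (hR : ∀ x ∈ R, x < nS D) :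
    slide D 0 0 (rowWord D (q, L, a, R) ++ [0, 0]) = rowWord D (rstep D (q, L, a, R)) := by
  have h0 : 0 < 1 + nS D := by omega
  -- the left part
  have hP : ∀ x ∈ L.reverse.map (· + 1), x < 1 + nS D := by
    intro x hx
    simp only [List.mem_map, List.mem_reverse] at hx
    obtain ⟨y, hy, rfl⟩ := hx
    have := hL y hy
    omega
  have hS : ∀ x ∈ R.map (· + 1), x < 1 + nS D := by
    intro x hx
    simp only [List.mem_map] at hx
    obtain ⟨y, hy, rfl⟩ := hx
    have := hR y hy
    omega
  have hst := st_lt h0 h0 hP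
  have e1 : rowWord D (q, L, a, R) ++ [0, 0] =
      L.reverse.map (· + 1) ++ headc D q a :: (R.map (· + 1) ++ [0, 0]) := by
    simp [rowWord]
  rw [e1, slide_append, slide_plain h0 h0 hP, slide, rule_left ha hst.2 hst.1]
  -- the right part
  obtain ⟨s1, s2, S2, hs⟩ : ∃ s1 s2 S2, R.map (· + 1) ++ [0, 0] = s1 :: s2 :: S2 := by
    rcases R with _ | ⟨y, _ | ⟨z, R⟩⟩
    · exact ⟨0, 0, [], rfl⟩
    · exact ⟨y + 1, 0, [0], rfl⟩
    · exact ⟨y + 1, z + 1, R.map (· + 1) ++ [0, 0], rfl⟩
  have hall : ∀ x ∈ s1 :: s2 :: S2, x < 1 + nS D := by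
    rw [← hs]
    intro x hx
    rw [List.mem_append] at hx
    rcases hx with hx | hx
    · exact hS x hx
    · simp at hx; omega
  have e2 : slide D (st 0 0 (L.reverse.map (· + 1))).2 (headc D q a) (R.map (· + 1) ++ [0, 0]) =
      (if (tabE D q a).2.2 = 0 then headc D (tabE D q a).1 (tabE D q a).2.1
        else (tabE D q a).2.1 + 1) ::
      (if (tabE D q a).2.2 ≠ 0 ∧ (tabE D q a).2.2 ≠ 1 then
        headc D (tabE D q a).1 (s1 - 1) else nm s1) :: (s2 :: S2).dropLast.map nm := by
    rw [hs, slide, slide, rule_center ha, rule_right ha (hall s1 (by simp)) (hall s2 (by simp)),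
      slide_plain (hall s1 (by simp)) (hall s2 (by simp)) (fun x hx => hall x (by simp [hx]))]
  rw [e2]
  have e3 : nm s1 :: (s2 :: S2).dropLast.map nm = (R ++ [0]).map (· + 1) := by
    have : nm s1 :: (s2 :: S2).dropLast.map nm = ((s1 :: s2 :: S2).dropLast).map nm := by simp
    rw [this, ← hs]
    have e : (R.map (· + 1) ++ [0, 0]).dropLast = R.map (· + 1) ++ [0] := by
      rw [show (R.map (· + 1) ++ [0, 0]) = (R.map (· + 1) ++ [0]) ++ [0] by simp,
        List.dropLast_concat]
    rw [e, List.map_append, map_nm, List.map_append]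
    rfl
  have e4 : s1 - 1 = (R ++ [0]).headI ∧ (s2 :: S2).dropLast.map nm = (R ++ [0]).tail.map (· + 1) := by
    rcases R with _ | ⟨y, R⟩
    · simp only [List.map_nil, List.nil_append, List.cons.injEq] at hs
      obtain ⟨rfl, rfl, rfl⟩ := hs
      simp
    · simp only [List.map_cons, List.cons_append, List.cons.injEq] at hs
      obtain ⟨h1, h2⟩ := hs
      simp only [List.cons_append, List.map_cons, List.cons.injEq] at e3
      subst h1
      exact ⟨rfl, e3.2⟩
  -- the left end
  have e5 : (st 0 0 (L.reverse.map (· + 1))).2 - 1 = (L ++ [0]).headI ∧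
      ((0 :: L.reverse.map (· + 1)).dropLast).map nm = ((L ++ [0]).tail).reverse.map (· + 1) ∧
      ((0 :: L.reverse.map (· + 1)).dropLast).map nm ++ [nm (st 0 0 (L.reverse.map (· + 1))).2] =
        (L ++ [0]).reverse.map (· + 1) := by
    rcases L with _ | ⟨x, L⟩
    · simp [st, nm]
    · have f1 : (x :: L).reverse.map (· + 1) = L.reverse.map (· + 1) ++ [x + 1] := by simp
      rw [f1, st_snoc]
      have f2 : (0 :: (L.reverse.map (· + 1) ++ [x + 1])).dropLast = 0 :: L.reverse.map (· + 1) := by
        rw [← List.cons_append, List.dropLast_concat]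
      rw [f2]
      refine ⟨by simp, ?_, ?_⟩
      · rw [List.map_cons, map_nm]
        simp [nm]
      · rw [List.map_cons, map_nm]
        simp [nm]
  obtain ⟨e51, e52, e53⟩ := e5
  obtain ⟨e41, e42⟩ := e4
  unfold rstep
  simp only
  by_cases d0 : (tabE D q a).2.2 = 0
  · have d1 : ¬ (tabE D q a).2.2 = 1 := by omega
    have d2 : ¬ ((tabE D q a).2.2 ≠ 0 ∧ (tabE D q a).2.2 ≠ 1) := by omega
    rw [if_neg d1, if_pos d0, if_neg d2, if_pos d0, e3]
    simp only [rowWord]
    rw [← e53]
    simp
  · by_cases d1 : (tabE D q a).2.2 = 1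
    · have d2 : ¬ ((tabE D q a).2.2 ≠ 0 ∧ (tabE D q a).2.2 ≠ 1) := by omega
      rw [if_pos d1, if_neg d0, if_neg d2, if_neg d0, if_pos d1, e3, e51, e52]
      simp only [rowWord, List.map_cons]
    · have d2 : ((tabE D q a).2.2 ≠ 0 ∧ (tabE D q a).2.2 ≠ 1) := ⟨d0, d1⟩
      rw [if_neg d1, if_neg d0, if_pos d2, if_neg d0, if_neg d1, e41, e42]
      simp only [rowWord, List.reverse_cons, List.map_append, List.map_cons, List.map_nil]
      rw [← e53]
      simp

/-- reading a word of nonzero digits -/
theorem read_word (D : Machine.Descr) (W : List ℕ) (hW : ∀ x ∈ W, x ≠ 0) (hist Q : List ℕ) :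
    (qstep D)^[W.length] (hist, W ++ Q) = (W.reverse ++ hist,
      Q ++ slide D (if hist.headI = 0 then 0 else hist.tail.headI) hist.headI W) := by
  induction W generalizing hist Q with
  | nil => simp [slide]
  | cons s W ih =>
    have hs : s ≠ 0 := hW s (by simp)
    rw [List.length_cons, Function.iterate_succ_apply]
    have e : qstep D (hist, s :: W ++ Q) = (s :: hist, W ++ (Q ++
        [rule D (if hist.headI = 0 then 0 else hist.tail.headI) hist.headI s])) := by
      simp [qstep, wr, wr1, hs]
    rw [e, ih (fun x hx => hW x (by simp [hx]))]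
    simp [slide, hs]

theorem rowWord_ne_zero (D : Machine.Descr) (ρ : Row) : ∀ x ∈ rowWord D ρ, x ≠ 0 := by
  intro x hx
  simp only [rowWord, List.mem_append, List.mem_map, List.mem_cons] at hx
  rcases hx with ⟨y, _, rfl⟩ | rfl | ⟨y, _, rfl⟩
  · omega
  · unfold headc; omega
  · omega

theorem rowWord_eq_snoc (D : Machine.Descr) (ρ : Row) : ∃ A x, rowWord D ρ = A ++ [x] := by
  refine ⟨(rowWord D ρ).dropLast, (rowWord D ρ).getLast (by simp [rowWord]), ?_⟩
  rw [List.dropLast_append_getLast]

/-- reading the marker at the end of a row -/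
theorem read_marker (D : Machine.Descr) (W : List ℕ) (hW : ∀ x ∈ W, x ≠ 0) (hne : W ≠ [])
    (hist : List ℕ) (hh : hist.headI = 0) :
    (qstep D)^[W.length + 1] (hist, W ++ [0, 0, 0]) =
      (0 :: (W.reverse ++ hist), slide D 0 0 (W ++ [0, 0]) ++ [0, 0, 0]) := by
  rw [Function.iterate_succ_apply', read_word D W hW, hh]
  simp only [if_true]
  obtain ⟨A, x, rfl⟩ : ∃ A x, W = A ++ [x] :=
    ⟨W.dropLast, W.getLast hne, (List.dropLast_append_getLast hne).symm⟩
  have hx : x ≠ 0 := hW x (by simp)
  have e2 : ((A ++ [x]).reverse ++ hist).tail.headI = (st 0 0 A).2 := by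
    rcases List.eq_nil_or_concat A with rfl | ⟨A', y, rfl⟩
    · simp [st, hh]
    · rw [List.concat_eq_append, st_snoc]
      simp
  have e3 : slide D 0 0 (A ++ [x] ++ [0, 0]) = slide D 0 0 (A ++ [x]) ++
      [rule D (st 0 0 A).2 x 0, rule D x 0 0] := by
    rw [slide_append, st_append_snd, st_snoc]
    simp [slide]
  have e2' : (A.reverse ++ hist).headI = (st 0 0 A).2 := by simpa using e2
  rw [e3]
  simp [qstep, wr, wr1, e2', hx]

/-- the prefix of a pass -/
theorem read_prefix (D : Machine.Descr) (W : List ℕ) (hW : ∀ x ∈ W, x ≠ 0) (hist : List ℕ)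
    (hh : hist.headI = 0) (i : ℕ) (hi : i ≤ W.length) :
    (qstep D)^[i] (hist, W ++ [0, 0, 0]) =
      ((W.take i).reverse ++ hist, W.drop i ++ ([0, 0, 0] ++ slide D 0 0 (W.take i))) := by
  have h1 := read_word D (W.take i) (fun x hx => hW x (List.mem_of_mem_take hx)) hist
    (W.drop i ++ [0, 0, 0])
  rw [← List.append_assoc, List.take_append_drop, List.length_take, min_eq_left hi, hh] at h1
  rw [h1]
  simp

/-! ### rows of the machine -/

theorem mk_pad {n : ℕ} (L : List (Fin (n + 1))) :
    Turing.ListBlank.mk (L ++ [0]) = Turing.ListBlank.mk L := by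
  have : Turing.ListBlank.mk L = Turing.ListBlank.mk (L ++ [0]) :=
    Quotient.sound' (Or.inl ⟨1, rfl⟩)
  exact this.symm

theorem rep_pad (M : Machine) {q : ℕ} {L R : List ℕ} {C : M.Cfg}
    (h : TMComp.Rep M (q, L, R) C) : TMComp.Rep M (q, L ++ [0], R ++ [0]) C := by
  obtain ⟨L', R', h1, h2⟩ := h
  simp only [Prod.mk.injEq] at h1
  obtain ⟨rfl, rfl, rfl⟩ := h1
  refine ⟨L' ++ [0], R' ++ [0], by simp, ?_⟩
  rw [mk_pad, mk_pad, h2]

theorem rstep_eq (D : Machine.Descr) (ρ : Row) :
    ((rstep D ρ).1, (rstep D ρ).2.1, (rstep D ρ).2.2.1 :: (rstep D ρ).2.2.2) =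
      TMComp.cstep D (ρ.1, ρ.2.1 ++ [0], (ρ.2.2.1 :: ρ.2.2.2) ++ [0]) := by
  obtain ⟨q, L, a, R⟩ := ρ
  have e : TMComp.entry D (q, L ++ [0], (a :: R) ++ [0]) = tabE D q a := rfl
  unfold TMComp.cstep
  simp only
  rw [e]
  unfold rstep TMComp.applyEntry
  simp only [List.cons_append, List.tail_cons]
  by_cases d0 : (tabE D q a).2.2 = 0
  · simp [d0]
  · by_cases d1 : (tabE D q a).2.2 = 1
    · simp [d1]
    · rw [if_neg d0, if_neg d1, if_neg d0, if_neg d1]
      simp only [Prod.mk.injEq, true_and]
      rcases R with _ | ⟨y, R⟩ <;> simp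

end QAux

open QAux

/-- the rows of the machine `M` on the input `w` -/
def rowAt (M : Machine) (w : List M.Sym) (k : ℕ) : Row :=
  (rstep M.descr)^[k] (row0 (M.descr, w.map Fin.val))

theorem rowAt_rep (M : Machine) (w : List M.Sym) (k : ℕ) :
    TMComp.Rep M ((rowAt M w k).1, (rowAt M w k).2.1, (rowAt M w k).2.2.1 :: (rowAt M w k).2.2.2)
      (M.step^[k] (M.init w)) := by
  induction k with
  | zero =>
    simp only [rowAt, Function.iterate_zero, id]
    rcases w with _ | ⟨a, w⟩
    · refine ⟨[], [0], rfl, ?_⟩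
      have := mk_pad ([] : List M.Sym)
      rw [List.nil_append] at this
      rw [this]
      rfl
    · exact ⟨[], a :: w, rfl, rfl⟩
  | succ k ih =>
    have e : rowAt M w (k + 1) = rstep M.descr (rowAt M w k) := by
      unfold rowAt; rw [Function.iterate_succ_apply']
    rw [e, rstep_eq, Function.iterate_succ_apply']
    exact TMComp.rep_step M _ _ (rep_pad M ih)

namespace QAux

theorem rowAt_lt (M : Machine) (w : List M.Sym) (k : ℕ) :
    (∀ x ∈ (rowAt M w k).2.1, x < nS M.descr) ∧ (rowAt M w k).2.2.1 < nS M.descr ∧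
      (∀ x ∈ (rowAt M w k).2.2.2, x < nS M.descr) ∧ (rowAt M w k).1 = ((M.step^[k] (M.init w)).1 : ℕ) := by
  obtain ⟨L, R, h1, h2⟩ := rowAt_rep M w k
  simp only [Prod.mk.injEq] at h1
  obtain ⟨a1, a2, a3⟩ := h1
  have hlt : ∀ x ∈ R.map Fin.val, x < nS M.descr := by
    intro x hx
    simp only [List.mem_map] at hx
    obtain ⟨y, _, rfl⟩ := hx
    exact y.2
  rw [← a3] at hlt
  refine ⟨?_, hlt _ (by simp), fun x hx => hlt x (by simp [hx]), a1⟩
  intro x hx
  rw [a2] at hx
  simp only [List.mem_map] at hx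
  obtain ⟨y, _, rfl⟩ := hx
  exact y.2

theorem rowAt_succ (M : Machine) (w : List M.Sym) (k : ℕ) :
    slide M.descr 0 0 (rowWord M.descr (rowAt M w k) ++ [0, 0]) =
      rowWord M.descr (rowAt M w (k + 1)) := by
  obtain ⟨h1, h2, h3, _⟩ := rowAt_lt M w k
  have e : rowAt M w (k + 1) = rstep M.descr (rowAt M w k) := by
    unfold rowAt; rw [Function.iterate_succ_apply']
  rw [e]
  exact slide_row M.descr (rowAt M w k).1 (rowAt M w k).2.1 (rowAt M w k).2.2.1
    (rowAt M w k).2.2.2 h1 h2 h3

theorem rowWord_ne_nil (D : Machine.Descr) (ρ : Row) : rowWord D ρ ≠ [] := by simp [rowWord]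

end QAux

/-- one pass over a row -/
theorem pass (M : Machine) (w : List M.Sym) (k : ℕ) (hist : List ℕ) (hh : hist.headI = 0) :
    (qstep M.descr)^[(rowWord M.descr (rowAt M w k)).length + 1]
      (hist, rowWord M.descr (rowAt M w k) ++ [0, 0, 0]) =
      (0 :: ((rowWord M.descr (rowAt M w k)).reverse ++ hist),
        rowWord M.descr (rowAt M w (k + 1)) ++ [0, 0, 0]) := by
  rw [read_marker _ _ (rowWord_ne_zero _ _) (rowWord_ne_nil _ _) _ hh, rowAt_succ]

theorem rowWord_length (M : Machine) (w : List M.Sym) (k : ℕ) :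
    (rowWord M.descr (rowAt M w k)).length = 1 + (w.length - 1) + 2 * k := by
  induction k with
  | zero =>
    simp only [rowAt, Function.iterate_zero, id, rowWord, row0]
    simp
    omega
  | succ k ih =>
    have e : rowAt M w (k + 1) = rstep M.descr (rowAt M w k) := by
      unfold rowAt; rw [Function.iterate_succ_apply']
    rw [e]
    have h : ∀ (D : Machine.Descr) (ρ : Row),
        (rowWord D (rstep D ρ)).length = (rowWord D ρ).length + 2 := by
      intro D ρ
      simp only [rstep, rowWord]
      split_ifs <;> simp <;> omega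
    rw [h, ih]
    ring

namespace QAux

/-- the queue after `k` passes -/
theorem queue_at' (M : Machine) (w : List M.Sym) (k : ℕ) :
    ∃ hist, hist.headI = 0 ∧ ((qstep M.descr)^[k * (1 + (w.length - 1) + k)]
      ([], queue0 (M.descr, w.map Fin.val))) =
      (hist, rowWord M.descr (rowAt M w k) ++ [0, 0, 0]) := by
  induction k with
  | zero =>
    refine ⟨[], rfl, ?_⟩
    simp only [Nat.zero_mul, Function.iterate_zero, id]
    rfl
  | succ k ih =>
    obtain ⟨hist, hh, h⟩ := ih
    refine ⟨0 :: ((rowWord M.descr (rowAt M w k)).reverse ++ hist), rfl, ?_⟩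
    have e : (k + 1) * (1 + (w.length - 1) + (k + 1)) =
        ((rowWord M.descr (rowAt M w k)).length + 1) + k * (1 + (w.length - 1) + k) := by
      rw [rowWord_length]; ring
    rw [e, Function.iterate_add_apply, h, pass M w k hist hh]

end QAux

/-- the queue after `k` passes -/
theorem queue_at (M : Machine) (w : List M.Sym) (k : ℕ) :
    ∃ hist, ((qstep M.descr)^[k * (1 + (w.length - 1) + k)]
      ([], queue0 (M.descr, w.map Fin.val))) =
      (hist, rowWord M.descr (rowAt M w k) ++ [0, 0, 0]) := by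
  obtain ⟨hist, _, h⟩ := queue_at' M w k
  exact ⟨hist, h⟩

namespace QAux

/-- the pass to which a time belongs -/
theorem locate (m n : ℕ) : ∃ k i, i ≤ m + 2 * k ∧ n = k * (m + k) + i := by
  induction n with
  | zero => exact ⟨0, 0, by omega, by ring⟩
  | succ n ih =>
    obtain ⟨k, i, hi, hn⟩ := ih
    rcases Nat.lt_or_ge i (m + 2 * k) with h | h
    · exact ⟨k, i + 1, by omega, by omega⟩
    · refine ⟨k + 1, 0, by omega, ?_⟩
      have : i = m + 2 * k := le_antisymm hi h
      rw [hn, this]; ring

theorem state_at (M : Machine) (w : List M.Sym) (k i : ℕ)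
    (hi : i ≤ (1 + (w.length - 1)) + 2 * k) :
    ∃ hist, ((qstep M.descr)^[k * (1 + (w.length - 1) + k) + i]
      ([], queue0 (M.descr, w.map Fin.val))) =
      (hist, (rowWord M.descr (rowAt M w k)).drop i ++
        ([0, 0, 0] ++ slide M.descr 0 0 ((rowWord M.descr (rowAt M w k)).take i))) := by
  obtain ⟨hist, hh, h⟩ := queue_at' M w k
  refine ⟨((rowWord M.descr (rowAt M w k)).take i).reverse ++ hist, ?_⟩
  rw [Nat.add_comm, Function.iterate_add_apply, h]
  exact read_prefix _ _ (rowWord_ne_zero _ _) _ hh _ (by rw [rowWord_length]; exact hi)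

theorem row_digit (M : Machine) (w : List M.Sym) (k : ℕ) {d : ℕ}
    (hd : d ∈ rowWord M.descr (rowAt M w k)) : d < nD M.descr := by
  obtain ⟨h1, h2, h3, h4⟩ := rowAt_lt M w k
  simp only [rowWord, List.mem_append, List.mem_map, List.mem_reverse, List.mem_cons] at hd
  have hnS : nS M.descr = M.symbols + 1 := rfl
  have hnD : nD M.descr = 1 + (M.states + 2) * nS M.descr := rfl
  have hq : (rowAt M w k).1 ≤ M.states := by
    rw [h4]
    have := (M.step^[k] (M.init w)).1.2
    omega
  have hbig : nS M.descr ≤ (M.states + 2) * nS M.descr := Nat.le_mul_of_pos_left _ (by omega)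
  rcases hd with ⟨y, hy, rfl⟩ | rfl | ⟨y, hy, rfl⟩
  · have := h1 y hy; omega
  · unfold headc
    have e : ((rowAt M w k).1 + 1) * nS M.descr + nS M.descr ≤ (M.states + 2) * nS M.descr := by
      have : ((rowAt M w k).1 + 1) * nS M.descr + nS M.descr =
        ((rowAt M w k).1 + 2) * nS M.descr := by ring
      rw [this]
      exact Nat.mul_le_mul_right _ (by omega)
    omega
  · have := h3 y hy; omega

theorem halt_digit (M : Machine) (w : List M.Sym) (k : ℕ) {d : ℕ}
    (hd : d ∈ rowWord M.descr (rowAt M w k)) (hh : haltDigit M.descr d) :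
    M.halting (M.step^[k] (M.init w)).1 = true := by
  obtain ⟨h1, h2, h3, h4⟩ := rowAt_lt M w k
  obtain ⟨g1, g2⟩ := hh
  simp only [rowWord, List.mem_append, List.mem_map, List.mem_reverse, List.mem_cons] at hd
  rcases hd with ⟨y, hy, rfl⟩ | rfl | ⟨y, hy, rfl⟩
  · have := h1 y hy; omega
  · rw [hq_headc h2, h4] at g2
    simp only [Machine.descr, List.getElem?_ofFn, Fin.is_lt, dif_pos, Option.getD_some,
      Fin.eta] at g2
    exact g2
  · have := h3 y hy; omega

theorem halt_digit' (M : Machine) (w : List M.Sym) (k : ℕ)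
    (hh : M.halting (M.step^[k] (M.init w)).1 = true) :
    haltDigit M.descr (headc M.descr (rowAt M w k).1 (rowAt M w k).2.2.1) := by
  obtain ⟨h1, h2, h3, h4⟩ := rowAt_lt M w k
  refine ⟨headc_ge _ _ _, ?_⟩
  rw [hq_headc h2, h4]
  simp only [Machine.descr, List.getElem?_ofFn, Fin.is_lt, dif_pos, Option.getD_some,
    Fin.eta]
  exact hh

/-- the digit read at any time is `0` or a digit of the current row -/
theorem head_mem (M : Machine) (w : List M.Sym) (k i : ℕ)
    (hi : i ≤ (1 + (w.length - 1)) + 2 * k) :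
    ((qstep M.descr)^[k * (1 + (w.length - 1) + k) + i]
      ([], queue0 (M.descr, w.map Fin.val))).2.headI = 0 ∨
    ((qstep M.descr)^[k * (1 + (w.length - 1) + k) + i]
      ([], queue0 (M.descr, w.map Fin.val))).2.headI ∈ rowWord M.descr (rowAt M w k) := by
  obtain ⟨hist, h⟩ := state_at M w k i hi
  rw [h]
  simp only
  rcases hd : (rowWord M.descr (rowAt M w k)).drop i with _ | ⟨x, rest⟩
  · left; simp
  · right
    simp only [List.cons_append, List.headI_cons]
    have : x ∈ (rowWord M.descr (rowAt M w k)).drop i := by rw [hd]; simp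
    exact List.mem_of_mem_drop this

theorem not_halt_zero (D : Machine.Descr) : ¬ haltDigit D 0 := fun h => by
  have := h.1
  omega

end QAux

/-- a halting digit is read if and only if `M` halts -/
theorem halt_iff (M : Machine) (w : List M.Sym) :
    (∃ n, haltDigit M.descr (((qstep M.descr)^[n]
      ([], queue0 (M.descr, w.map Fin.val))).2.headI)) ↔ M.Halts w := by
  constructor
  · rintro ⟨n, hn⟩
    obtain ⟨k, i, hi, rfl⟩ := locate (1 + (w.length - 1)) n
    refine ⟨k, ?_⟩
    rcases head_mem M w k i hi with h | h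
    · rw [h] at hn
      exact absurd hn (not_halt_zero _)
    · exact halt_digit M w k h hn
  · rintro ⟨k, hk⟩
    refine ⟨k * (1 + (w.length - 1) + k) + (rowAt M w k).2.1.length, ?_⟩
    have hlen := rowWord_length M w k
    have hlen2 : (rowWord M.descr (rowAt M w k)).length =
        (rowAt M w k).2.1.length + 1 + (rowAt M w k).2.2.2.length := by
      simp [rowWord]; omega
    obtain ⟨hist, h⟩ := state_at M w k (rowAt M w k).2.1.length (by omega)
    rw [h]
    have e : (rowWord M.descr (rowAt M w k)).drop (rowAt M w k).2.1.length =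
        headc M.descr (rowAt M w k).1 (rowAt M w k).2.2.1 :: (rowAt M w k).2.2.2.map (· + 1) := by
      unfold rowWord
      rw [List.drop_left' (by simp)]
    rw [e]
    simp only [List.cons_append, List.headI_cons]
    exact halt_digit' M w k hk

/-- invariants of the queue -/
theorem queue_inv (M : Machine) (w : List M.Sym) (n : ℕ) {hist queue : List ℕ}
    (h : (qstep M.descr)^[n] ([], queue0 (M.descr, w.map Fin.val)) = (hist, queue)) :
    (∀ d ∈ hist, d < nD M.descr) ∧ (∀ d ∈ queue, d < nD M.descr) ∧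
    ((∃ s rest, queue = s :: rest ∧ s ≠ 0) ∨ (∃ rest, queue = 0 :: 0 :: 0 :: rest)) := by
  have hnD : 0 < nD M.descr := by unfold nD; omega
  have main : ∀ n, (∀ d ∈ ((qstep M.descr)^[n] ([], queue0 (M.descr, w.map Fin.val))).2,
      d < nD M.descr) ∧
      ((∃ s rest, ((qstep M.descr)^[n] ([], queue0 (M.descr, w.map Fin.val))).2 = s :: rest ∧
        s ≠ 0) ∨
      (∃ rest, ((qstep M.descr)^[n] ([], queue0 (M.descr, w.map Fin.val))).2 =
        0 :: 0 :: 0 :: rest)) := by
    intro n
    obtain ⟨k, i, hi, rfl⟩ := locate (1 + (w.length - 1)) n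
    obtain ⟨hist', h'⟩ := state_at M w k i hi
    rw [h']
    simp only
    constructor
    · intro d hd
      simp only [List.mem_append] at hd
      rcases hd with hd | hd | hd
      · exact row_digit M w k (List.mem_of_mem_drop hd)
      · simp at hd; omega
      · apply row_digit M w (k + 1)
        rw [← rowAt_succ]
        have e : rowWord M.descr (rowAt M w k) ++ [0, 0] =
            (rowWord M.descr (rowAt M w k)).take i ++
              ((rowWord M.descr (rowAt M w k)).drop i ++ [0, 0]) := by
          rw [← List.append_assoc, List.take_append_drop]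
        rw [e, slide_append]
        exact List.mem_append_left _ hd
    · rcases hd : (rowWord M.descr (rowAt M w k)).drop i with _ | ⟨x, rest⟩
      · right
        exact ⟨_, rfl⟩
      · left
        refine ⟨x, _, rfl, ?_⟩
        have : x ∈ (rowWord M.descr (rowAt M w k)).drop i := by rw [hd]; simp
        exact rowWord_ne_zero _ _ x (List.mem_of_mem_drop this)
  have hh : ∀ n, ∀ d ∈ ((qstep M.descr)^[n] ([], queue0 (M.descr, w.map Fin.val))).1,
      d < nD M.descr := by
    intro n
    induction n with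
    | zero => intro d hd; simp at hd
    | succ n ih =>
      intro d hd
      rw [Function.iterate_succ_apply'] at hd
      simp only [qstep, List.mem_cons] at hd
      rcases hd with rfl | hd
      · rcases hq : ((qstep M.descr)^[n] ([], queue0 (M.descr, w.map Fin.val))).2 with _ | ⟨x, r⟩
        · exact hnD
        · apply (main n).1
          rw [hq]; simp
      · exact ih d hd
  have h1 := hh n
  have h2 := main n
  rw [h] at h1 h2
  exact ⟨h1, h2.1, h2.2⟩

/-- no halting digit is read during the first `k` passes if `M` does not halt before step `k` -/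
theorem no_halt_before (M : Machine) (w : List M.Sym) (k : ℕ)
    (hk : ∀ j < k, M.halting (M.step^[j] (M.init w)).1 = false) (n : ℕ)
    (hn : n < k * (1 + (w.length - 1) + k)) :
    ¬ haltDigit M.descr (((qstep M.descr)^[n] ([], queue0 (M.descr, w.map Fin.val))).2.headI) := by
  intro hh
  obtain ⟨j, i, hi, rfl⟩ := locate (1 + (w.length - 1)) n
  have hjk : j < k := by
    by_contra hc
    have hc' : k ≤ j := not_lt.1 hc
    have : k * (1 + (w.length - 1) + k) ≤ j * (1 + (w.length - 1) + j) :=
      Nat.mul_le_mul hc' (by omega)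
    omega
  rcases head_mem M w j i hi with h | h
  · rw [h] at hh
    exact not_halt_zero _ hh
  · have := halt_digit M w j h hh
    rw [hk j hjk] at this
    exact absurd this (by decide)

end Vale.Agent.P113.Sim
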