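import Vale.Agent.P113.Sim.NS

/-!
# P113, simulation version: trajectories from the origin
-/

open Set Function Filter Topology
open scoped ContDiff NNReal

namespace Vale.Agent.P113.Sim

/-! ### The explicit path during one period -/

/-- the path of the point `y` during one period -/
noncomputable def path (S : Shears) (y : V3) (τ : ℝ) : V3 :=
  y + ∑ j : Fin 12, Pi.single (S.ax j) (sw (16 * τ - ((j : ℕ) + 1)) * S.F j (S.stage y j))

theorem stage_succ (S : Shears) (y : V3) (j : Fin 12) :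
    S.stage y ((j : ℕ) + 1) = S.stage y j + Pi.single (S.ax j) (S.F j (S.stage y j)) := by
  rw [Shears.stage, dif_pos j.2]
  rfl

theorem stage_eq (S : Shears) (y : V3) (k : ℕ) (hk : k ≤ 12) :
    S.stage y k = y + ∑ j : Fin 12, if (j : ℕ) < k then
      Pi.single (S.ax j) (S.F j (S.stage y j)) else 0 := by
  induction k with
  | zero => simp [Shears.stage]
  | succ k ih =>
    have h1 := stage_succ S y ⟨k, hk⟩
    simp only at h1
    obtain ⟨c, hc⟩ : ∃ c, c = S.F ⟨k, hk⟩ (S.stage y k) := ⟨_, rfl⟩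
    rw [h1, ← hc, ih (by omega), add_assoc]
    congr 1
    have h2 : ∀ j : Fin 12, (if (j : ℕ) < k + 1 then
        (Pi.single (S.ax j) (S.F j (S.stage y j)) : V3) else 0) =
        (if (j : ℕ) < k then Pi.single (S.ax j) (S.F j (S.stage y j)) else 0) +
        (if j = ⟨k, hk⟩ then Pi.single (S.ax j) (S.F j (S.stage y j)) else 0) := by
      intro j
      by_cases h3 : (j : ℕ) < k
      · have h4 : j ≠ ⟨k, hk⟩ := fun h => by rw [h] at h3; simp at h3
        rw [if_pos h3, if_pos (by omega), if_neg h4, add_zero]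
      · by_cases h4 : j = ⟨k, hk⟩
        · rw [if_pos h4, if_neg h3, if_pos (by rw [h4]; simp), zero_add]
        · have h5 : ¬ ((j : ℕ) < k + 1) := fun h => h4 (Fin.ext (by simp; omega))
          rw [if_neg h3, if_neg h4, if_neg h5, add_zero]
    rw [Finset.sum_congr rfl fun j _ => h2 j, Finset.sum_add_distrib, Finset.sum_ite_eq',
      if_pos (Finset.mem_univ _), hc]

theorem path_shear (S : Shears) (y : V3) (k : Fin 12) {τ : ℝ} (h0 : ((k : ℕ) + 1) / 16 ≤ τ)
    (h1 : τ ≤ ((k : ℕ) + 2) / 16) :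
    path S y τ = S.stage y k + Pi.single (S.ax k)
      (sw (16 * τ - ((k : ℕ) + 1)) * S.F k (S.stage y k)) := by
  obtain ⟨c, hc⟩ : ∃ c, c = S.F k (S.stage y k) := ⟨_, rfl⟩
  rw [← hc, stage_eq S y k k.2.le, path, add_assoc]
  congr 1
  have h2 : ∀ j : Fin 12, (Pi.single (S.ax j)
      (sw (16 * τ - ((j : ℕ) + 1)) * S.F j (S.stage y j)) : V3) =
      (if (j : ℕ) < k then Pi.single (S.ax j) (S.F j (S.stage y j)) else 0) +
      (if j = k then Pi.single (S.ax j)
        (sw (16 * τ - ((j : ℕ) + 1)) * S.F j (S.stage y j)) else 0) := by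
    intro j
    rcases lt_trichotomy (j : ℕ) (k : ℕ) with h3 | h3 | h3
    · have h4 : ((j : ℕ) : ℝ) + 1 ≤ (k : ℕ) := by exact_mod_cast h3
      rw [if_pos h3, if_neg (fun h => by rw [h] at h3; exact lt_irrefl _ h3),
        sw_of_one_le (by linarith), one_mul, add_zero]
    · have h4 : j = k := Fin.ext h3
      rw [if_neg (by omega), if_pos h4, zero_add]
    · have h4 : ((k : ℕ) : ℝ) + 1 ≤ (j : ℕ) := by exact_mod_cast h3
      rw [if_neg (by omega), if_neg (fun h => by rw [h] at h3; exact lt_irrefl _ h3),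
        sw_of_nonpos (by linarith), zero_mul, Pi.single_zero, add_zero]
  rw [Finset.sum_congr rfl fun j _ => h2 j, Finset.sum_add_distrib, Finset.sum_ite_eq',
    if_pos (Finset.mem_univ _), hc]

theorem path_before (S : Shears) (y : V3) {τ : ℝ} (h : τ ≤ 1 / 16) : path S y τ = y := by
  rw [path, Finset.sum_eq_zero, add_zero]
  intro j _
  have : (0 : ℝ) ≤ (j : ℕ) := by positivity
  rw [sw_of_nonpos (by linarith), zero_mul, Pi.single_zero]

theorem path_after (S : Shears) (y : V3) {τ : ℝ} (h : 13 / 16 ≤ τ) : path S y τ = S.map y := by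
  rw [Shears.map, stage_eq S y 12 le_rfl, path]
  congr 1
  refine Finset.sum_congr rfl fun j _ => ?_
  have := fin12_le j
  rw [if_pos j.2, sw_of_one_le (by linarith), one_mul]

theorem sw_hasDerivAt (t : ℝ) : HasDerivAt sw (deriv sw t) t :=
  (sw_contDiff.differentiable (by simp) t).hasDerivAt

theorem path_hasDerivAt (S : Shears) (y : V3) (τ : ℝ) :
    HasDerivAt (path S y) (∑ j : Fin 12, Pi.single (S.ax j) (tbr j τ * S.F j (S.stage y j))) τ := by
  unfold path
  refine HasDerivAt.const_add _ ?_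
  refine HasDerivAt.fun_sum fun j _ => ?_
  rw [hasDerivAt_pi]
  intro i
  have h1 : HasDerivAt (fun τ : ℝ => sw (16 * τ - ((j : ℕ) + 1)) * S.F j (S.stage y j))
      (tbr j τ * S.F j (S.stage y j)) τ := by
    refine HasDerivAt.mul_const ?_ _
    have h2 : HasDerivAt (fun τ : ℝ => 16 * τ - (((j : ℕ) : ℝ) + 1)) 16 τ := by
      simpa using ((hasDerivAt_id τ).const_mul 16).sub_const (((j : ℕ) : ℝ) + 1)
    have h3 := (sw_hasDerivAt (16 * τ - ((j : ℕ) + 1))).comp τ h2
    refine h3.congr_deriv ?_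
    rw [tbr, mul_comm]
  by_cases hi : i = S.ax j
  · subst hi
    simpa using h1
  · simp only [Pi.single_eq_of_ne hi]
    exact hasDerivAt_const _ _

/-- the shear is periodic and does not depend on its own coordinate -/
theorem TT_proj (S : Shears) (s : Fin 12) (y : V3) : TT S s (0, 0, 0, 0) (proj y) = S.F s y := by
  unfold TT Shears.F proj
  rw [Fin.prod_univ_three, circ_coe (S.periodic s 0), circ_coe (S.periodic s 1),
    circ_coe (S.periodic s 2)]
  simp

theorem F_add_single (S : Shears) (s : Fin 12) (y : V3) (c : ℝ) :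
    S.F s (y + Pi.single (S.ax s) c) = S.F s y := by
  unfold Shears.F
  refine Finset.prod_congr rfl fun j _ => ?_
  by_cases hj : j = S.ax s
  · subst hj
    rw [S.indep, S.indep]
  · simp [Pi.single_eq_of_ne hj]

/-! ### The explicit solution -/

/-- the lift of the trajectory -/
noncomputable def Zt (S : Shears) (P : V3) (t : ℝ) : V3 :=
  (sw (16 * t) - 1) • P + path S (S.map^[⌊t⌋₊] P) (t - ⌊t⌋₊)

theorem Zt_initial (S : Shears) (P : V3) {t : ℝ} (_h0 : 0 ≤ t) (h1 : t ≤ 1 / 16) :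
    Zt S P t = sw (16 * t) • P := by
  have h : ⌊t⌋₊ = 0 := by rw [Nat.floor_eq_zero]; linarith
  rw [Zt, h, path_before S _ (by simpa using h1)]
  simp [sub_smul]

theorem Zt_of_mem (S : Shears) (P : V3) (n : ℕ) {t : ℝ} (h0 : n ≤ t) (h1 : t < n + 1)
    (h2 : 1 / 16 ≤ t) : Zt S P t = path S (S.map^[n] P) (t - n) := by
  have h : ⌊t⌋₊ = n := by
    rw [Nat.floor_eq_iff (by linarith)]
    exact ⟨h0, h1⟩
  rw [Zt, h, sw_of_one_le (by linarith), sub_self, zero_smul, zero_add]

theorem Zt_idle (S : Shears) (P : V3) (n : ℕ) {t : ℝ} (h0 : n ≤ t) (h1 : t ≤ n + 1 / 16)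
    (h : n = 0 → t = 1 / 16) : Zt S P t = S.map^[n] P := by
  have h2 : 1 / 16 ≤ t := by
    rcases Nat.eq_zero_or_pos n with h3 | h3
    · rw [h h3]
    · have : (1 : ℝ) ≤ n := by exact_mod_cast h3
      linarith
  rw [Zt_of_mem S P n h0 (by linarith) h2, path_before S _ (by linarith)]

theorem Zt_shear (S : Shears) (P : V3) (n : ℕ) (j : Fin 12) {t : ℝ}
    (h0 : n + ((j : ℕ) + 1) / 16 ≤ t) (h1 : t ≤ n + ((j : ℕ) + 2) / 16) :
    Zt S P t = S.stage (S.map^[n] P) j + Pi.single (S.ax j)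
      (sw (16 * (t - n) - ((j : ℕ) + 1)) * S.F j (S.stage (S.map^[n] P) j)) := by
  have h2 : (0 : ℝ) ≤ n := by positivity
  have h3 : (0 : ℝ) ≤ (j : ℕ) := by positivity
  have h4 := fin12_le j
  rw [Zt_of_mem S P n (by linarith) (by linarith) (by linarith),
    path_shear S _ j (by linarith) (by linarith)]

theorem Zt_end (S : Shears) (P : V3) (n : ℕ) {t : ℝ} (h0 : n + 13 / 16 ≤ t) (h1 : t ≤ n + 1) :
    Zt S P t = S.map^[n + 1] P := by
  have h2 : (0 : ℝ) ≤ n := by positivity
  rcases h1.eq_or_lt with h | h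
  · have h3 : t = (n + 1 : ℕ) := by push_cast; exact h
    refine Zt_idle S P (n + 1) (by linarith) (by rw [h3]; linarith) (by omega)
  · rw [Zt_of_mem S P n (by linarith) h (by linarith), path_after S _ (by linarith),
      iterate_succ_apply']

/-- the velocity along a path -/
theorem vel_path (S : Shears) (P : V3) (n : ℕ) {t : ℝ} (h0 : n ≤ t) (h1 : t < n + 1) :
    vel S P t (proj (Zt S P t)) = (16 * deriv sw (16 * t)) • P +
      ∑ j : Fin 12, Pi.single (S.ax j) (tbr j (t - n) * S.F j (S.stage (S.map^[n] P) j)) := by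
  funext i
  rw [vel_apply]
  have h2 : ∀ s : Fin 12, tb s t = tbr s (t - n) := by
    intro s
    rw [tb_eq]
    unfold per
    have : ⌊t - 0⌋ = (n : ℤ) := by
      rw [Int.floor_eq_iff]
      push_cast
      constructor <;> linarith
    rw [this]
    simp
  have h3 : ∀ s : Fin 12, tb s t * TT S s (0, 0, 0, 0) (proj (Zt S P t)) =
      tbr s (t - n) * S.F s (S.stage (S.map^[n] P) s) := by
    intro s
    rw [h2, TT_proj]
    have hn : (0 : ℝ) ≤ n := by positivity
    have hs : (0 : ℝ) ≤ (s : ℕ) := by positivity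
    rcases le_total (t - n) (((s : ℕ) + 1) / 16) with h4 | h4
    · rw [tbr_of_le s h4, zero_mul, zero_mul]
    rcases le_total (((s : ℕ) + 2 : ℝ) / 16) (t - n) with h5 | h5
    · rw [tbr_of_ge s h5, zero_mul, zero_mul]
    rw [Zt_shear S P n s (by linarith) (by linarith), F_add_single]
  rw [Pi.add_apply, Finset.sum_apply, add_comm]
  congr 1
  refine Finset.sum_congr rfl fun s _ => ?_
  rw [h3]
  by_cases hi : S.ax s = i
  · subst hi
    simp
  · rw [if_neg hi, Pi.single_eq_of_ne (Ne.symm hi)]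

theorem Zt_hasDeriv (S : Shears) (P : V3) {t : ℝ} (ht : 0 ≤ t) :
    HasDerivWithinAt (Zt S P) (vel S P t (proj (Zt S P t))) (Ici 0) t := by
  set n := ⌊t⌋₊ with hn
  have h0 : (n : ℝ) ≤ t := Nat.floor_le ht
  have h1 : t < n + 1 := Nat.lt_floor_add_one t
  have hloc : Zt S P =ᶠ[𝓝[Ici 0] t] fun t' =>
      (sw (16 * t') - 1) • P + path S (S.map^[n] P) (t' - n) := by
    have hn0 : (0 : ℝ) ≤ n := by positivity
    have hball : Iio ((n : ℝ) + 1) ∩ Ioi ((n : ℝ) - 1 / 16) ∈ 𝓝 t :=
      inter_mem (Iio_mem_nhds h1) (Ioi_mem_nhds (by linarith))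
    filter_upwards [mem_nhdsWithin_of_mem_nhds hball, self_mem_nhdsWithin] with t' ht' ht'0
    have a1 : t' < n + 1 := ht'.1
    have a2 : (n : ℝ) - 1 / 16 < t' := ht'.2
    have a3 : (0 : ℝ) ≤ t' := ht'0
    rcases le_or_gt (n : ℝ) t' with h2 | h2
    · have h : ⌊t'⌋₊ = n := by
        rw [Nat.floor_eq_iff a3]; exact ⟨h2, a1⟩
      rw [Zt, h]
    · -- `n ≥ 1`
      obtain ⟨m, hm⟩ : ∃ m, n = m + 1 := ⟨n - 1, by
        have : 0 < n := by
          rcases Nat.eq_zero_or_pos n with h3 | h3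
          · rw [h3] at h2; simp at h2; linarith
          · exact h3
        omega⟩
      have hm' : (n : ℝ) = m + 1 := by rw [hm]; push_cast; ring
      have hm0 : (0 : ℝ) ≤ m := by positivity
      rw [Zt_end S P m (by linarith) (by linarith), path_before S _ (by linarith),
        sw_of_one_le (by linarith), sub_self, zero_smul, zero_add, hm]
  have hd : HasDerivAt (fun t' => (sw (16 * t') - 1) • P + path S (S.map^[n] P) (t' - n))
      (vel S P t (proj (Zt S P t))) t := by
    rw [vel_path S P n h0 h1]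
    refine HasDerivAt.add ?_ ?_
    · have h2 : HasDerivAt (fun t' : ℝ => 16 * t') 16 t := by
        simpa using (hasDerivAt_id t).const_mul (16 : ℝ)
      have h3 := (((sw_hasDerivAt (16 * t)).comp t h2).sub_const 1).smul_const P
      refine h3.congr_deriv ?_
      rw [mul_comm]
    · exact (path_hasDerivAt S (S.map^[n] P) (t - n)).comp_sub_const t n
  exact (hd.hasDerivWithinAt).congr_of_eventuallyEq hloc
    (hloc.self_of_nhdsWithin (mem_Ici.2 ht))

theorem sw_zero : sw 0 = 0 := sw_of_nonpos le_rfl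

theorem traj_exists (S : Shears) (P : V3) : ∃ X, IsTrajectory (vel S P) 0 X := by
  refine ⟨fun t => proj (Zt S P t), ?_, Zt S P, fun t _ => rfl, fun t ht => Zt_hasDeriv S P ht⟩
  simp only
  rw [Zt_initial S P le_rfl (by norm_num), mul_zero, sw_zero, zero_smul]
  funext i
  simp [proj]

/-! ### Uniqueness -/

theorem proj_add_int (y : V3) (m : Fin 3 → ℤ) : proj (y + fun i => (m i : ℝ)) = proj y := by
  funext i
  simp [proj]

theorem traj_unique (S : Shears) (P : V3) {X : ℝ → T3} (hX : IsTrajectory (vel S P) 0 X) {t : ℝ}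
    (ht : 0 ≤ t) : X t = proj (Zt S P t) := by
  obtain ⟨h0, Y, hY, hd⟩ := hX
  have e0 : proj (Y 0) = 0 := by rw [← hY 0 le_rfl, h0]
  have hm : ∃ m : Fin 3 → ℤ, ∀ i, Y 0 i = m i := by
    have : ∀ i, ∃ n : ℤ, Y 0 i = n := by
      intro i
      have h1 : ((Y 0 i : ℝ) : UnitAddCircle) = 0 := congrFun e0 i
      rw [AddCircle.coe_eq_zero_iff] at h1
      obtain ⟨n, hn⟩ := h1
      exact ⟨n, by simpa using hn.symm⟩
    choose m hm using this
    exact ⟨m, hm⟩
  obtain ⟨m, hm⟩ := hm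
  -- the other solution
  set Z : ℝ → V3 := fun t => Zt S P t + fun i => (m i : ℝ) with hZ
  have hZd : ∀ t, 0 ≤ t → HasDerivWithinAt Z (vel S P t (proj (Z t))) (Ici 0) t := by
    intro t ht
    simp only [hZ, proj_add_int]
    exact (Zt_hasDeriv S P ht).add_const _
  have hYd : ∀ t, 0 ≤ t → HasDerivWithinAt Y (vel S P t (proj (Y t))) (Ici 0) t := by
    intro t ht
    have := hd t ht
    rwa [hY t ht] at this
  have hZc : ContinuousOn Z (Icc 0 t) := fun s hs =>
    ((hZd s hs.1).continuousWithinAt).mono fun x hx => hx.1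
  have hYc : ContinuousOn Y (Icc 0 t) := fun s hs =>
    ((hYd s hs.1).continuousWithinAt).mono fun x hx => hx.1
  -- a large ball
  obtain ⟨R, hR⟩ : ∃ R : ℝ, (∀ s ∈ Icc 0 t, Y s ∈ Metric.closedBall (0 : V3) R) ∧
      ∀ s ∈ Icc 0 t, Z s ∈ Metric.closedBall (0 : V3) R := by
    obtain ⟨R1, h1⟩ := isCompact_Icc.exists_bound_of_continuousOn hYc
    obtain ⟨R2, h2⟩ := isCompact_Icc.exists_bound_of_continuousOn hZc
    refine ⟨max R1 R2, fun s hs => ?_, fun s hs => ?_⟩
    · rw [mem_closedBall_zero_iff]; exact (h1 s hs).trans (le_max_left _ _)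
    · rw [mem_closedBall_zero_iff]; exact (h2 s hs).trans (le_max_right _ _)
  -- Lipschitz constant
  have hG : ContDiff ℝ ∞ (fun z : ℝ × V3 => vel S P z.1 (proj z.2)) := by
    rw [contDiff_pi]
    intro i
    exact V_contDiff S P _ i
  obtain ⟨K, hK⟩ := ((hG.of_le (by simp)).locallyLipschitz.locallyLipschitzOn
    (s := Icc 0 t ×ˢ Metric.closedBall (0 : V3) R)).exists_lipschitzOnWith_of_compact
    (isCompact_Icc.prod (isCompact_closedBall 0 R))
  have huniq := ODE_solution_unique_of_mem_Icc_right (v := fun s y => vel S P s (proj y))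
    (s := fun _ => Metric.closedBall (0 : V3) R) (K := K) (f := Y) (g := Z) (a := 0) (b := t)
    (fun s hs => ?_) hYc (fun s hs => (hYd s hs.1).mono (Ici_subset_Ici.2 hs.1))
    (fun s hs => hR.1 s (Ico_subset_Icc_self hs)) hZc
    (fun s hs => (hZd s hs.1).mono (Ici_subset_Ici.2 hs.1))
    (fun s hs => hR.2 s (Ico_subset_Icc_self hs)) ?_
  · have h1 : Y t = Z t := huniq (right_mem_Icc.2 ht)
    rw [hY t ht, h1, hZ]
    exact proj_add_int _ _
  · intro y hy y' hy'
    have h1 := hK (x := (s, y)) ⟨Ico_subset_Icc_self hs, hy⟩ (y := (s, y'))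
      ⟨Ico_subset_Icc_self hs, hy'⟩
    simpa [Prod.edist_eq] using h1
  · simp only [hZ]
    rw [Zt_initial S P le_rfl (by norm_num), mul_zero, sw_zero, zero_smul, zero_add]
    funext i
    exact hm i

theorem traj_initial (S : Shears) (P : V3) {X : ℝ → T3} (hX : IsTrajectory (vel S P) 0 X) {t : ℝ}
    (h0 : 0 ≤ t) (h1 : t ≤ 1 / 16) : X t = proj (sw (16 * t) • P) := by
  rw [traj_unique S P hX h0, Zt_initial S P h0 h1]

/-- idle part of the period `[n, n + 1]` (for `n = 0` only the time `1/16` matters) -/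
theorem traj_idle (S : Shears) (P : V3) {X : ℝ → T3} (hX : IsTrajectory (vel S P) 0 X) (n : ℕ)
    {t : ℝ} (h0 : n ≤ t) (h1 : t ≤ n + 1 / 16) (h : n = 0 → t = 1 / 16) :
    X t = proj (S.map^[n] P) := by
  have h2 : (0 : ℝ) ≤ n := by positivity
  rw [traj_unique S P hX (by linarith), Zt_idle S P n h0 h1 h]

/-- during the `j`-th shear of the period `[n, n+1]` -/
theorem traj_shear (S : Shears) (P : V3) {X : ℝ → T3} (hX : IsTrajectory (vel S P) 0 X) (n : ℕ)
    (j : Fin 12) {t : ℝ} (h0 : n + ((j : ℕ) + 1) / 16 ≤ t) (h1 : t ≤ n + ((j : ℕ) + 2) / 16) :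
    X t = proj (S.stage (S.map^[n] P) j + Pi.single (S.ax j)
      (sw (16 * (t - n) - ((j : ℕ) + 1)) * S.F j (S.stage (S.map^[n] P) j))) := by
  have h2 : (0 : ℝ) ≤ n := by positivity
  have h3 : (0 : ℝ) ≤ (j : ℕ) := by positivity
  rw [traj_unique S P hX (by linarith), Zt_shear S P n j h0 h1]

theorem traj_end (S : Shears) (P : V3) {X : ℝ → T3} (hX : IsTrajectory (vel S P) 0 X) (n : ℕ)
    {t : ℝ} (h0 : n + 13 / 16 ≤ t) (h1 : t ≤ n + 1) : X t = proj (S.map^[n + 1] P) := by
  have h2 : (0 : ℝ) ≤ n := by positivity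
  rw [traj_unique S P hX (by linarith), Zt_end S P n h0 h1]

end Vale.Agent.P113.Sim
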