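import Vale.Agent.P113.Sim.Comp
import Vale.Agent.P113.Sim.Traj
import Vale.Agent.P113.Sim.Queue
import Vale.Agent.P113.Display

/-!
# P113 simulation: the theorem
-/

open Set Function
open scoped ContDiff Real

namespace Vale.Agent.P113.Sim

/-- the set that detects halting: the second coordinate is in `(1/4, 3/4)` -/
def det1 : Set T3 := {x | cosT 0 (x 1) < 0}

theorem det1_open : IsOpen det1 :=
  isOpen_lt ((cosT_continuous 0).comp (continuous_apply 1)) continuous_const

theorem not_mem_det {y : V3} (h0 : 0 ≤ y 1) (h1 : y 1 ≤ 1 / 4) : proj y ∉ det1 := by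
  simp only [det1, mem_ofPred_eq, not_lt, proj, cosT_coe]
  apply Real.cos_nonneg_of_neg_pi_div_two_le_of_le
  · have := Real.pi_pos
    push_cast
    nlinarith [Real.pi_pos]
  · have := Real.pi_pos
    push_cast
    nlinarith [Real.pi_pos]

theorem mem_det {y : V3} (h0 : 1 / 4 < y 1) (h1 : y 1 < 3 / 4) : proj y ∈ det1 := by
  simp only [det1, mem_ofPred_eq, proj, cosT_coe]
  apply Real.cos_neg_of_pi_div_two_lt_of_lt
  · have := Real.pi_pos
    push_cast
    nlinarith [Real.pi_pos]
  · have := Real.pi_pos
    push_cast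
    nlinarith [Real.pi_pos]

section
variable (M : Machine) (w : List M.Sym)

/-- the state of the queue automaton after `n` steps -/
def qs (n : ℕ) : QS := (qstep M.descr)^[n] ([], queue0 (dat M w))

theorem qs_succ (n : ℕ) : qs M w (n + 1) = qstep M.descr (qs M w n) :=
  Function.iterate_succ_apply' _ _ _

theorem qs_inv (n : ℕ) : (∀ d ∈ (qs M w n).1, d < nD M.descr) ∧
    (∀ d ∈ (qs M w n).2, d < nD M.descr) ∧
    ((∃ s rest, (qs M w n).2 = s :: rest ∧ s ≠ 0) ∨
      (∃ rest, (qs M w n).2 = 0 :: 0 :: 0 :: rest)) :=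
  queue_inv M w n (hist := (qs M w n).1) (queue := (qs M w n).2) rfl

theorem stages (n : ℕ) :
    (∀ j ≤ 11, 0 ≤ (shears M.descr).stage (pt M.descr (qs M w n)) j 1 ∧
      (shears M.descr).stage (pt M.descr (qs M w n)) j 1 < 1 / 4) ∧
    (shears M.descr).stage (pt M.descr (qs M w n)) 11 = pt M.descr (qs M w (n + 1)) ∧
    (shears M.descr).stage (pt M.descr (qs M w n)) 12 =
      pt M.descr (qs M w (n + 1)) +
        Pi.single 1 (if haltDigit M.descr (qs M w n).2.headI then 1 / 2 else 0) := by
  obtain ⟨h1, h2, h3⟩ := qs_inv M w n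
  obtain ⟨_, h4, _⟩ := qs_inv M w (n + 1)
  rw [qs_succ] at h4 ⊢
  exact qstep_pt M.descr h1 h2 h4 h3

theorem map_iter (n : ℕ) (hn : ∀ m < n, ¬ haltDigit M.descr (qs M w m).2.headI) :
    (shears M.descr).map^[n] (inp M w) = pt M.descr (qs M w n) := by
  induction n with
  | zero => rfl
  | succ n ih =>
    rw [Function.iterate_succ_apply', ih fun m hm => hn m (hm.trans (Nat.lt_succ_self n))]
    have h := (stages M w n).2.2
    rw [if_neg (hn n (Nat.lt_succ_self n)), Pi.single_zero, add_zero] at h
    exact h

variable {M w} {X : ℝ → T3} (hX : IsTrajectory (vel (shears M.descr) (inp M w)) 0 X)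
include hX

/-- before the halting digit is read the particle is outside of the detector -/
theorem outside {n : ℕ} (hn : ∀ m ≤ n, ¬ haltDigit M.descr (qs M w m).2.headI) {t : ℝ}
    (h0 : 0 ≤ t) (h1 : t ≤ n + 1) : X t ∉ det1 := by
  -- the initial phase
  rcases le_or_gt t (1 / 16) with h16 | h16
  · rw [traj_initial _ _ hX h0 h16]
    have hs0 := sw_nonneg (16 * t)
    have hs1 := sw_le_one (16 * t)
    have hP := (stages M w 0).1 0 (by norm_num)
    have hP' : 0 ≤ (inp M w) 1 ∧ (inp M w) 1 < 1 / 4 := hP
    refine not_mem_det ?_ ?_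
    · simp only [Pi.smul_apply, smul_eq_mul]
      exact mul_nonneg hs0 hP'.1
    · simp only [Pi.smul_apply, smul_eq_mul]
      nlinarith [hP'.1, hP'.2]
  · -- the period that contains `t`
    set k : ℕ := ⌈t⌉₊ - 1 with hk
    have hc1 : 1 ≤ ⌈t⌉₊ := Nat.one_le_ceil_iff.2 (by linarith)
    have hk1 : (k : ℝ) < t := by
      rw [← Nat.lt_ceil]; omega
    have hk2 : t ≤ k + 1 := by
      have := Nat.le_ceil t
      have h2 : ((k + 1 : ℕ) : ℝ) = (⌈t⌉₊ : ℝ) := by
        congr 1; omega
      push_cast at h2
      linarith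
    have hkn : k ≤ n := by
      have : ⌈t⌉₊ ≤ n + 1 := by
        rw [Nat.ceil_le]; push_cast; exact h1
      omega
    have hit := map_iter M w k fun m hm => hn m (hm.le.trans hkn)
    have hst := stages M w k
    rw [if_neg (hn k hkn), Pi.single_zero, add_zero] at hst
    set p := pt M.descr (qs M w k) with hp
    have hall : ∀ j ≤ 12, 0 ≤ (shears M.descr).stage p j 1 ∧
        (shears M.descr).stage p j 1 < 1 / 4 := by
      intro j hj
      rcases Nat.lt_or_ge j 12 with h | h
      · exact hst.1 j (by omega)
      · have : j = 12 := le_antisymm hj h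
        subst this
        rw [hst.2.2, ← hst.2.1]
        exact hst.1 11 le_rfl
    rcases le_or_gt t (k + 1 / 16) with hA | hA
    · -- idle part
      rw [traj_idle _ _ hX k hk1.le hA (fun h => by
        rw [h] at hA; push_cast at hA; linarith), hit]
      exact not_mem_det (hall 0 (by norm_num)).1 (hall 0 (by norm_num)).2.le
    rcases le_or_gt t (k + 13 / 16) with hB | hB
    · -- shears
      obtain ⟨j, hj0, hj1⟩ : ∃ j : Fin 12, k + ((j : ℕ) + 1) / 16 ≤ t ∧
          t ≤ k + (((j : ℕ) : ℝ) + 2) / 16 := by
        set i : ℕ := ⌈16 * (t - k)⌉₊ with hi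
        have a1 : 16 * (t - k) ≤ i := Nat.le_ceil _
        have a2 : (i : ℝ) < 16 * (t - k) + 1 := Nat.ceil_lt_add_one (by linarith)
        have a3 : 1 < i := by
          have : (1 : ℝ) < i := by linarith
          exact_mod_cast this
        have a4 : i < 14 := by
          have : (i : ℝ) < 14 := by linarith
          exact_mod_cast this
        refine ⟨⟨i - 2, by omega⟩, ?_, ?_⟩
        · have : (((i - 2 : ℕ) : ℝ)) = i - 2 := by
            rw [Nat.cast_sub (by omega)]; norm_num
          simp only [this]; linarith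
        · have : (((i - 2 : ℕ) : ℝ)) = i - 2 := by
            rw [Nat.cast_sub (by omega)]; norm_num
          simp only [this]; linarith
      rw [traj_shear _ _ hX k j hj0 hj1, hit]
      have hj12 : (j : ℕ) < 12 := j.2
      have b0 := hall j (by omega)
      have b1 := hall ((j : ℕ) + 1) (by omega)
      rw [stage_succ_pt] at b1
      simp only [Shears.shear, Pi.add_apply] at b1
      have hs0 := sw_nonneg (16 * (t - k) - ((j : ℕ) + 1))
      have hs1 := sw_le_one (16 * (t - k) - ((j : ℕ) + 1))
      set σ := sw (16 * (t - k) - ((j : ℕ) + 1)) with hσ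
      set f := (shears M.descr).F j ((shears M.descr).stage p j) with hf
      set y0 := (shears M.descr).stage p j 1 with hy0
      have hsingle : ∀ c : ℝ, (Pi.single ((shears M.descr).ax j) c : V3) 1 =
          if (1 : Fin 3) = (shears M.descr).ax j then c else 0 := fun c => by
        rw [Pi.single_apply]
      rw [hsingle] at b1
      refine not_mem_det ?_ ?_
      · simp only [Pi.add_apply]
        rw [hsingle]
        split_ifs at b1 ⊢ with hax
        · nlinarith [b0.1, b1.1]
        · linarith [b0.1]
      · simp only [Pi.add_apply]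
        rw [hsingle]
        split_ifs at b1 ⊢ with hax
        · nlinarith [b0.2, b1.2]
        · linarith [b0.2]
    · -- end of the period
      rw [traj_end _ _ hX k hB.le hk2, Function.iterate_succ_apply', hit]
      exact not_mem_det (hall 12 le_rfl).1 (hall 12 le_rfl).2.le

theorem detect : (∃ t, 0 ≤ t ∧ X t ∈ det1) ↔ M.Halts w := by
  have key := halt_iff M w
  constructor
  · rintro ⟨t, ht, hXt⟩
    by_contra hh
    rw [← key] at hh
    push Not at hh
    exact outside hX (n := ⌈t⌉₊) (fun m _ => hh m) ht
      ((Nat.le_ceil t).trans (by linarith)) hXt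
  · intro hh
    rw [← key] at hh
    classical
    have h1 : ∃ n, haltDigit M.descr (qs M w n).2.headI := hh
    set n := Nat.find h1 with hn
    have hn1 : haltDigit M.descr (qs M w n).2.headI := Nat.find_spec h1
    have hn2 : ∀ m < n, ¬ haltDigit M.descr (qs M w m).2.headI := fun m hm => Nat.find_min h1 hm
    refine ⟨n + 1, by positivity, ?_⟩
    rw [traj_end _ _ hX n (by linarith) le_rfl, Function.iterate_succ_apply',
      map_iter M w n hn2]
    have hst := stages M w n
    rw [if_pos hn1] at hst
    have h11 := hst.1 11 le_rfl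
    rw [hst.2.1] at h11
    have e : (shears M.descr).map (pt M.descr (qs M w n)) =
        pt M.descr (qs M w (n + 1)) + Pi.single 1 (1 / 2) := hst.2.2
    rw [e]
    refine mem_det ?_ ?_
    · simp only [Pi.add_apply, Pi.single_eq_same]; linarith [h11.1]
    · simp only [Pi.add_apply, Pi.single_eq_same]; linarith [h11.2]

end

end Vale.Agent.P113.Sim
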