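import Vale.Agent.P113.Sim.Final

/-!
# P113 simulation: the particle displays the configurations
-/

open Set Function
open scoped ContDiff Real

namespace Vale.Agent.P113.Sim

theorem base_descr (M : Machine) : base M.descr = M.radix := rfl

theorem foldr_dval (b : ℝ) (l : List ℕ) :
    l.foldr (fun (d : ℕ) (v : ℝ) => ((d : ℝ) + v) / b) 0 = dval b l := by
  induction l with
  | nil => rfl
  | cons d l ih => rw [List.foldr_cons, ih, dval]

theorem value_eq (M : Machine) (l : List ℕ) :
    M.value l = eps M.descr * dval (base M.descr) l := by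
  rw [Machine.value, foldr_dval, eps, base_descr]
  ring

theorem dval_append_zeros (b : ℝ) (hb : b ≠ 0) (l : List ℕ) :
    dval b (l ++ [0, 0, 0]) = dval b l := by
  rw [dval_append hb, dval_zeros, mul_zero, add_zero]

theorem rowWord_eq (M : Machine) (q : Fin (M.states + 1)) (L : List M.Sym) (a : M.Sym)
    (R : List M.Sym) :
    rowWord M.descr ((q : ℕ), L.map Fin.val, (a : ℕ), R.map Fin.val) = M.word q L a R := by
  unfold rowWord Machine.word headc
  simp only [← List.map_reverse, List.map_map]
  rfl

theorem base_ne (M : Machine) : (base M.descr : ℝ) ≠ 0 := by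
  have := base_ge M.descr
  linarith

section
variable {M : Machine} {w : List M.Sym} {X : ℝ → T3}
  (hX : IsTrajectory (vel (shears M.descr) (inp M w)) 0 X)
include hX

theorem display (k : ℕ) (hk : ∀ j < k, M.halting (M.step^[j] (M.init w)).1 = false) :
    M.Displays (M.step^[k] (M.init w)) (max 1 w.length + 2 * k)
      (X (1 / 16 + k * ((max 1 w.length : ℕ) + k)) 0) := by
  have hm : max 1 w.length = 1 + (w.length - 1) := by omega
  set n : ℕ := k * (1 + (w.length - 1) + k) with hn
  have ht : (1 : ℝ) / 16 + k * ((max 1 w.length : ℕ) + k) = n + 1 / 16 := by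
    rw [hn, hm]; push_cast; ring
  have hX1 : X (n + 1 / 16) = proj (pt M.descr (qs M w n)) := by
    rw [traj_idle _ _ hX n (by linarith) le_rfl (fun h => by rw [h]; push_cast; ring),
      map_iter M w n fun m hm => no_halt_before M w k hk m hm]
  obtain ⟨hist, hq⟩ := queue_at M w k
  have hq' : qs M w n = (hist, rowWord M.descr (rowAt M w k) ++ [0, 0, 0]) := hq
  obtain ⟨L, Rf, e1, e2⟩ := rowAt_rep M w k
  have hlen := rowWord_length M w k
  set ρ := rowAt M w k with hρ
  set C := M.step^[k] (M.init w) with hC
  simp only [Prod.mk.injEq] at e1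
  obtain ⟨e3, e4, e5⟩ := e1
  obtain _ | ⟨a, R⟩ := Rf
  · simp at e5
  · simp only [List.map_cons, List.cons.injEq] at e5
    obtain ⟨e5, e6⟩ := e5
    have hhead : C.2.head = a := by
      rw [e2]; rfl
    have hρ' : ρ = ((C.1 : ℕ), L.map Fin.val, (a : ℕ), R.map Fin.val) := by
      rw [← e3, ← e4, ← e5, ← e6]
    have hw : rowWord M.descr ρ = M.word C.1 L a R := by rw [hρ', rowWord_eq]
    refine ⟨L, R, ?_, ?_, ?_⟩
    · rw [hw] at hlen
      simp only [Machine.word, List.length_append, List.length_map, List.length_reverse,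
        List.length_cons] at hlen
      omega
    · rw [hhead]; exact e2
    · rw [ht, hX1, hq', hhead, value_eq, ← hw]
      show ((eps M.descr * dval (base M.descr) (rowWord M.descr ρ ++ [0, 0, 0]) : ℝ) :
        UnitAddCircle) = _
      rw [dval_append_zeros _ (base_ne M)]

theorem inp_eq : inp M w = M.inputPoint w := by
  have hh : (w.map Fin.val).headI = ((w.headI : M.Sym) : ℕ) := by
    cases w with
    | nil => rfl
    | cons a w => rfl
  have hq : queue0 (dat M w) = M.word M.start [] w.headI w.tail ++ [0, 0, 0] := by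
    rw [queue0, row0, dat]
    simp only [hh, ← List.map_tail]
    rw [← rowWord_eq]
    rfl
  have hl : (queue0 (dat M w)).length = max 1 w.length + 3 := by
    rw [hq]
    simp [Machine.word]
    omega
  rw [inp, pt, hl, hq]
  simp only [dval_append_zeros _ (base_ne M), ← value_eq]
  have h0 : M.value [] = 0 := by simp [Machine.value]
  have h1 : eps M.descr * (base M.descr : ℝ)⁻¹ ^ (max 1 w.length + 3) =
      (1 / (M.radix : ℝ)) ^ (max 1 w.length + 3) / (8 * M.radix) := by
    rw [eps, base_descr, one_div, one_div]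
    ring
  rw [h0, h1]
  rfl

theorem prepared : X (1 / 16) = proj (M.inputPoint w) := by
  rw [traj_initial _ _ hX (by norm_num) le_rfl, sw_of_one_le (by norm_num), one_smul,
    ← inp_eq hX]

end

/-- The content of the simulation version for one viscosity `ν`. -/
theorem simulation {ν : ℝ} (h0 : 0 < ν) (hν : IsComputableReal ν) :
    ∃ (a : T3) (O : Set T3) (F : ForceCompiler), IsOpen O ∧ F.T₀ = 1 / 16 ∧
      (∀ M, F.period M = 1) ∧
      ∀ (M : Machine) (w : List M.Sym), ∃ (u : ℝ → T3 → V3) (p : ℝ → T3 → ℝ),
        SmoothField u ∧ SmoothField p ∧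
        (∀ T, 0 < T → IsClassicalSolution ν (F.force M w) T u p) ∧
        (∀ T, 0 < T → ∀ v q, IsClassicalSolution ν (F.force M w) T v q →
          ∀ t ∈ Icc 0 T, ∀ x, v t x = u t x ∧ q t x = p t x) ∧
        (∃ X, IsTrajectory u a X) ∧
        (∀ X, IsTrajectory u a X →
          ((∃ t, 0 ≤ t ∧ X t ∈ O) ↔ M.Halts w) ∧
          X (1 / 16) = proj (M.inputPoint w) ∧
          ∀ k : ℕ, (∀ j < k, M.halting (M.step^[j] (M.init w)).1 = false) →
            M.Displays (M.step^[k] (M.init w)) (max 1 w.length + 2 * k)
              (X (1 / 16 + k * ((max 1 w.length : ℕ) + k)) 0)) := by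
  obtain ⟨F, hT, hP, hF⟩ := exists_compiler hν
  refine ⟨0, det1, F, det1_open, hT, hP, fun M w => ?_⟩
  refine ⟨vel (shears M.descr) (inp M w), fun _ _ => 0, V_smooth _ _ _,
    contDiff_const.contDiffOn, ?_, ?_, traj_exists _ _, fun X hX =>
      ⟨detect hX, prepared hX, fun k hk => display hX k hk⟩⟩
  · intro T _
    rw [hF]
    exact vel_isSolution ν T _ _
  · intro T hT v q hv t ht x
    rw [hF] at hv
    exact classical_unique h0.le hT hv (vel_isSolution ν T _ _) t ht x

end Vale.Agent.P113.Sim
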