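import Vale.Agent.P113.Sim.Sw
import Vale.Agent.P113.Sim.Per

/-!
# P113 simulation: the twelve shears simulate the queue automaton
-/

open Set Function
open scoped ContDiff

namespace Vale.Agent.P113.Sim

/-! ### Plateau functions -/

theorem plat_of_mem {t : ℝ} (h0 : 0 ≤ t) (h1 : t ≤ 1 / 2) : plat t = 1 := by
  rw [plat, sw_of_one_le (by linarith), sw_of_one_le (by linarith), mul_one]

theorem plat_of_le {t : ℝ} (ht : t ≤ -(1 / 4)) : plat t = 0 := by
  rw [plat, sw_of_nonpos (by linarith), zero_mul]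

theorem plat_of_ge {t : ℝ} (ht : 3 / 4 ≤ t) : plat t = 0 := by
  rw [plat, sw_of_nonpos (t := 3 - 4 * t) (by linarith), mul_zero]

theorem plat_contDiff : ContDiff ℝ ∞ plat := by
  unfold plat
  exact (sw_contDiff.comp ((contDiff_const.mul contDiff_id).add contDiff_const)).mul
    (sw_contDiff.comp (contDiff_const.sub (contDiff_const.mul contDiff_id)))

theorem PL_contDiff (n : ℕ) (ρ : ℝ) (v : ℕ → ℝ) : ContDiff ℝ ∞ (PL n ρ v) := by
  unfold PL
  refine ContDiff.sum fun j _ => contDiff_const.mul (plat_contDiff.comp ?_)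
  exact (contDiff_id.div_const ρ).sub contDiff_const

theorem kap_contDiff : ContDiff ℝ ∞ kap := by
  unfold kap
  exact contDiff_id.mul (plat_contDiff.comp (contDiff_const.mul contDiff_id))

theorem kap_of_mem {x : ℝ} (h0 : 0 ≤ x) (h1 : x ≤ 1 / 4) : kap x = x := by
  rw [kap, plat_of_mem (by linarith) (by linarith), mul_one]

theorem kap_support {x : ℝ} (hx : x ≤ -(1 / 8) ∨ 3 / 8 ≤ x) : kap x = 0 := by
  rw [kap]
  rcases hx with hx | hx
  · rw [plat_of_le (by linarith), mul_zero]
  · rw [plat_of_ge (by linarith), mul_zero]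

theorem plat_index {t : ℝ} {i j : ℕ} (h0 : (i : ℝ) ≤ t) (h1 : t ≤ i + 1 / 2) :
    plat (t - j) = if j = i then 1 else 0 := by
  split_ifs with h
  · subst h
    exact plat_of_mem (by linarith) (by linarith)
  · rcases lt_or_gt_of_ne h with h | h
    · have : (j : ℝ) + 1 ≤ i := by exact_mod_cast h
      exact plat_of_ge (by linarith)
    · have : (i : ℝ) + 1 ≤ j := by exact_mod_cast h
      exact plat_of_le (by linarith)

theorem PL_of_mem {n : ℕ} {ρ : ℝ} {v : ℕ → ℝ} {x : ℝ} {i : ℕ} (hi : i < n)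
    (h0 : (i : ℝ) ≤ x / ρ) (h1 : x / ρ ≤ i + 1 / 2) : PL n ρ v x = v i := by
  rw [PL]
  rw [Finset.sum_congr rfl fun j _ => by rw [plat_index h0 h1]]
  simp [hi]

theorem PL_of_ge {n : ℕ} {ρ : ℝ} {v : ℕ → ℝ} {x : ℝ} {i : ℕ} (hi : n ≤ i)
    (h0 : (i : ℝ) ≤ x / ρ) (h1 : x / ρ ≤ i + 1 / 2) : PL n ρ v x = 0 := by
  rw [PL]
  rw [Finset.sum_congr rfl fun j _ => by rw [plat_index h0 h1]]
  simp [hi]

theorem PL_support {n : ℕ} {ρ : ℝ} {v : ℕ → ℝ} {x : ℝ} (hρ : 0 < ρ)
    (hx : x ≤ -(ρ / 4) ∨ n * ρ ≤ x) : PL n ρ v x = 0 := by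
  rw [PL]
  refine Finset.sum_eq_zero fun j hj => ?_
  rw [Finset.mem_range] at hj
  have hj' : (j : ℝ) + 1 ≤ n := by exact_mod_cast hj
  have hj0 : (0 : ℝ) ≤ j := Nat.cast_nonneg j
  rcases hx with hx | hx
  · have h2 : x / ρ ≤ -(1 / 4) := by rw [div_le_iff₀ hρ]; linarith
    rw [plat_of_le (by linarith), mul_zero]
  · have h2 : (n : ℝ) ≤ x / ρ := by rw [le_div_iff₀ hρ]; linarith
    rw [plat_of_ge (by linarith), mul_zero]

/-! ### The profiles -/

theorem nD_pos (D : Machine.Descr) : 3 ≤ nD D := by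
  unfold nD nS
  nlinarith [Nat.zero_le (D.1 * D.2.1), Nat.zero_le D.1, Nat.zero_le D.2.1]

theorem base_ge (D : Machine.Descr) : (6 : ℝ) ≤ base D := by
  have := nD_pos D
  have : 6 ≤ base D := by unfold base; omega
  exact_mod_cast this

theorem base_eq (D : Machine.Descr) : (base D : ℝ) = 2 * nD D := by
  unfold base; push_cast; ring

theorem eps_pos (D : Machine.Descr) : 0 < eps D := by
  have := base_ge D
  unfold eps; positivity

theorem eps_mul (D : Machine.Descr) : eps D * base D = 1 / 8 := by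
  have := base_ge D
  unfold eps; field_simp

theorem eps_le (D : Machine.Descr) : eps D ≤ 1 / 48 := by
  have h1 := base_ge D
  have h2 := eps_mul D
  have h3 := eps_pos D
  nlinarith

theorem prof_contDiff (D : Machine.Descr) (k : Kind) : ContDiff ℝ ∞ (prof D k) := by
  cases k
  · exact contDiff_const
  · exact contDiff_const.mul kap_contDiff
  all_goals exact PL_contDiff _ _ _

theorem prof_support (D : Machine.Descr) (k : Kind) (hk : k ≠ .one) {x : ℝ}
    (hx : x ≤ -(1 / 8) ∨ 3 / 8 ≤ x) : prof D k x = 0 := by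
  have hb := base_ge D
  have he := eps_pos D
  have hm := eps_mul D
  have hl := eps_le D
  have hn : (3 : ℝ) ≤ nD D := by exact_mod_cast nD_pos D
  have hbn := base_eq D
  have e1 : eps D / base D ≤ 1 / 48 := by
    rw [div_le_iff₀ (by linarith)]; nlinarith
  have e1' : 0 < eps D / base D := by positivity
  have e3 : eps D / (base D : ℝ) ^ 3 ≤ 1 / 48 := by
    rw [div_le_iff₀ (by positivity)]
    have : (1 : ℝ) ≤ (base D : ℝ) ^ 3 := one_le_pow₀ (by linarith)
    nlinarith
  have e3' : 0 < eps D / (base D : ℝ) ^ 3 := by positivity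
  have n1 : (nD D : ℝ) * (eps D / base D) ≤ 3 / 8 := by
    rw [mul_div_assoc', div_le_iff₀ (by linarith)]
    nlinarith
  have n2 : (nD D : ℝ) * eps D ≤ 3 / 8 := by nlinarith
  have n3 : ((base D ^ 3 : ℕ) : ℝ) * (eps D / (base D : ℝ) ^ 3) ≤ 3 / 8 := by
    push_cast
    rw [mul_div_assoc', mul_comm, mul_div_assoc, div_self (by positivity)]
    linarith
  have n4 : ((1 : ℕ) : ℝ) * (eps D / base D) ≤ 3 / 8 := by
    push_cast; linarith
  have d1 : ∀ v, PL (nD D) (eps D / base D) v x = 0 := fun v =>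
    PL_support e1' (hx.imp (fun h => by linarith) fun h => by linarith)
  cases k
  · exact absurd rfl hk
  · simp only [prof]; rw [kap_support hx, mul_zero]
  · exact d1 _
  · exact PL_support he (hx.imp (fun h => by linarith) fun h => by linarith)
  · exact PL_support e1' (hx.imp (fun h => by linarith) fun h => by linarith)
  · exact d1 _
  · exact PL_support e3' (hx.imp (fun h => by linarith) fun h => by linarith)

theorem pprof_of_ne (D : Machine.Descr) {k : Kind} (hk : k ≠ .one) :
    pprof D k = per (-(1 / 2)) (prof D k) := by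
  cases k
  · exact absurd rfl hk
  all_goals rfl

theorem pprof_contDiff (D : Machine.Descr) (k : Kind) : ContDiff ℝ ∞ (pprof D k) := by
  by_cases hk : k = .one
  · subst hk; exact contDiff_const
  · rw [pprof_of_ne D hk]
    refine per_contDiff (δ := 1 / 8) (by norm_num) (prof_contDiff D k) fun x hx => ?_
    exact prof_support D k hk (hx.imp (fun h => by linarith) fun h => by linarith)

theorem pprof_periodic (D : Machine.Descr) (k : Kind) : Function.Periodic (pprof D k) 1 := by
  by_cases hk : k = .one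
  · subst hk; intro x; rfl
  · rw [pprof_of_ne D hk]; exact per_periodic _ _

theorem pprof_eq (D : Machine.Descr) (k : Kind) {x : ℝ} (h0 : 0 ≤ x) (h1 : x ≤ 1 / 4) :
    pprof D k x = prof D k x := by
  by_cases hk : k = .one
  · subst hk; rfl
  · rw [pprof_of_ne D hk]; exact per_of_mem _ ⟨by linarith, by linarith⟩

theorem kind_axes (s : Fin 12) : kind s (axes s) = .one := by fin_cases s <;> rfl

theorem gfun_contDiff (D : Machine.Descr) (s : Fin 12) (j : Fin 3) :
    ContDiff ℝ ∞ (gfun D s j) := pprof_contDiff D _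

theorem gfun_periodic (D : Machine.Descr) (s : Fin 12) (j : Fin 3) :
    Function.Periodic (gfun D s j) 1 := pprof_periodic D _

theorem gfun_indep (D : Machine.Descr) (s : Fin 12) (x : ℝ) : gfun D s (axes s) x = 1 := by
  simp only [gfun, kind_axes, pprof]

/-- the shears of the machine with description `D` -/
noncomputable def shears (D : Machine.Descr) : Shears where
  ax := axes
  g := gfun D
  smooth := gfun_contDiff D
  periodic := gfun_periodic D
  indep := gfun_indep D

/-- `x` is in the range where the profiles are used -/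
def Rg (x : ℝ) : Prop := 0 ≤ x ∧ x ≤ 1 / 4

theorem shear_eq (D : Machine.Descr) (s : Fin 12) {x y z : ℝ} (hx : Rg x) (hy : Rg y)
    (hz : Rg z) : (shears D).shear s ![x, y, z] = ![x, y, z] + Pi.single (axes s)
      (prof D (kind s 0) x * prof D (kind s 1) y * prof D (kind s 2) z) := by
  simp only [Shears.shear, Shears.F, shears, Fin.prod_univ_three, Matrix.cons_val_zero,
    Matrix.cons_val_one, Matrix.cons_val, gfun]
  rw [pprof_eq D _ hx.1 hx.2, pprof_eq D _ hy.1 hy.2, pprof_eq D _ hz.1 hz.2]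

theorem add_single0 (x y z a : ℝ) : ![x, y, z] + Pi.single (0 : Fin 3) a = ![x + a, y, z] := by
  funext i; fin_cases i <;> simp

theorem add_single1 (x y z a : ℝ) : ![x, y, z] + Pi.single (1 : Fin 3) a = ![x, y + a, z] := by
  funext i; fin_cases i <;> simp

theorem add_single2 (x y z a : ℝ) : ![x, y, z] + Pi.single (2 : Fin 3) a = ![x, y, z + a] := by
  funext i; fin_cases i <;> simp

section
variable (D : Machine.Descr) {x y z : ℝ} (hx : Rg x) (hy : Rg y) (hz : Rg z)
include hx hy hz

theorem sh0 : (shears D).shear 0 ![x, y, z] = ![x, y, z + prof D .dig x] := by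
  rw [shear_eq D 0 hx hy hz]
  show ![x, y, z] + Pi.single (2 : Fin 3) (prof D .dig x * 1 * 1) = _
  rw [mul_one, mul_one, add_single2]

theorem sh1 : (shears D).shear 1 ![x, y, z] = ![x + prof D .int z, y, z] := by
  rw [shear_eq D 1 hx hy hz]
  show ![x, y, z] + Pi.single (0 : Fin 3) (1 * 1 * prof D .int z) = _
  rw [mul_one, one_mul, add_single0]

theorem sh2 : (shears D).shear 2 ![x, y, z] = ![x, y, z + base D * x] := by
  rw [shear_eq D 2 hx hy hz]
  show ![x, y, z] + Pi.single (2 : Fin 3) ((base D : ℝ) * kap x * 1 * 1) = _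
  rw [mul_one, mul_one, add_single2, kap_of_mem hx.1 hx.2]

theorem sh3 : (shears D).shear 3 ![x, y, z] = ![x + (base D - 1) / base D * z, y, z] := by
  rw [shear_eq D 3 hx hy hz]
  show ![x, y, z] + Pi.single (0 : Fin 3) (1 * 1 * (((base D : ℝ) - 1) / base D * kap z)) = _
  rw [mul_one, one_mul, add_single0, kap_of_mem hz.1 hz.2]

theorem sh4 : (shears D).shear 4 ![x, y, z] = ![x, y, z - x] := by
  rw [shear_eq D 4 hx hy hz]
  show ![x, y, z] + Pi.single (2 : Fin 3) ((-1 : ℝ) * kap x * 1 * 1) = _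
  rw [mul_one, mul_one, add_single2, kap_of_mem hx.1 hx.2, neg_one_mul, ← sub_eq_add_neg]

theorem sh5 : (shears D).shear 5 ![x, y, z] = ![x - (base D - 1) * z, y, z] := by
  rw [shear_eq D 5 hx hy hz]
  show ![x, y, z] + Pi.single (0 : Fin 3) (1 * 1 * (-((base D : ℝ) - 1) * kap z)) = _
  rw [mul_one, one_mul, add_single0, kap_of_mem hz.1 hz.2, neg_mul, ← sub_eq_add_neg]

theorem sh6 : (shears D).shear 6 ![x, y, z] =
    ![x, y + base D ^ 2 * x * prof D .mark z, z] := by
  rw [shear_eq D 6 hx hy hz]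
  show ![x, y, z] + Pi.single (1 : Fin 3) ((base D : ℝ) ^ 2 * kap x * 1 * prof D .mark z) = _
  rw [mul_one, add_single1, kap_of_mem hx.1 hx.2]

theorem sh7 : (shears D).shear 7 ![x, y, z] =
    ![x + (base D ^ 2 - 1) / base D ^ 2 * y * prof D .mark z, y, z] := by
  rw [shear_eq D 7 hx hy hz]
  show ![x, y, z] + Pi.single (0 : Fin 3)
    (1 * (((base D : ℝ) ^ 2 - 1) / base D ^ 2 * kap y) * prof D .mark z) = _
  rw [one_mul, add_single0, kap_of_mem hy.1 hy.2]

theorem sh8 : (shears D).shear 8 ![x, y, z] = ![x, y - x * prof D .mark z, z] := by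
  rw [shear_eq D 8 hx hy hz]
  show ![x, y, z] + Pi.single (1 : Fin 3) ((-1 : ℝ) * kap x * 1 * prof D .mark z) = _
  rw [mul_one, add_single1, kap_of_mem hx.1 hx.2, neg_one_mul, neg_mul, ← sub_eq_add_neg]

theorem sh9 : (shears D).shear 9 ![x, y, z] =
    ![x - (base D ^ 2 - 1) * y * prof D .mark z, y, z] := by
  rw [shear_eq D 9 hx hy hz]
  show ![x, y, z] + Pi.single (0 : Fin 3)
    (1 * (-((base D : ℝ) ^ 2 - 1) * kap y) * prof D .mark z) = _
  rw [one_mul, add_single0, kap_of_mem hy.1 hy.2, neg_mul, neg_mul, ← sub_eq_add_neg]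

theorem sh10 : (shears D).shear 10 ![x, y, z] = ![x + y * prof D .write z, y, z] := by
  rw [shear_eq D 10 hx hy hz]
  show ![x, y, z] + Pi.single (0 : Fin 3) (1 * ((1 : ℝ) * kap y) * prof D .write z) = _
  rw [one_mul, one_mul, add_single0, kap_of_mem hy.1 hy.2]

theorem sh11 : (shears D).shear 11 ![x, y, z] = ![x, y + prof D .halt z, z] := by
  rw [shear_eq D 11 hx hy hz]
  show ![x, y, z] + Pi.single (1 : Fin 3) (1 * 1 * prof D .halt z) = _
  rw [one_mul, one_mul, add_single1]

end

/-! ### Values of lists of digits -/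

theorem dval_nonneg {b : ℝ} (hb : 0 < b) (l : List ℕ) : 0 ≤ dval b l := by
  induction l with
  | nil => simp [dval]
  | cons d l ih => rw [dval]; positivity

theorem dval_le (D : Machine.Descr) (l : List ℕ) (hl : ∀ d ∈ l, d < nD D) :
    dval (base D) l ≤ 1 / 2 := by
  have hb := base_ge D
  have hbn := base_eq D
  induction l with
  | nil => simp [dval]
  | cons d l ih =>
    have h1 : (d : ℝ) + 1 ≤ nD D := by exact_mod_cast hl d (by simp)
    have h2 := ih fun e he => hl e (by simp [he])
    rw [dval, div_le_iff₀ (by linarith)]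
    linarith

theorem dval_headI (b : ℝ) (l : List ℕ) : dval b l = (l.headI + dval b l.tail) / b := by
  cases l with
  | nil => simp [dval]
  | cons d l => rfl

theorem dval_append {b : ℝ} (hb : b ≠ 0) (l l' : List ℕ) :
    dval b (l ++ l') = dval b l + b⁻¹ ^ l.length * dval b l' := by
  induction l with
  | nil => simp [dval]
  | cons d l ih =>
    rw [List.cons_append, dval, ih, dval, List.length_cons, pow_succ]
    field_simp
    ring

theorem dval_zeros (b : ℝ) : dval b [0, 0, 0] = 0 := by simp [dval]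

theorem headI_lt {D : Machine.Descr} {l : List ℕ} (hl : ∀ d ∈ l, d < nD D) : l.headI < nD D := by
  cases l with
  | nil => exact lt_of_lt_of_le (by norm_num) (nD_pos D)
  | cons d l => exact hl d (by simp)

theorem tail_lt {D : Machine.Descr} {l : List ℕ} (hl : ∀ d ∈ l, d < nD D) :
    ∀ d ∈ l.tail, d < nD D := fun d hd => hl d (List.mem_of_mem_tail hd)

/-! ### Values of the profiles -/

theorem prof_dig (D : Machine.Descr) {s : ℕ} (hs : s < nD D) {v : ℝ} (h0 : 0 ≤ v) (h1 : v ≤ 1 / 2) :
    prof D .dig (eps D * ((s + v) / base D)) = eps D * s := by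
  have hb := base_ge D
  have he := eps_pos D
  have e : eps D * ((s + v) / base D) / (eps D / base D) = s + v := by field_simp
  exact PL_of_mem (v := fun j : ℕ => eps D * (j : ℝ)) hs (by rw [e]; linarith) (by rw [e]; linarith)

theorem prof_int (D : Machine.Descr) {s : ℕ} (hs : s < nD D) {v : ℝ} (h0 : 0 ≤ v) (h1 : v ≤ 1 / 2) :
    prof D .int (eps D * (s + v)) = -(eps D / base D * s) := by
  have he := eps_pos D
  have e : eps D * (s + v) / eps D = s + v := by field_simp
  exact PL_of_mem (v := fun j : ℕ => -(eps D / base D * (j : ℝ))) hs (by rw [e]; linarith)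
    (by rw [e]; linarith)

theorem prof_halt (D : Machine.Descr) {s : ℕ} (hs : s < nD D) {v : ℝ} (h0 : 0 ≤ v)
    (h1 : v ≤ 1 / 2) : prof D .halt (eps D * ((s + v) / base D)) =
      if haltDigit D s then 1 / 2 else 0 := by
  have hb := base_ge D
  have he := eps_pos D
  have e : eps D * ((s + v) / base D) / (eps D / base D) = s + v := by field_simp
  exact PL_of_mem (v := fun j : ℕ => if haltDigit D j then 1 / 2 else 0) hs
    (by rw [e]; linarith) (by rw [e]; linarith)

theorem prof_mark_zero (D : Machine.Descr) {v : ℝ} (h0 : 0 ≤ v) (h1 : v ≤ 1 / 2) :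
    prof D .mark (eps D * (v / base D)) = 1 := by
  have hb := base_ge D
  have he := eps_pos D
  have e : eps D * (v / base D) / (eps D / base D) = v := by field_simp
  exact PL_of_mem (v := fun _ : ℕ => (1 : ℝ)) (i := 0) one_pos (by rw [e]; push_cast; linarith)
    (by rw [e]; push_cast; linarith)

theorem prof_mark_pos (D : Machine.Descr) {s : ℕ} (hs : s ≠ 0) {v : ℝ} (h0 : 0 ≤ v)
    (h1 : v ≤ 1 / 2) : prof D .mark (eps D * ((s + v) / base D)) = 0 := by
  have hb := base_ge D
  have he := eps_pos D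
  have e : eps D * ((s + v) / base D) / (eps D / base D) = s + v := by field_simp
  exact PL_of_ge (v := fun _ : ℕ => (1 : ℝ)) (i := s) (Nat.one_le_iff_ne_zero.2 hs)
    (by rw [e]; linarith) (by rw [e]; linarith)

theorem prof_write (D : Machine.Descr) {s h0 h1 : ℕ} (hs : s < nD D) (hh0 : h0 < nD D)
    (hh1 : h1 < nD D) {v : ℝ} (v0 : 0 ≤ v) (v1 : v ≤ 1 / 2) :
    prof D .write (eps D * ((s + (h0 + (h1 + v) / base D) / base D) / base D)) =
      if s = 0 then (wr1 D s h0 h1 * (base D : ℝ) ^ 4 + rule D h0 0 0 * (base D : ℝ) ^ 3)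
      else wr1 D s h0 h1 := by
  have hb := base_ge D
  have he := eps_pos D
  have hbn : base D = 2 * nD D := rfl
  set b := base D with hbdef
  have e : eps D * ((s + (h0 + (h1 + v) / b) / b) / b) / (eps D / (b : ℝ) ^ 3) =
      ((s * b ^ 2 + h0 * b + h1 : ℕ) : ℝ) + v := by
    push_cast
    field_simp
    ring
  have l1 : s + 1 ≤ b := by omega
  have l2 : h0 < b := by omega
  have l3 : h1 < b := by omega
  have hlt : s * b ^ 2 + h0 * b + h1 < b ^ 3 := by
    have a1 : h0 * b + h1 < b ^ 2 := by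
      calc h0 * b + h1 < h0 * b + b := by omega
        _ = (h0 + 1) * b := by ring
        _ ≤ b * b := Nat.mul_le_mul_right _ l2
        _ = b ^ 2 := by ring
    calc s * b ^ 2 + h0 * b + h1 = s * b ^ 2 + (h0 * b + h1) := by ring
      _ < s * b ^ 2 + b ^ 2 := by omega
      _ = (s + 1) * b ^ 2 := by ring
      _ ≤ b * b ^ 2 := Nat.mul_le_mul_right _ l1
      _ = b ^ 3 := by ring
  have hP := PL_of_mem (n := b ^ 3) (ρ := eps D / (b : ℝ) ^ 3)
    (v := fun j : ℕ => (Sval D j : ℝ)) hlt (by rw [e]; linarith) (by rw [e]; linarith)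
  have hS : Sval D (s * b ^ 2 + h0 * b + h1) =
      if s = 0 then wr1 D s h0 h1 * b ^ 4 + rule D h0 0 0 * b ^ 3 else wr1 D s h0 h1 := by
    have hb0 : 0 < b := by omega
    have a1 : h0 * b + h1 < b ^ 2 := by
      calc h0 * b + h1 < h0 * b + b := by omega
        _ = (h0 + 1) * b := by ring
        _ ≤ b * b := Nat.mul_le_mul_right _ l2
        _ = b ^ 2 := by ring
    have q1 : (s * b ^ 2 + h0 * b + h1) / b ^ 2 = s := by
      rw [show s * b ^ 2 + h0 * b + h1 = (h0 * b + h1) + s * b ^ 2 by ring,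
        Nat.add_mul_div_right _ _ (by positivity), Nat.div_eq_of_lt a1, zero_add]
    have q2 : (s * b ^ 2 + h0 * b + h1) / b % b = h0 := by
      rw [show s * b ^ 2 + h0 * b + h1 = h1 + (h0 + s * b) * b by ring,
        Nat.add_mul_div_right _ _ hb0, Nat.div_eq_of_lt l3, zero_add, Nat.add_mul_mod_self_right,
        Nat.mod_eq_of_lt l2]
    have q3 : (s * b ^ 2 + h0 * b + h1) % b = h1 := by
      rw [show s * b ^ 2 + h0 * b + h1 = h1 + (h0 + s * b) * b by ring,
        Nat.add_mul_mod_self_right, Nat.mod_eq_of_lt l3]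
    unfold Sval
    simp only [← hbdef]
    rw [q1, q2, q3]
  have hP' : prof D .write (eps D * ((s + (h0 + (h1 + v) / b) / b) / b)) =
      (Sval D (s * b ^ 2 + h0 * b + h1) : ℝ) := hP
  rw [hP', hS]
  split_ifs <;> push_cast <;> ring

/-! ### The stages -/

theorem stage_succ_pt (S : Shears) (y : V3) (j : Fin 12) :
    S.stage y ((j : ℕ) + 1) = S.shear j (S.stage y j) := by
  simp [Shears.stage]

theorem Rg_mul (D : Machine.Descr) {a : ℝ} (h0 : 0 ≤ a) (h1 : a ≤ base D) : Rg (eps D * a) := by
  have he := eps_pos D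
  have hm := eps_mul D
  refine ⟨by positivity, ?_⟩
  nlinarith

/-- the twelve stages, when the queue starts with the digit `s` -/
structure Chain (D : Machine.Descr) (hist rest : List ℕ) (s : ℕ) (p : ℕ → V3) : Prop where
  e0 : p 0 = ![eps D * ((s + dval (base D) rest) / base D),
    eps D * (base D : ℝ)⁻¹ ^ (rest.length + 1), eps D * dval (base D) hist]
  e : ∀ j : Fin 12, p ((j : ℕ) + 1) = (shears D).shear j (p j)

section
variable {D : Machine.Descr} {hist rest : List ℕ} {s : ℕ} {p : ℕ → V3}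

theorem unit_bounds (D : Machine.Descr) (n : ℕ) :
    0 < (base D : ℝ)⁻¹ ^ (n + 1) ∧ (base D : ℝ)⁻¹ ^ (n + 1) ≤ 1 / 6 := by
  have hb := base_ge D
  refine ⟨by positivity, ?_⟩
  have h1 : (base D : ℝ)⁻¹ ≤ 1 / 6 := by
    rw [one_div]; exact inv_anti₀ (by norm_num) hb
  have h0 : 0 ≤ (base D : ℝ)⁻¹ := by positivity
  calc (base D : ℝ)⁻¹ ^ (n + 1) = (base D : ℝ)⁻¹ ^ n * (base D : ℝ)⁻¹ := pow_succ _ _
    _ ≤ 1 * (1 / 6) := by
        gcongr
        exact pow_le_one₀ h0 (by linarith)
    _ = 1 / 6 := one_mul _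

theorem Chain.first (h : Chain D hist rest s p) (h1 : ∀ d ∈ hist, d < nD D)
    (h2 : ∀ d ∈ rest, d < nD D) (hs : s < nD D) :
    (∀ j ≤ 6, p j 1 = eps D * (base D : ℝ)⁻¹ ^ (rest.length + 1)) ∧
    p 6 = ![eps D * dval (base D) rest, eps D * (base D : ℝ)⁻¹ ^ (rest.length + 1),
      eps D * ((s + dval (base D) hist) / base D)] := by
  have hb := base_ge D
  have hbn := base_eq D
  have he := eps_pos D
  have H0 := dval_nonneg (b := base D) (by linarith) hist
  have H1 := dval_le D hist h1
  have v0 := dval_nonneg (b := base D) (by linarith) rest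
  have v1 := dval_le D rest h2
  have hs' : (s : ℝ) + 1 ≤ nD D := by exact_mod_cast hs
  have hs0 : (0 : ℝ) ≤ s := Nat.cast_nonneg s
  obtain ⟨u0, u1⟩ := unit_bounds D rest.length
  set H := dval (base D) hist with hH
  set v := dval (base D) rest with hv
  set u := (base D : ℝ)⁻¹ ^ (rest.length + 1) with hu
  have e0 := h.e0
  have hy : Rg (eps D * u) := Rg_mul D u0.le (by linarith)
  have hb0 : (base D : ℝ) ≠ 0 := by linarith
  have q1 : (s + v) / base D ≤ base D := by
    rw [div_le_iff₀ (by linarith)]; nlinarith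
  have e1 : p 1 = ![eps D * ((s + v) / base D), eps D * u, eps D * (s + H)] := by
    have := h.e 0
    simp only [Fin.val_zero, zero_add] at this
    rw [this, e0, sh0 D (Rg_mul D (by positivity) q1) hy (Rg_mul D H0 (by linarith)),
      prof_dig D hs v0 v1]
    congr 3
    ring
  have hz1 : Rg (eps D * (s + H)) := Rg_mul D (by positivity) (by linarith)
  have e2 : p 2 = ![eps D * (v / base D), eps D * u, eps D * (s + H)] := by
    have := h.e 1
    simp only [Fin.val_one, Nat.reduceAdd] at this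
    rw [this, e1, sh1 D (Rg_mul D (by positivity) q1) hy hz1, prof_int D hs H0 H1]
    congr 1
    field_simp
    ring
  have q2 : v / base D ≤ base D := by
    rw [div_le_iff₀ (by linarith)]; nlinarith
  have hx2 : Rg (eps D * (v / base D)) := Rg_mul D (by positivity) q2
  have e3 : p 3 = ![eps D * (v / base D), eps D * u, eps D * (s + H + v)] := by
    have := h.e 2
    rw [show ((2 : Fin 12) : ℕ) = 2 from rfl] at this
    rw [this, e2, sh2 D hx2 hy hz1]
    congr 3
    field_simp
  have hz3 : Rg (eps D * (s + H + v)) := Rg_mul D (by positivity) (by linarith)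
  have e4 : p 4 = ![eps D * (v / base D + (base D - 1) / base D * (s + H + v)), eps D * u,
      eps D * (s + H + v)] := by
    have := h.e 3
    rw [show ((3 : Fin 12) : ℕ) = 3 from rfl] at this
    rw [this, e3, sh3 D hx2 hy hz3]
    congr 1
    ring
  have q4 : 0 ≤ v / base D + ((base D : ℝ) - 1) / base D * (s + H + v) := by
    have : 0 ≤ ((base D : ℝ) - 1) / base D := div_nonneg (by linarith) (by linarith)
    positivity
  have q4' : v / base D + ((base D : ℝ) - 1) / base D * (s + H + v) ≤ base D := by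
    have a1 : v / base D ≤ 1 := by rw [div_le_iff₀ (by linarith)]; linarith
    have a2 : ((base D : ℝ) - 1) / base D ≤ 1 := by
      rw [div_le_iff₀ (by linarith)]; linarith
    have a3 : ((base D : ℝ) - 1) / base D * (s + H + v) ≤ 1 * (s + H + v) := by
      gcongr
    linarith
  have hx4 := Rg_mul D q4 q4'
  have e5 : p 5 = ![eps D * (v / base D + (base D - 1) / base D * (s + H + v)), eps D * u,
      eps D * ((s + H) / base D)] := by
    have := h.e 4
    rw [show ((4 : Fin 12) : ℕ) = 4 from rfl] at this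
    rw [this, e4, sh4 D hx4 hy hz3]
    congr 3
    field_simp
    ring
  have q5 : (s + H) / base D ≤ base D := by
    rw [div_le_iff₀ (by linarith)]; nlinarith
  have e6 : p 6 = ![eps D * v, eps D * u, eps D * ((s + H) / base D)] := by
    have := h.e 5
    rw [show ((5 : Fin 12) : ℕ) = 5 from rfl] at this
    rw [this, e5, sh5 D hx4 hy (Rg_mul D (by positivity) q5)]
    congr 1
    field_simp
    ring
  refine ⟨fun j hj => ?_, e6⟩
  interval_cases j
  · rw [e0]; rfl
  · rw [e1]; rfl
  · rw [e2]; rfl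
  · rw [e3]; rfl
  · rw [e4]; rfl
  · rw [e5]; rfl
  · rw [e6]; rfl

/-- stages `6` to `10`, when the digit read is not the marker -/
theorem Chain.second_pos (h : Chain D hist rest s p) (h1 : ∀ d ∈ hist, d < nD D)
    (h2 : ∀ d ∈ rest, d < nD D) (hs : s < nD D) (hs0 : s ≠ 0) :
    (∀ j, 6 ≤ j → j ≤ 10 → p j = p 6) := by
  have hb := base_ge D
  have hbn := base_eq D
  have he := eps_pos D
  have H0 := dval_nonneg (b := base D) (by linarith) hist
  have H1 := dval_le D hist h1
  have v0 := dval_nonneg (b := base D) (by linarith) rest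
  have v1 := dval_le D rest h2
  have hs' : (s : ℝ) + 1 ≤ nD D := by exact_mod_cast hs
  have hs0' : (0 : ℝ) ≤ s := Nat.cast_nonneg s
  obtain ⟨u0, u1⟩ := unit_bounds D rest.length
  have e6 := (h.first h1 h2 hs).2
  set H := dval (base D) hist with hH
  set v := dval (base D) rest with hv
  set u := (base D : ℝ)⁻¹ ^ (rest.length + 1) with hu
  have hx : Rg (eps D * v) := Rg_mul D v0 (by linarith)
  have hy : Rg (eps D * u) := Rg_mul D u0.le (by linarith)
  have q5 : (s + H) / base D ≤ base D := by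
    rw [div_le_iff₀ (by linarith)]; nlinarith
  have hz : Rg (eps D * ((s + H) / base D)) := Rg_mul D (by positivity) q5
  have hm := prof_mark_pos D hs0 H0 H1
  have e7 : p 7 = p 6 := by
    have := h.e 6
    rw [show ((6 : Fin 12) : ℕ) = 6 from rfl] at this
    rw [this, e6, sh6 D hx hy hz, hm, mul_zero, add_zero]
  have e8 : p 8 = p 6 := by
    have := h.e 7
    rw [show ((7 : Fin 12) : ℕ) = 7 from rfl] at this
    rw [this, e7, e6, sh7 D hx hy hz, hm, mul_zero, add_zero]
  have e9 : p 9 = p 6 := by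
    have := h.e 8
    rw [show ((8 : Fin 12) : ℕ) = 8 from rfl] at this
    rw [this, e8, e6, sh8 D hx hy hz, hm, mul_zero, sub_zero]
  have e10 : p 10 = p 6 := by
    have := h.e 9
    rw [show ((9 : Fin 12) : ℕ) = 9 from rfl] at this
    rw [this, e9, e6, sh9 D hx hy hz, hm, mul_zero, sub_zero]
  intro j hj hj'
  interval_cases j
  · rfl
  · exact e7
  · exact e8
  · exact e9
  · exact e10

/-- stages `6` to `10`, when the marker is read -/
theorem Chain.second_zero {rest' : List ℕ} (h : Chain D hist (0 :: 0 :: rest') 0 p)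
    (h1 : ∀ d ∈ hist, d < nD D) (h2 : ∀ d ∈ (0 :: 0 :: rest'), d < nD D) :
    (∀ j, 6 ≤ j → j ≤ 10 → 0 ≤ p j 1 ∧ p j 1 < 1 / 4) ∧
    p 10 = ![eps D * dval (base D) rest', eps D * (base D : ℝ)⁻¹ ^ (rest'.length + 5),
      eps D * (dval (base D) hist / base D)] := by
  have hb := base_ge D
  have hbn := base_eq D
  have he := eps_pos D
  have hem := eps_mul D
  have hel := eps_le D
  have H0 := dval_nonneg (b := base D) (by linarith) hist
  have H1 := dval_le D hist h1
  have v0 := dval_nonneg (b := base D) (by linarith) rest'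
  have v1 := dval_le D rest' fun d hd => h2 d (by simp [hd])
  have hs : 0 < nD D := lt_of_lt_of_le (by norm_num) (nD_pos D)
  obtain ⟨u0, u1⟩ := unit_bounds D (0 :: 0 :: rest').length
  have e6 := (h.first h1 h2 hs).2
  have hu5 : (base D : ℝ)⁻¹ ^ (rest'.length + 5) =
      (base D : ℝ)⁻¹ ^ ((0 :: 0 :: rest').length + 1) / (base D : ℝ) ^ 2 := by
    simp only [List.length_cons]
    rw [show rest'.length + 5 = (rest'.length + 1 + 1 + 1) + 2 by ring, pow_add]
    rw [div_eq_mul_inv, ← inv_pow, inv_pow]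
  have hv2 : dval (base D) (0 :: 0 :: rest') = dval (base D) rest' / (base D : ℝ) ^ 2 := by
    simp only [dval, Nat.cast_zero, zero_add]
    rw [div_div, ← sq]
  rw [hv2] at e6
  rw [hu5]
  simp only [Nat.cast_zero, zero_add] at e6
  set H := dval (base D) hist with hH
  set v := dval (base D) rest' with hv
  set u := (base D : ℝ)⁻¹ ^ ((0 :: 0 :: rest').length + 1) with hu
  set b : ℝ := (base D : ℝ) with hbdef
  have hb0 : b ≠ 0 := by linarith
  have hb2 : (1 : ℝ) ≤ b ^ 2 := one_le_pow₀ (by linarith)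
  have w1 : v / b ^ 2 ≤ 1 / 2 := by
    rw [div_le_iff₀ (by positivity)]; nlinarith
  have w0 : 0 ≤ v / b ^ 2 := by positivity
  have hx : Rg (eps D * (v / b ^ 2)) := Rg_mul D w0 (by linarith)
  have hy : Rg (eps D * u) := Rg_mul D u0.le (by linarith)
  have hHb : H / b ≤ 1 / 2 := by rw [div_le_iff₀ (by linarith)]; nlinarith
  have hz : Rg (eps D * (H / b)) := Rg_mul D (by positivity) (by linarith)
  have hm : prof D .mark (eps D * (H / b)) = 1 := prof_mark_zero D H0 H1
  have e7 : p 7 = ![eps D * (v / b ^ 2), eps D * (u + v), eps D * (H / b)] := by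
    have := h.e 6
    rw [show ((6 : Fin 12) : ℕ) = 6 from rfl] at this
    rw [this, e6, sh6 D hx hy hz, hm, ← hbdef]
    congr 2
    field_simp
  have hy7 : Rg (eps D * (u + v)) := Rg_mul D (by positivity) (by linarith)
  have e8 : p 8 = ![eps D * (v / b ^ 2 + (b ^ 2 - 1) / b ^ 2 * (u + v)), eps D * (u + v),
      eps D * (H / b)] := by
    have := h.e 7
    rw [show ((7 : Fin 12) : ℕ) = 7 from rfl] at this
    rw [this, e7, sh7 D hx hy7 hz, hm, ← hbdef]
    congr 1
    ring
  have c0 : 0 ≤ (b ^ 2 - 1) / b ^ 2 := div_nonneg (by linarith) (by positivity)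
  have c1 : (b ^ 2 - 1) / b ^ 2 ≤ 1 := by rw [div_le_iff₀ (by positivity)]; linarith
  have q8 : v / b ^ 2 + (b ^ 2 - 1) / b ^ 2 * (u + v) ≤ b := by
    have : (b ^ 2 - 1) / b ^ 2 * (u + v) ≤ 1 * (u + v) := by gcongr
    linarith
  have hx8 : Rg (eps D * (v / b ^ 2 + (b ^ 2 - 1) / b ^ 2 * (u + v))) :=
    Rg_mul D (by positivity) q8
  have e9 : p 9 = ![eps D * (v / b ^ 2 + (b ^ 2 - 1) / b ^ 2 * (u + v)), eps D * (u / b ^ 2),
      eps D * (H / b)] := by
    have := h.e 8
    rw [show ((8 : Fin 12) : ℕ) = 8 from rfl] at this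
    rw [this, e8, sh8 D hx8 hy7 hz, hm]
    congr 2
    field_simp
    ring
  have q9 : u / b ^ 2 ≤ 1 / 6 := by rw [div_le_iff₀ (by positivity)]; nlinarith
  have hy9 : Rg (eps D * (u / b ^ 2)) := Rg_mul D (by positivity) (by linarith)
  have e10 : p 10 = ![eps D * v, eps D * (u / b ^ 2), eps D * (H / b)] := by
    have := h.e 9
    rw [show ((9 : Fin 12) : ℕ) = 9 from rfl] at this
    rw [this, e9, sh9 D hx8 hy9 hz, hm, ← hbdef]
    congr 1
    field_simp
    ring
  refine ⟨fun j hj hj' => ?_, e10⟩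
  have f1 : eps D * u < 1 / 4 := by nlinarith
  have f2 : eps D * (u + v) < 1 / 4 := by nlinarith
  have f3 : eps D * (u / b ^ 2) < 1 / 4 := by nlinarith
  interval_cases j
  · rw [e6]; exact ⟨hy.1, f1⟩
  · rw [e7]; exact ⟨hy7.1, f2⟩
  · rw [e8]; exact ⟨hy7.1, f2⟩
  · rw [e9]; exact ⟨hy9.1, f3⟩
  · rw [e10]; exact ⟨hy9.1, f3⟩

end

/-- the last two stages -/
theorem last (D : Machine.Descr) {p : ℕ → V3} {hist : List ℕ} {s : ℕ} {v u : ℝ}
    (h : ∀ j : Fin 12, p ((j : ℕ) + 1) = (shears D).shear j (p j))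
    (h1 : ∀ d ∈ hist, d < nD D) (hs : s < nD D) (v0 : 0 ≤ v) (v1 : v ≤ 1 / 2) (u0 : 0 ≤ u)
    (u1 : u ≤ 1 / 6)
    (e10 : p 10 = ![eps D * v, eps D * u, eps D * ((s + dval (base D) hist) / base D)])
    (hw : 0 ≤ v + u * (if s = 0 then (wr1 D s hist.headI hist.tail.headI * (base D : ℝ) ^ 4 +
        rule D hist.headI 0 0 * (base D : ℝ) ^ 3) else wr1 D s hist.headI hist.tail.headI))
    (hw' : v + u * (if s = 0 then (wr1 D s hist.headI hist.tail.headI * (base D : ℝ) ^ 4 +
        rule D hist.headI 0 0 * (base D : ℝ) ^ 3) else wr1 D s hist.headI hist.tail.headI) ≤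
        base D) :
    p 11 = ![eps D * (v + u * (if s = 0 then
        (wr1 D s hist.headI hist.tail.headI * (base D : ℝ) ^ 4 +
          rule D hist.headI 0 0 * (base D : ℝ) ^ 3) else wr1 D s hist.headI hist.tail.headI)),
        eps D * u, eps D * ((s + dval (base D) hist) / base D)] ∧
    p 12 = p 11 + Pi.single 1 (if haltDigit D s then 1 / 2 else 0) := by
  have hb := base_ge D
  have hbn := base_eq D
  have he := eps_pos D
  have H0 := dval_nonneg (b := base D) (by linarith) hist
  have H1 := dval_le D hist h1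
  have hs' : (s : ℝ) + 1 ≤ nD D := by exact_mod_cast hs
  have hs0' : (0 : ℝ) ≤ s := Nat.cast_nonneg s
  have q5 : (s + dval (base D) hist) / base D ≤ base D := by
    rw [div_le_iff₀ (by linarith)]; nlinarith
  have hx : Rg (eps D * v) := Rg_mul D v0 (by linarith)
  have hy : Rg (eps D * u) := Rg_mul D u0 (by linarith)
  have hz : Rg (eps D * ((s + dval (base D) hist) / base D)) := Rg_mul D (by positivity) q5
  -- the window
  have hT : dval (base D) hist = (hist.headI + (hist.tail.headI +
      dval (base D) hist.tail.tail) / base D) / base D := by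
    rw [dval_headI, ← dval_headI (base D : ℝ) hist.tail]
  have T0 := dval_nonneg (b := base D) (by linarith) hist.tail.tail
  have T1 := dval_le D hist.tail.tail (tail_lt (tail_lt h1))
  have hW := prof_write D hs (headI_lt h1) (headI_lt (tail_lt h1)) T0 T1
  rw [← hT] at hW
  have e11 : p 11 = ![eps D * (v + u * (if s = 0 then
        (wr1 D s hist.headI hist.tail.headI * (base D : ℝ) ^ 4 +
          rule D hist.headI 0 0 * (base D : ℝ) ^ 3) else wr1 D s hist.headI hist.tail.headI)),
        eps D * u, eps D * ((s + dval (base D) hist) / base D)] := by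
    have := h 10
    rw [show ((10 : Fin 12) : ℕ) = 10 from rfl] at this
    rw [this, e10, sh10 D hx hy hz, hW]
    congr 1
    ring
  refine ⟨e11, ?_⟩
  have := h 11
  rw [show ((11 : Fin 12) : ℕ) = 11 from rfl] at this
  rw [this, e11, sh11 D (Rg_mul D hw hw') hy hz, prof_halt D hs H0 H1, add_single1]

/-- the digits of the new queue are in range -/
theorem qstep_pt (D : Machine.Descr) {hist queue : List ℕ} (h1 : ∀ d ∈ hist, d < nD D)
    (h2 : ∀ d ∈ queue, d < nD D)
    (h4 : ∀ d ∈ (qstep D (hist, queue)).2, d < nD D)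
    (h3 : (∃ s rest, queue = s :: rest ∧ s ≠ 0) ∨ (∃ rest, queue = 0 :: 0 :: 0 :: rest)) :
    (∀ j ≤ 11, 0 ≤ (shears D).stage (pt D (hist, queue)) j 1 ∧
      (shears D).stage (pt D (hist, queue)) j 1 < 1 / 4) ∧
    (shears D).stage (pt D (hist, queue)) 11 = pt D (qstep D (hist, queue)) ∧
    (shears D).stage (pt D (hist, queue)) 12 =
      pt D (qstep D (hist, queue)) + Pi.single 1 (if haltDigit D queue.headI then 1 / 2 else 0) := by
  have hb := base_ge D
  have hb0 : (base D : ℝ) ≠ 0 := by linarith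
  have he := eps_pos D
  have hem := eps_mul D
  have hel := eps_le D
  set p : ℕ → V3 := fun j => (shears D).stage (pt D (hist, queue)) j with hp
  have hstep : ∀ j : Fin 12, p ((j : ℕ) + 1) = (shears D).shear j (p j) := fun j =>
    stage_succ_pt _ _ j
  have n0 := dval_nonneg (b := base D) (by linarith) (qstep D (hist, queue)).2
  have n1 := dval_le D _ h4
  rcases h3 with ⟨s, rest, rfl, hs0⟩ | ⟨rest', rfl⟩
  · -- an ordinary digit
    have hs : s < nD D := h2 s (by simp)
    have h2' : ∀ d ∈ rest, d < nD D := fun d hd => h2 d (by simp [hd])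
    have v0 := dval_nonneg (b := base D) (by linarith) rest
    have v1 := dval_le D rest h2'
    obtain ⟨u0, u1⟩ := unit_bounds D rest.length
    have hc : Chain D hist rest s p :=
      ⟨by simp only [hp, Shears.stage, pt, dval, List.length_cons], hstep⟩
    obtain ⟨a1, a2⟩ := hc.first h1 h2' hs
    have a3 := hc.second_pos h1 h2' hs hs0
    have e10 := a3 10 (by norm_num) le_rfl
    rw [a2] at e10
    have hq : qstep D (hist, s :: rest) =
        (s :: hist, rest ++ [wr1 D s hist.headI hist.tail.headI]) := by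
      simp [qstep, wr, hs0]
    have hd : dval (base D) (rest ++ [wr1 D s hist.headI hist.tail.headI]) =
        dval (base D) rest + (base D : ℝ)⁻¹ ^ (rest.length + 1) *
          wr1 D s hist.headI hist.tail.headI := by
      rw [dval_append hb0]
      simp only [dval, add_zero]
      rw [pow_succ]
      field_simp
    rw [hq] at n0 n1
    simp only at n0 n1
    rw [hd] at n0 n1
    have L := last D hstep h1 hs v0 v1 u0.le u1 e10 (by rw [if_neg hs0]; exact n0)
      (by rw [if_neg hs0]; linarith)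
    rw [if_neg hs0] at L
    have e11 : p 11 = pt D (qstep D (hist, s :: rest)) := by
      rw [L.1, hq, pt]
      simp only [dval, List.length_append, List.length_singleton]
      rw [hd]
    have f1 : eps D * (base D : ℝ)⁻¹ ^ (rest.length + 1) < 1 / 4 := by nlinarith
    have f0 : 0 ≤ eps D * (base D : ℝ)⁻¹ ^ (rest.length + 1) := by positivity
    refine ⟨fun j hj => ?_, e11, ?_⟩
    · have : p j 1 = eps D * (base D : ℝ)⁻¹ ^ (rest.length + 1) := by
        rcases le_or_gt j 6 with h6 | h6
        · exact a1 j h6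
        · rcases le_or_gt j 10 with h10 | h10
          · rw [a3 j h6.le h10]; exact a1 6 le_rfl
          · have : j = 11 := by omega
            subst this
            rw [L.1]; rfl
      show 0 ≤ p j 1 ∧ p j 1 < 1 / 4
      rw [this]
      exact ⟨f0, f1⟩
    · show p 12 = _
      rw [L.2, e11]
      rfl
  · -- the marker
    have hs : 0 < nD D := lt_of_lt_of_le (by norm_num) (nD_pos D)
    have h2' : ∀ d ∈ (0 :: 0 :: rest'), d < nD D := fun d hd => h2 d (by simp at hd ⊢; tauto)
    have h2'' : ∀ d ∈ rest', d < nD D := fun d hd => h2 d (by simp [hd])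
    have v0 := dval_nonneg (b := base D) (by linarith) rest'
    have v1 := dval_le D rest' h2''
    obtain ⟨u0, u1⟩ := unit_bounds D (rest'.length + 4)
    have hc : Chain D hist (0 :: 0 :: rest') 0 p :=
      ⟨by simp only [hp, Shears.stage, pt, dval, List.length_cons], hstep⟩
    obtain ⟨a1, a2⟩ := hc.first h1 h2' hs
    obtain ⟨a3, e10⟩ := hc.second_zero h1 h2'
    have hq : qstep D (hist, 0 :: 0 :: 0 :: rest') =
        (0 :: hist, rest' ++ [wr1 D 0 hist.headI hist.tail.headI, rule D hist.headI 0 0, 0, 0, 0])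
        := by
      simp [qstep, wr]
    have hd : dval (base D) (rest' ++
        [wr1 D 0 hist.headI hist.tail.headI, rule D hist.headI 0 0, 0, 0, 0]) =
        dval (base D) rest' + (base D : ℝ)⁻¹ ^ (rest'.length + 5) *
          (wr1 D 0 hist.headI hist.tail.headI * (base D : ℝ) ^ 4 +
            rule D hist.headI 0 0 * (base D : ℝ) ^ 3) := by
      rw [dval_append hb0]
      simp only [dval, Nat.cast_zero, zero_add, add_zero, zero_div]
      rw [pow_add]
      field_simp
    rw [hq] at n0 n1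
    simp only at n0 n1
    rw [hd] at n0 n1
    have e10' : p 10 = ![eps D * dval (base D) rest', eps D * (base D : ℝ)⁻¹ ^ (rest'.length + 5),
      eps D * (((0 : ℕ) + dval (base D) hist) / base D)] := by
      rw [e10]; simp
    have L := last D hstep h1 hs v0 v1 u0.le u1 e10' (by rw [if_pos rfl]; exact n0)
      (by rw [if_pos rfl]; linarith)
    rw [if_pos rfl] at L
    have e11 : p 11 = pt D (qstep D (hist, 0 :: 0 :: 0 :: rest')) := by
      rw [L.1, hq, pt]
      simp only [dval, List.length_append, List.length_cons, List.length_nil]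
      rw [hd]
    have f1 : eps D * (base D : ℝ)⁻¹ ^ (rest'.length + 4 + 1) < 1 / 4 := by nlinarith
    have f0 : 0 ≤ eps D * (base D : ℝ)⁻¹ ^ (rest'.length + 4 + 1) := by positivity
    obtain ⟨w0, w1⟩ := unit_bounds D (0 :: 0 :: rest').length
    refine ⟨fun j hj => ?_, e11, ?_⟩
    · show 0 ≤ p j 1 ∧ p j 1 < 1 / 4
      rcases le_or_gt j 6 with h6 | h6
      · rw [a1 j h6]
        exact ⟨by positivity, by nlinarith⟩
      · rcases le_or_gt j 10 with h10 | h10
        · exact a3 j h6.le h10
        · have : j = 11 := by omega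
          subst this
          rw [L.1]
          exact ⟨f0, f1⟩
    · show p 12 = _
      rw [L.2, e11]
      rfl

end Vale.Agent.P113.Sim
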