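import Vale.Agent.P113.Sim.Defs

/-!
# P113, simulation version: the switch
-/

open Set Function Filter Topology
open scoped ContDiff Nat

namespace Vale.Agent.P113.Sim

theorem h_nonneg' (t : ℝ) : 0 ≤ h t := mul_nonneg (Real.exp_pos 1).le (expNegInvGlue.nonneg _)

theorem h_le_one' {t : ℝ} (ht : 0 ≤ t) : h t ≤ 1 := by
  rcases lt_or_ge t 1 with h1 | h1
  · rw [h_of_lt h1, Real.exp_le_one_iff]
    have : 1 ≤ 1 / (1 - t) := by
      rw [le_div_iff₀ (by linarith)]; linarith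
    linarith
  · rw [h_of_ge h1]; exact zero_le_one

theorem one_le_h {t : ℝ} (ht : t ≤ 0) : 1 ≤ h t := by
  rw [h_of_lt (by linarith), Real.one_le_exp_iff]
  have : 1 / (1 - t) ≤ 1 := by
    rw [div_le_one (by linarith)]; linarith
  linarith

theorem sw_contDiff : ContDiff ℝ ∞ sw := h_contDiff.comp h_contDiff

theorem sw_of_nonpos {t : ℝ} (ht : t ≤ 0) : sw t = 0 := h_of_ge (one_le_h ht)

theorem sw_of_one_le {t : ℝ} (ht : 1 ≤ t) : sw t = 1 := by
  rw [sw, h_of_ge ht, h_zero]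

theorem sw_nonneg (t : ℝ) : 0 ≤ sw t := h_nonneg' _

theorem sw_le_one (t : ℝ) : sw t ≤ 1 := h_le_one' (h_nonneg' _)

theorem itd_sw_hasDerivAt (k : ℕ) (t : ℝ) :
    HasDerivAt (iteratedDeriv k sw) (iteratedDeriv (k + 1) sw t) t := by
  have h1 : Differentiable ℝ (iteratedDeriv k sw) :=
    sw_contDiff.differentiable_iteratedDeriv k (by exact_mod_cast ENat.natCast_lt_top k)
  have h2 := (h1 t).hasDerivAt
  rwa [← iteratedDeriv_succ] at h2

theorem iteratedDeriv_sw_of_nonpos (k : ℕ) {t : ℝ} (ht : t ≤ 0) :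
    iteratedDeriv (k + 1) sw t = 0 := by
  have key : ∃ c : ℝ, ∀ t, t ≤ 0 → iteratedDeriv k sw t = c := by
    induction k generalizing t with
    | zero => exact ⟨0, fun t ht => by rw [iteratedDeriv_zero]; exact sw_of_nonpos ht⟩
    | succ k ih =>
      refine ⟨0, fun t ht => ?_⟩
      obtain ⟨c, hc⟩ := ih ht
      have h1 := (itd_sw_hasDerivAt k t).hasDerivWithinAt (s := Iic t)
      have h2 : HasDerivWithinAt (iteratedDeriv k sw) 0 (Iic t) t := by
        refine (hasDerivWithinAt_const t (Iic t) c).congr_of_mem (fun x hx => ?_) (by simp)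
        exact hc x (le_trans hx ht)
      exact (uniqueDiffWithinAt_Iic t).eq_deriv _ h1 h2
  obtain ⟨c, hc⟩ := key
  have h1 := (itd_sw_hasDerivAt k t).hasDerivWithinAt (s := Iic t)
  have h2 : HasDerivWithinAt (iteratedDeriv k sw) 0 (Iic t) t := by
    refine (hasDerivWithinAt_const t (Iic t) c).congr_of_mem (fun x hx => ?_) (by simp)
    exact hc x (le_trans hx ht)
  exact (uniqueDiffWithinAt_Iic t).eq_deriv _ h1 h2

theorem iteratedDeriv_sw_of_one_le (k : ℕ) {t : ℝ} (ht : 1 ≤ t) :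
    iteratedDeriv (k + 1) sw t = 0 := by
  have key : ∃ c : ℝ, ∀ t, 1 ≤ t → iteratedDeriv k sw t = c := by
    induction k generalizing t with
    | zero => exact ⟨1, fun t ht => by rw [iteratedDeriv_zero]; exact sw_of_one_le ht⟩
    | succ k ih =>
      refine ⟨0, fun t ht => ?_⟩
      obtain ⟨c, hc⟩ := ih ht
      have h1 := (itd_sw_hasDerivAt k t).hasDerivWithinAt (s := Ici t)
      have h2 : HasDerivWithinAt (iteratedDeriv k sw) 0 (Ici t) t := by
        refine (hasDerivWithinAt_const t (Ici t) c).congr_of_mem (fun x hx => ?_) (by simp)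
        exact hc x (le_trans ht hx)
      exact (uniqueDiffWithinAt_Ici t).eq_deriv _ h1 h2
  obtain ⟨c, hc⟩ := key
  have h1 := (itd_sw_hasDerivAt k t).hasDerivWithinAt (s := Ici t)
  have h2 : HasDerivWithinAt (iteratedDeriv k sw) 0 (Ici t) t := by
    refine (hasDerivWithinAt_const t (Ici t) c).congr_of_mem (fun x hx => ?_) (by simp)
    exact hc x (le_trans ht hx)
  exact (uniqueDiffWithinAt_Ici t).eq_deriv _ h1 h2

/-! ### Bounds of the derivatives of `h` -/

theorem R_bound {s M : ℝ} (hs : 0 < s) (h1 : s⁻¹ ≤ M) (h2 : s⁻¹ ^ 2 ≤ M)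
    (h4 : s⁻¹ ^ 2 ≤ M ^ 2) (k : ℕ) :
    |R 1 s k| ≤ 4 ^ k * k ! * M ^ k ∧ |R 1 s (k + 1)| ≤ 4 ^ (k + 1) * (k + 1)! * M ^ (k + 1) := by
  have hu : 0 < s⁻¹ := inv_pos.2 hs
  have hM : 0 < M := lt_of_lt_of_le hu h1
  have hss : (s * s)⁻¹ = s⁻¹ ^ 2 := by rw [mul_inv]; ring
  induction k with
  | zero =>
    constructor
    · rw [R_zero]; simp
    · rw [zero_add, R_one, hss, one_mul, abs_of_nonneg (by positivity)]
      simp only [pow_one, Nat.factorial_one, Nat.cast_one, mul_one]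
      linarith
  | succ k ih =>
    refine ⟨ih.2, ?_⟩
    rw [R_add_two, hss]
    have e1 : ((1 - 2 * ((k : ℝ) + 1) * s) * R 1 s (k + 1) - ((k : ℝ) + 1) * k * R 1 s k) * s⁻¹ ^ 2
      = (s⁻¹ ^ 2 - 2 * ((k : ℝ) + 1) * s⁻¹) * R 1 s (k + 1)
        - ((k : ℝ) + 1) * k * s⁻¹ ^ 2 * R 1 s k := by
      field_simp
    rw [e1]
    have a1 : |(s⁻¹ ^ 2 - 2 * ((k : ℝ) + 1) * s⁻¹) * R 1 s (k + 1)| ≤
        ((2 * (k : ℝ) + 3) * M) * (4 ^ (k + 1) * (k + 1)! * M ^ (k + 1)) := by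
      rw [abs_mul]
      refine mul_le_mul ?_ ih.2 (abs_nonneg _) (by positivity)
      rw [abs_le]
      have b1 : 0 ≤ 2 * ((k : ℝ) + 1) * s⁻¹ := by positivity
      have b2 : 2 * ((k : ℝ) + 1) * s⁻¹ ≤ 2 * ((k : ℝ) + 1) * M := by gcongr
      have b3 : 0 ≤ s⁻¹ ^ 2 := by positivity
      constructor <;> linarith
    have a2 : |((k : ℝ) + 1) * k * s⁻¹ ^ 2 * R 1 s k| ≤
        (((k : ℝ) + 1) * k * M ^ 2) * (4 ^ k * k ! * M ^ k) := by
      rw [abs_mul, abs_of_nonneg (by positivity : 0 ≤ ((k : ℝ) + 1) * k * s⁻¹ ^ 2)]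
      refine mul_le_mul ?_ ih.1 (abs_nonneg _) (by positivity)
      gcongr
    refine (abs_sub _ _).trans ((add_le_add a1 a2).trans ?_)
    have e2 : (((k + 1 + 1)! : ℕ) : ℝ) = ((k : ℝ) + 2) * (k + 1)! := by
      rw [Nat.factorial_succ (k + 1)]; push_cast; ring
    have e3 : (((k + 1)! : ℕ) : ℝ) = ((k : ℝ) + 1) * k ! := by
      rw [Nat.factorial_succ k]; push_cast; ring
    rw [e2, e3]
    have e4 : (2 * (k : ℝ) + 3) * M * (4 ^ (k + 1) * (((k : ℝ) + 1) * k !) * M ^ (k + 1)) +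
      ((k : ℝ) + 1) * k * M ^ 2 * (4 ^ k * k ! * M ^ k) =
      ((2 * (k : ℝ) + 3) * 4 + k) * (((k : ℝ) + 1) * (4 ^ k * k ! * M ^ (k + 2))) := by ring
    have e5 : 4 ^ (k + 1 + 1) * (((k : ℝ) + 2) * (((k : ℝ) + 1) * k !)) * M ^ (k + 1 + 1) =
      (16 * ((k : ℝ) + 2)) * (((k : ℝ) + 1) * (4 ^ k * k ! * M ^ (k + 2))) := by ring
    rw [e4, e5]
    gcongr
    have : (0 : ℝ) ≤ k := by positivity
    linarith

/-- the bound of the `k`-th derivative of `h` -/
def bh (k : ℕ) : ℕ := 3 * (4 ^ k * k ! * (2 * k)!)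

theorem D_bound (k : ℕ) (t : ℝ) : |D 1 k t| ≤ bh k := by
  rcases lt_or_ge t 1 with ht | ht
  · have hs : 0 < 1 - t := by linarith
    rw [D_of_lt 1 k ht, abs_mul, abs_mul, abs_pow, abs_neg, abs_one, one_pow, one_mul,
      abs_of_pos (Real.exp_pos _)]
    push_cast
    rw [one_mul]
    generalize 1 - t = s at *
    have hu : 0 < s⁻¹ := inv_pos.2 hs
    have he : Real.exp 1 ≤ 3 := by
      have := Real.exp_one_lt_d9; linarith
    rw [bh]
    push_cast
    rcases le_total (s⁻¹) 1 with h1 | h1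
    · -- `M = 1`
      have hR := (R_bound (M := 1) hs h1 (by nlinarith) (by nlinarith) k).1
      have h2 : Real.exp (1 - s⁻¹) ≤ 3 := (Real.exp_le_exp.2 (by linarith)).trans he
      have h3 : (1 : ℝ) ≤ (2 * k)! := by exact_mod_cast Nat.one_le_iff_ne_zero.2 (Nat.factorial_ne_zero _)
      rw [one_pow, mul_one] at hR
      calc |R 1 s k| * Real.exp (1 - s⁻¹) ≤ (4 ^ k * k !) * 3 := by gcongr
        _ = 3 * (4 ^ k * k ! * 1) := by ring
        _ ≤ 3 * (4 ^ k * k ! * (2 * k)!) := by gcongr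
    · have h12 : 1 ≤ s⁻¹ ^ 2 := one_le_pow₀ h1
      have hR := (R_bound (M := s⁻¹ ^ 2) hs (le_self_pow₀ h1 (by norm_num)) le_rfl
        (le_self_pow₀ h12 (by norm_num)) k).1
      have h2 : (s⁻¹ ^ 2) ^ k * Real.exp (1 - s⁻¹) ≤ 3 * (2 * k)! := by
        have h3 := Real.pow_div_factorial_le_exp (s⁻¹) hu.le (2 * k)
        rw [div_le_iff₀ (by positivity)] at h3
        rw [← pow_mul, sub_eq_add_neg, Real.exp_add]
        calc s⁻¹ ^ (2 * k) * (Real.exp 1 * Real.exp (-s⁻¹))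
            ≤ (Real.exp (s⁻¹) * (2 * k)!) * (3 * Real.exp (-s⁻¹)) := by gcongr
          _ = 3 * (2 * k)! * (Real.exp (s⁻¹) * Real.exp (-s⁻¹)) := by ring
          _ = 3 * (2 * k)! := by rw [← Real.exp_add]; simp
      calc |R 1 s k| * Real.exp (1 - s⁻¹)
          ≤ (4 ^ k * k ! * (s⁻¹ ^ 2) ^ k) * Real.exp (1 - s⁻¹) := by gcongr
        _ = (4 ^ k * k !) * ((s⁻¹ ^ 2) ^ k * Real.exp (1 - s⁻¹)) := by ring
        _ ≤ (4 ^ k * k !) * (3 * (2 * k)!) := by gcongr
        _ = _ := by ring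
  · have h1 := D_of_ge 0 k ht
    rw [zero_add] at h1
    rw [h1, abs_zero]
    positivity

theorem D_one_eq (k : ℕ) : D 1 k = iteratedDeriv k h := by
  unfold D
  congr 1
  funext t
  exact pow_one _

theorem bh_mono {i k : ℕ} (hik : i ≤ k) : bh i ≤ bh k := by
  unfold bh
  gcongr
  · norm_num

theorem one_le_bh (k : ℕ) : 1 ≤ bh k := by
  unfold bh
  have : 0 < 4 ^ k * k ! * (2 * k)! := by positivity
  omega

theorem primrec_bh : Primrec bh := by
  unfold bh
  refine Primrec.nat_mul.comp (Primrec.const 3) (Primrec.nat_mul.comp (Primrec.nat_mul.comp ?_ ?_) ?_)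
  · exact primrec_nat_pow.comp (Primrec.const 4) Primrec.id
  · exact primrec_factorial
  · exact primrec_factorial.comp (Primrec.nat_mul.comp (Primrec.const 2) Primrec.id)

theorem sw_bound : ∃ B : ℕ → ℕ, Computable B ∧ ∀ k t, |iteratedDeriv k sw t| ≤ B k := by
  refine ⟨fun k => k ! * bh k * bh k ^ k, ?_, fun k t => ?_⟩
  · exact (Primrec.nat_mul.comp (Primrec.nat_mul.comp primrec_factorial primrec_bh)
      (primrec_nat_pow.comp primrec_bh Primrec.id)).to_comp
  · have h1 : ∀ i, i ≤ k → ∀ x, ‖iteratedFDeriv ℝ i h x‖ ≤ bh k := by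
      intro i hi x
      rw [norm_iteratedFDeriv_eq_norm_iteratedDeriv, ← D_one_eq, Real.norm_eq_abs]
      exact (D_bound i x).trans (by exact_mod_cast bh_mono hi)
    have h2 := norm_iteratedFDeriv_comp_le (𝕜 := ℝ) (N := ∞) h_contDiff h_contDiff
      (n := k) (by exact_mod_cast le_top) t (C := bh k) (D := bh k)
      (fun i hi => h1 i hi _) (fun i hi1 hik => (h1 i hik _).trans (by
        have h3 : (1 : ℝ) ≤ bh k := by exact_mod_cast one_le_bh k
        exact le_self_pow₀ h3 (by omega)))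
    rw [norm_iteratedFDeriv_eq_norm_iteratedDeriv, Real.norm_eq_abs] at h2
    push_cast
    exact h2

theorem h_lipschitz (x y : ℝ) : |h x - h y| ≤ bh 1 * |x - y| := by
  have h1 : ∀ t, HasDerivAt h (D 1 1 t) t := by
    intro t
    have := D_hasDerivAt 1 0 t
    have e : D 1 0 = h := by rw [D_one_eq, iteratedDeriv_zero]
    rwa [e] at this
  have h2 := Convex.norm_image_sub_le_of_norm_hasDerivWithin_le (f := h) (f' := D 1 1)
    (s := univ) (C := bh 1) (x := y) (y := x) (fun t _ => (h1 t).hasDerivWithinAt)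
    (fun t _ => D_bound 1 t) convex_univ (mem_univ _) (mem_univ _)
  simpa [Real.norm_eq_abs] using h2

theorem CR_h : CR fun q : Q3 => h (rv q) := by
  have h1 := CR_D (α := Q3) 0 (k := fun _ => 0) (Computable.const 0) (q := fun q => q) Computable.id
  refine h1.of_eq fun q => ?_
  rw [zero_add, D_one_eq, iteratedDeriv_zero]

theorem CR_sw : CR fun q : Q3 => sw (rv q) := by
  have h1 : CR fun z : Q3 × Q3 => h (rv z.2) := CR_h.comp Computable.snd
  exact CR.lip CR_h (Φ := fun _ x => h x) h1 (L := fun _ => bh 1) (Computable.const _)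
    (fun a q _ => h_lipschitz _ _)

end Vale.Agent.P113.Sim
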