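import Vale.Agent.P113.Sim.Step
import Vale.Agent.P113.Sim.Eff

/-!
# P113 simulation: computability of the tables and of the profiles
-/

open Set Function
open scoped ContDiff

namespace Vale.Agent.P113.Sim

abbrev Dsc : Type := Machine.Descr

/-! ### Tables -/

theorem primrec_nS : Primrec nS :=
  Primrec.succ.comp (Primrec.fst.comp Primrec.snd)

attribute [local irreducible] nS

theorem primrec_nD : Primrec nD := by
  have h1 : Primrec (fun D : Machine.Descr => D.1 + 2) :=
    Primrec.nat_add.comp Primrec.fst (Primrec.const 2)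
  exact Primrec.nat_add.comp (Primrec.const 1) (Primrec.nat_mul.comp h1 primrec_nS)

theorem primrec_base : Primrec base :=
  Primrec.nat_mul.comp (Primrec.const 2) primrec_nD

attribute [local irreducible] nD base

theorem primrec_headc : Primrec fun z : Machine.Descr × ℕ × ℕ => headc z.1 z.2.1 z.2.2 := by
  have hS : Primrec fun z : Machine.Descr × ℕ × ℕ => nS z.1 := primrec_nS.comp Primrec.fst
  have hq : Primrec fun z : Machine.Descr × ℕ × ℕ => z.2.1 + 1 :=
    Primrec.succ.comp (Primrec.fst.comp Primrec.snd)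
  exact Primrec.nat_add.comp (Primrec.nat_add.comp (Primrec.const 1) (Primrec.nat_mul.comp hq hS))
    (Primrec.snd.comp Primrec.snd)

attribute [local irreducible] headc

theorem primrec_tabE : Primrec fun z : Machine.Descr × ℕ × ℕ => tabE z.1 z.2.1 z.2.2 := by
  unfold tabE
  refine Primrec.option_getD.comp (Primrec.list_getElem?.comp ?_ ?_) (Primrec.const _)
  · exact Primrec.snd.comp (Primrec.snd.comp (Primrec.snd.comp (Primrec.snd.comp Primrec.fst)))
  · exact Primrec.nat_add.comp (Primrec.nat_mul.comp (Primrec.fst.comp Primrec.snd)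
      (primrec_nS.comp Primrec.fst)) (Primrec.snd.comp Primrec.snd)

attribute [local irreducible] tabE

theorem primrec_hq : Primrec₂ hq := by
  unfold hq
  have h1 : Primrec fun z : Machine.Descr × ℕ => (z.2 - 1) / nS z.1 :=
    Primrec.nat_div.comp (Primrec.pred.comp Primrec.snd) (primrec_nS.comp Primrec.fst)
  exact Primrec.pred.comp h1

theorem primrec_ha : Primrec₂ ha := by
  unfold ha
  exact Primrec.nat_mod.comp (Primrec.pred.comp Primrec.snd) (primrec_nS.comp Primrec.fst)

attribute [local irreducible] hq ha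

theorem primrec_tab : Primrec fun z : Machine.Descr × ℕ => tab z.1 z.2 := by
  have h1 : Primrec fun z : Machine.Descr × ℕ => hq z.1 z.2 := primrec_hq
  have h2 : Primrec fun z : Machine.Descr × ℕ => ha z.1 z.2 := primrec_ha
  have h3 : Primrec fun z : Machine.Descr × ℕ => (z.1, hq z.1 z.2, ha z.1 z.2) :=
    Primrec.pair Primrec.fst (Primrec.pair h1 h2)
  have h4 := primrec_tabE.comp h3
  exact h4

attribute [local irreducible] tab

/-- abbreviations for the proof that `rule` is primitive recursive -/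
abbrev Z4 : Type := Machine.Descr × ℕ × ℕ × ℕ

theorem primrec_rule : Primrec fun z : Z4 => rule z.1 z.2.1 z.2.2.1 z.2.2.2 := by
  have D : Primrec fun z : Z4 => z.1 := Primrec.fst
  have l : Primrec fun z : Z4 => z.2.1 := Primrec.fst.comp Primrec.snd
  have c : Primrec fun z : Z4 => z.2.2.1 := Primrec.fst.comp (Primrec.snd.comp Primrec.snd)
  have r : Primrec fun z : Z4 => z.2.2.2 := Primrec.snd.comp (Primrec.snd.comp Primrec.snd)
  have S0 : Primrec fun z : Z4 => nS z.1 := primrec_nS.comp D
  have S1 : Primrec fun z : Z4 => 1 + nS z.1 := Primrec.nat_add.comp (Primrec.const 1) S0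
  have tc : Primrec fun z : Z4 => tab z.1 z.2.2.1 := by
    have := primrec_tab.comp (Primrec.pair D c); exact this
  have tl : Primrec fun z : Z4 => tab z.1 z.2.1 := by
    have := primrec_tab.comp (Primrec.pair D l); exact this
  have tr : Primrec fun z : Z4 => tab z.1 z.2.2.2 := by
    have := primrec_tab.comp (Primrec.pair D r); exact this
  have c1 : Primrec fun z : Z4 => z.2.2.1 - 1 := Primrec.pred.comp c
  have hd : ∀ {q a : Z4 → ℕ}, Primrec q → Primrec a → Primrec fun z : Z4 => headc z.1 (q z) (a z) := by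
    intro q a hq ha
    have := primrec_headc.comp (Primrec.pair D (Primrec.pair hq ha))
    exact this
  have q1 : Primrec fun z : Z4 => headc z.1 (tab z.1 z.2.2.1).1 (tab z.1 z.2.2.1).2.1 :=
    hd (Primrec.fst.comp tc) (Primrec.fst.comp (Primrec.snd.comp tc))
  have q2 : Primrec fun z : Z4 => (tab z.1 z.2.2.1).2.1 + 1 :=
    Primrec.succ.comp (Primrec.fst.comp (Primrec.snd.comp tc))
  have q3 : Primrec fun z : Z4 => headc z.1 (tab z.1 z.2.1).1 (z.2.2.1 - 1) :=
    hd (Primrec.fst.comp tl) c1
  have q4 : Primrec fun z : Z4 => headc z.1 (tab z.1 z.2.2.2).1 (z.2.2.1 - 1) :=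
    hd (Primrec.fst.comp tr) c1
  have q5 : Primrec fun z : Z4 => if z.2.2.1 = 0 then 1 else z.2.2.1 :=
    Primrec.ite (Primrec.eq.comp c (Primrec.const 0)) (Primrec.const 1) c
  have p0 : PrimrecPred fun z : Z4 => 1 + nS z.1 ≤ z.2.2.1 := Primrec.nat_le.comp S1 c
  have p1 : PrimrecPred fun z : Z4 => (tab z.1 z.2.2.1).2.2 = 0 :=
    Primrec.eq.comp (Primrec.snd.comp (Primrec.snd.comp tc)) (Primrec.const 0)
  have p2 : PrimrecPred fun z : Z4 => 1 + nS z.1 ≤ z.2.1 := Primrec.nat_le.comp S1 l
  have p3 : PrimrecPred fun z : Z4 => (tab z.1 z.2.1).2.2 = 0 :=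
    Primrec.eq.comp (Primrec.snd.comp (Primrec.snd.comp tl)) (Primrec.const 0)
  have p4 : PrimrecPred fun z : Z4 => (tab z.1 z.2.1).2.2 = 1 :=
    Primrec.eq.comp (Primrec.snd.comp (Primrec.snd.comp tl)) (Primrec.const 1)
  have p5 : PrimrecPred fun z : Z4 => 1 + nS z.1 ≤ z.2.2.2 := Primrec.nat_le.comp S1 r
  have p6 : PrimrecPred fun z : Z4 => (tab z.1 z.2.2.2).2.2 = 1 :=
    Primrec.eq.comp (Primrec.snd.comp (Primrec.snd.comp tr)) (Primrec.const 1)
  have p7 : PrimrecPred fun z : Z4 => 1 + nS z.1 ≤ z.2.1 ∧ (tab z.1 z.2.1).2.2 ≠ 0 ∧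
      (tab z.1 z.2.1).2.2 ≠ 1 := p2.and (p3.not.and p4.not)
  have p8 : PrimrecPred fun z : Z4 => 1 + nS z.1 ≤ z.2.2.2 ∧ (tab z.1 z.2.2.2).2.2 = 1 :=
    p5.and p6
  have f1 := Primrec.ite p8 q4 q5
  have f2 := Primrec.ite p7 q3 f1
  have f3 := Primrec.ite p1 q1 q2
  have f4 := Primrec.ite p0 f3 f2
  exact f4.of_eq fun z => by unfold rule; rfl

attribute [local irreducible] rule

theorem primrec_wr1 : Primrec fun z : Z4 => wr1 z.1 z.2.1 z.2.2.1 z.2.2.2 := by
  have D : Primrec fun z : Z4 => z.1 := Primrec.fst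
  have s : Primrec fun z : Z4 => z.2.1 := Primrec.fst.comp Primrec.snd
  have h0 : Primrec fun z : Z4 => z.2.2.1 := Primrec.fst.comp (Primrec.snd.comp Primrec.snd)
  have h1 : Primrec fun z : Z4 => z.2.2.2 := Primrec.snd.comp (Primrec.snd.comp Primrec.snd)
  have l : Primrec fun z : Z4 => if z.2.2.1 = 0 then 0 else z.2.2.2 :=
    Primrec.ite (Primrec.eq.comp h0 (Primrec.const 0)) (Primrec.const 0) h1
  have w := primrec_rule.comp (Primrec.pair D (Primrec.pair l (Primrec.pair h0 s)))
  exact w.of_eq fun z => by unfold wr1; rfl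

attribute [local irreducible] wr1

theorem primrec_Sval : Primrec fun z : Machine.Descr × ℕ => Sval z.1 z.2 := by
  have D : Primrec fun z : Machine.Descr × ℕ => z.1 := Primrec.fst
  have j : Primrec fun z : Machine.Descr × ℕ => z.2 := Primrec.snd
  have b : Primrec fun z : Machine.Descr × ℕ => base z.1 := primrec_base.comp D
  have bp : ∀ n, Primrec fun z : Machine.Descr × ℕ => base z.1 ^ n := fun n => by
    have := primrec_nat_pow.comp b (Primrec.const n); exact this
  have s : Primrec fun z : Machine.Descr × ℕ => z.2 / base z.1 ^ 2 :=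
    Primrec.nat_div.comp j (bp 2)
  have h0 : Primrec fun z : Machine.Descr × ℕ => z.2 / base z.1 % base z.1 :=
    Primrec.nat_mod.comp (Primrec.nat_div.comp j b) b
  have h1 : Primrec fun z : Machine.Descr × ℕ => z.2 % base z.1 := Primrec.nat_mod.comp j b
  have w : Primrec fun z : Machine.Descr × ℕ =>
      wr1 z.1 (z.2 / base z.1 ^ 2) (z.2 / base z.1 % base z.1) (z.2 % base z.1) := by
    have := primrec_wr1.comp (Primrec.pair D (Primrec.pair s (Primrec.pair h0 h1)))
    exact this
  have r : Primrec fun z : Machine.Descr × ℕ => rule z.1 (z.2 / base z.1 % base z.1) 0 0 := by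
    have := primrec_rule.comp (Primrec.pair D (Primrec.pair h0 (Primrec.pair (Primrec.const 0)
      (Primrec.const 0))))
    exact this
  have c0 : PrimrecPred fun z : Machine.Descr × ℕ => z.2 / base z.1 ^ 2 = 0 :=
    Primrec.eq.comp s (Primrec.const 0)
  have a : Primrec fun z : Machine.Descr × ℕ =>
      wr1 z.1 (z.2 / base z.1 ^ 2) (z.2 / base z.1 % base z.1) (z.2 % base z.1) * base z.1 ^ 4 +
        rule z.1 (z.2 / base z.1 % base z.1) 0 0 * base z.1 ^ 3 :=
    Primrec.nat_add.comp (Primrec.nat_mul.comp w (bp 4)) (Primrec.nat_mul.comp r (bp 3))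
  exact (Primrec.ite c0 a w).of_eq fun z => by unfold Sval; rfl

theorem primrec_haltDigit : PrimrecPred fun z : Machine.Descr × ℕ => haltDigit z.1 z.2 := by
  have D : Primrec fun z : Machine.Descr × ℕ => z.1 := Primrec.fst
  have c : Primrec fun z : Machine.Descr × ℕ => z.2 := Primrec.snd
  have S0 : Primrec fun z : Machine.Descr × ℕ => nS z.1 := primrec_nS.comp D
  have S1 : Primrec fun z : Machine.Descr × ℕ => 1 + nS z.1 :=
    Primrec.nat_add.comp (Primrec.const 1) S0
  have q : Primrec fun z : Machine.Descr × ℕ => hq z.1 z.2 := primrec_hq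
  have g : Primrec fun z : Machine.Descr × ℕ => z.1.2.2.2.1 :=
    Primrec.fst.comp (Primrec.snd.comp (Primrec.snd.comp (Primrec.snd.comp D)))
  have o : Primrec fun z : Machine.Descr × ℕ => z.1.2.2.2.1[hq z.1 z.2]? :=
    Primrec.list_getElem?.comp g q
  have e : Primrec fun z : Machine.Descr × ℕ => (z.1.2.2.2.1[hq z.1 z.2]?).getD false :=
    Primrec.option_getD.comp o (Primrec.const _)
  have p1 : PrimrecPred fun z : Machine.Descr × ℕ => 1 + nS z.1 ≤ z.2 := Primrec.nat_le.comp S1 c
  have p2 : PrimrecPred fun z : Machine.Descr × ℕ =>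
      (z.1.2.2.2.1[hq z.1 z.2]?).getD false = true := Primrec.eq.comp e (Primrec.const true)
  exact p1.and p2

theorem primrec_queue0 : Primrec queue0 := by
  have D : Primrec fun x : Machine.Descr × List ℕ => x.1 := Primrec.fst
  have q : Primrec fun x : Machine.Descr × List ℕ => x.1.2.2.1 :=
    Primrec.fst.comp (Primrec.snd.comp (Primrec.snd.comp Primrec.fst))
  have a : Primrec fun x : Machine.Descr × List ℕ => x.2.headI :=
    Primrec.list_headI.comp Primrec.snd
  have t : Primrec fun x : Machine.Descr × List ℕ => x.2.tail.map (· + 1) :=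
    Primrec.list_map (Primrec.list_tail.comp Primrec.snd) (Primrec.succ.comp Primrec.snd).to₂
  have hc : Primrec fun x : Machine.Descr × List ℕ => headc x.1 x.1.2.2.1 x.2.headI := by
    have := primrec_headc.comp (Primrec.pair D (Primrec.pair q a))
    exact this
  have h1 : Primrec fun x : Machine.Descr × List ℕ =>
      headc x.1 x.1.2.2.1 x.2.headI :: x.2.tail.map (· + 1) := Primrec.list_cons.comp hc t
  have h2 : Primrec fun x : Machine.Descr × List ℕ =>
      (headc x.1 x.1.2.2.1 x.2.headI :: x.2.tail.map (· + 1)) ++ [0, 0, 0] :=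
    Primrec.list_append.comp h1 (Primrec.const [0, 0, 0])
  exact h2.of_eq fun x => by simp [queue0, rowWord, row0]

/-! ### Profiles -/

theorem CR_base : CR fun D : Machine.Descr => (base D : ℝ) := CR.nat primrec_base.to_comp

theorem CR_epsq {α : Type*} [Primcodable α] {f : α → Machine.Descr} (hf : Computable f) :
    CR fun a => eps (f a) := by
  have : Computable fun a => qinv (qnat (8 * base (f a))) :=
    (primrec_qinv.comp (primrec_qnat.comp (Primrec.nat_mul.comp (Primrec.const 8)
      primrec_base))).to_comp.comp hf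
  refine (CR.rat this).of_eq fun a => ?_
  rw [rv_qinv, rv_qnat, eps, one_div]
  push_cast
  rfl

theorem Eff_sw : Eff fun _ : Unit => sw := by
  refine ⟨fun _ => sw_contDiff, CR_sw.comp Computable.snd, ?_⟩
  obtain ⟨B, hB, hB'⟩ := sw_bound
  exact ⟨fun _ k => B k.1, hB.comp (Computable.fst.comp Computable.snd), fun _ k _ t _ => hB' k t⟩

variable {α : Type*} [Primcodable α]

theorem Eff_sw_affine {c d : α → Q3} (hc : Computable c) (hd : Computable d) :
    Eff fun a t => sw (rv (c a) * t + rv (d a)) :=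
  Eff.affine (F := fun (_ : α) => sw) (Eff_sw.comp (g := fun _ : α => ()) (Computable.const ())) hc hd

theorem Eff_plat : Eff fun _ : Unit => plat := by
  have h1 := Eff_sw_affine (α := Unit) (c := fun _ => (4, 0, 0)) (d := fun _ => (1, 0, 0))
    (Computable.const _) (Computable.const _)
  have h2 := Eff_sw_affine (α := Unit) (c := fun _ => (0, 4, 0)) (d := fun _ => (3, 0, 0))
    (Computable.const _) (Computable.const _)
  refine (h1.mul h2).of_eq fun _ t => ?_
  have e1 : rv (4, 0, 0) = 4 := by rw [rv_def]; norm_num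
  have e2 : rv (1, 0, 0) = 1 := by rw [rv_def]; norm_num
  have e3 : rv (0, 4, 0) = -4 := by rw [rv_def]; norm_num
  have e4 : rv (3, 0, 0) = 3 := by rw [rv_def]; norm_num
  simp only [e1, e2, e3, e4, plat]
  ring_nf

theorem Eff_plat_affine {c d : α → Q3} (hc : Computable c) (hd : Computable d) :
    Eff fun a t => plat (rv (c a) * t + rv (d a)) :=
  Eff.affine (F := fun (_ : α) => plat)
    (Eff_plat.comp (g := fun _ : α => ()) (Computable.const ())) hc hd

theorem Eff_kap : Eff fun _ : Unit => kap := by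
  have h1 := Eff_plat_affine (α := Unit) (c := fun _ => (2, 0, 0)) (d := fun _ => (0, 0, 0))
    (Computable.const _) (Computable.const _)
  refine ((Eff.ident (α := Unit)).mul h1).of_eq fun _ t => ?_
  have e1 : rv (2, 0, 0) = 2 := by rw [rv_def]; norm_num
  simp only [e1, rv_zero, add_zero, kap]

/-- Plateau functions with computable parameters; `r` is the inverse of the width. -/
theorem Eff_PL {n r : Machine.Descr → ℕ} (hn : Computable n) (hr : Computable r)
    {ρ : Machine.Descr → ℝ} (hρ : ∀ D, (ρ D)⁻¹ = r D) {v : Machine.Descr → ℕ → ℝ}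
    (hv : CR fun z : Machine.Descr × ℕ => v z.1 z.2) : Eff fun D => PL (n D) (ρ D) (v D) := by
  have h1 : Eff fun (z : Machine.Descr × ℕ) t => plat (rv (qnat (r z.1)) * t + rv (qneg (qnat z.2))) :=
    Eff_plat_affine (primrec_qnat.to_comp.comp (hr.comp Computable.fst))
      ((primrec_qneg.comp (primrec_qnat)).to_comp.comp Computable.snd)
  have h2 := Eff.sum (F := fun (z : Machine.Descr × ℕ) t =>
    v z.1 z.2 * plat (rv (qnat (r z.1)) * t + rv (qneg (qnat z.2)))) ((Eff.const hv).mul h1) hn
  refine h2.of_eq fun D t => ?_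
  simp only [PL]
  refine Finset.sum_congr rfl fun j _ => ?_
  rw [rv_qneg, rv_qnat, rv_qnat, div_eq_mul_inv, hρ, mul_comm t, ← sub_eq_add_neg]

theorem eps_inv (D : Machine.Descr) : (eps D)⁻¹ = ((8 * base D : ℕ) : ℝ) := by
  unfold eps; push_cast; simp

theorem Eff_prof (k : Kind) : Eff fun D : Machine.Descr => prof D k := by
  have b1 : Computable base := primrec_base.to_comp
  have n1 : Computable nD := primrec_nD.to_comp
  have ρ1 : ∀ D : Machine.Descr, (eps D / base D)⁻¹ = ((8 * base D * base D : ℕ) : ℝ) := fun D => by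
    rw [inv_div, div_eq_mul_inv, eps_inv]; push_cast; ring
  have r1 : Computable fun D : Machine.Descr => 8 * base D * base D :=
    (Primrec.nat_mul.comp (Primrec.nat_mul.comp (Primrec.const 8) primrec_base)
      primrec_base).to_comp
  have r2 : Computable fun D : Machine.Descr => 8 * base D :=
    (Primrec.nat_mul.comp (Primrec.const 8) primrec_base).to_comp
  have ρ3 : ∀ D : Machine.Descr, (eps D / (base D : ℝ) ^ 3)⁻¹ = ((base D ^ 3 * (8 * base D) : ℕ) : ℝ) :=
    fun D => by
      rw [inv_div, div_eq_mul_inv, eps_inv]; push_cast; ring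
  have r3 : Computable fun D : Machine.Descr => base D ^ 3 * (8 * base D) :=
    (Primrec.nat_mul.comp (primrec_nat_pow.comp primrec_base (Primrec.const 3))
      (Primrec.nat_mul.comp (Primrec.const 8) primrec_base)).to_comp
  have ceps : CR fun z : Machine.Descr × ℕ => eps z.1 := CR_epsq Computable.fst
  have cj : CR fun z : Machine.Descr × ℕ => (z.2 : ℝ) := CR.nat Computable.snd
  have cb : CR fun D : Machine.Descr => (base D : ℝ) := CR_base
  have cbi : CR fun D : Machine.Descr => (base D : ℝ)⁻¹ :=
    (CR.rat ((primrec_qinv.comp (primrec_qnat.comp primrec_base)).to_comp)).of_eq fun D => by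
      rw [rv_qinv, rv_qnat]
  have c1 : CR fun _ : Machine.Descr => (1 : ℝ) := CR.one
  cases k with
  | one => exact Eff.const c1
  | lin c =>
    have hk : Eff fun _ : Machine.Descr => kap :=
      Eff_kap.comp (g := fun _ : Machine.Descr => ()) (Computable.const ())
    have hs : CR fun D : Machine.Descr => slope D c := by
      have b2 : CR fun D : Machine.Descr => (base D : ℝ) ^ 2 := (cb.mul cb).of_eq fun D => by ring
      have b2i : CR fun D : Machine.Descr => ((base D : ℝ) ^ 2)⁻¹ :=
        (cbi.mul cbi).of_eq fun D => by rw [sq, mul_inv]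
      fin_cases c
      · exact c1
      · exact c1.neg
      · exact cb
      · exact ((cb.sub c1).mul cbi).of_eq fun D => (div_eq_mul_inv _ _).symm
      · exact (cb.sub c1).neg
      · exact b2
      · exact ((b2.sub c1).mul b2i).of_eq fun D => (div_eq_mul_inv _ _).symm
      · exact (b2.sub c1).neg
    exact (Eff.const hs).mul hk
  | dig =>
    exact Eff_PL (ρ := fun D => eps D / base D) (v := fun D j => eps D * j) n1 r1 ρ1 (ceps.mul cj)
  | int =>
    refine Eff_PL (ρ := fun D => eps D) (v := fun D j => -(eps D / base D * j)) n1 r2 eps_inv ?_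
    exact (((ceps.mul (cbi.comp Computable.fst)).mul cj).neg).of_eq fun z => by
      rw [← div_eq_mul_inv]
  | mark =>
    exact Eff_PL (n := fun _ => 1) (ρ := fun D => eps D / base D) (v := fun _ _ => 1)
      (Computable.const 1) r1 ρ1 CR.one
  | halt =>
    refine Eff_PL (ρ := fun D => eps D / base D)
      (v := fun D j => if haltDigit D j then 1 / 2 else 0) n1 r1 ρ1 ?_
    have hh : CR fun _ : Machine.Descr × ℕ => (1 / 2 : ℝ) :=
      (CR.rat (g := fun _ => (1, 0, 1)) (Computable.const _)).of_eq fun _ => by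
        rw [rv_def]; norm_num
    exact CR.ite (c := fun z : Machine.Descr × ℕ => haltDigit z.1 z.2)
      primrec_haltDigit.decide.to_comp hh CR.zero
  | write =>
    refine Eff_PL (ρ := fun D => eps D / (base D : ℝ) ^ 3) (v := fun D j => (Sval D j : ℝ))
      (primrec_nat_pow.comp primrec_base (Primrec.const 3)).to_comp r3 ρ3 ?_
    exact CR.nat (g := fun z : Machine.Descr × ℕ => Sval z.1 z.2) primrec_Sval.to_comp

theorem Eff_pprof (k : Kind) : Eff fun D : Machine.Descr => pprof D k := by
  by_cases hk : k = .one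
  · subst hk; exact Eff.const CR.one
  · have e : rv (0, 1, 1) = -(1 / 2) := by rw [rv_def]; norm_num
    have h1 := (Eff_prof k).periodize (0, 1, 1) fun D => ⟨1 / 8, by norm_num, fun x hx => by
      rw [e] at hx
      exact prof_support D k hk (hx.imp (fun h => by linarith) fun h => by linarith)⟩
    refine h1.of_eq fun D t => ?_
    rw [pprof_of_ne D hk, e]

theorem Eff_gfun (s : Fin 12) (j : Fin 3) : Eff fun D : Machine.Descr => gfun D s j := Eff_pprof _

theorem Eff_dsw : Eff fun _ : Unit => deriv sw := by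
  have := Eff_sw.deriv.comp (g := fun _ : Unit => ((), 1)) (Computable.const _)
  refine this.of_eq fun _ t => ?_
  simp only [iteratedDeriv_one]

theorem Eff_dsw_affine (c d : Q3) : Eff fun (_ : Unit) t => 16 * deriv sw (rv c * t + rv d) := by
  have h1 := Eff_dsw.affine (c := fun _ => c) (d := fun _ => d) (Computable.const _)
    (Computable.const _)
  have h2 : CR fun _ : Unit => (16 : ℝ) :=
    (CR.nat (g := fun _ : Unit => 16) (Computable.const 16)).of_eq fun _ => by norm_num
  exact (Eff.const h2).mul h1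

theorem deriv_sw_of_nonpos {t : ℝ} (ht : t ≤ 0) : deriv sw t = 0 := by
  have := iteratedDeriv_sw_of_nonpos 0 ht
  rwa [zero_add, iteratedDeriv_one] at this

theorem deriv_sw_of_one_le {t : ℝ} (ht : 1 ≤ t) : deriv sw t = 0 := by
  have := iteratedDeriv_sw_of_one_le 0 ht
  rwa [zero_add, iteratedDeriv_one] at this

theorem Eff_tb (s : Fin 12) : Eff fun _ : Unit => tb s := by
  have e1 : rv (16, 0, 0) = 16 := by rw [rv_def]; norm_num
  have e2 : rv (0, (s : ℕ) + 1, 0) = -((s : ℕ) + 1 : ℝ) := by rw [rv_def]; push_cast; ring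
  have hs : ((s : ℕ) : ℝ) ≤ 11 := by
    have : (s : ℕ) ≤ 11 := by omega
    exact_mod_cast this
  have hs0 : (0 : ℝ) ≤ ((s : ℕ) : ℝ) := Nat.cast_nonneg _
  have h1 := (Eff_dsw_affine (16, 0, 0) (0, (s : ℕ) + 1, 0)).periodize (0, 0, 0) fun _ =>
    ⟨1 / 16, by norm_num, fun x hx => by
      rw [rv_zero] at hx
      simp only [e1, e2]
      rcases hx with hx | hx
      · rw [deriv_sw_of_nonpos (by linarith), mul_zero]
      · rw [deriv_sw_of_one_le (by linarith), mul_zero]⟩
  refine h1.of_eq fun _ t => ?_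
  simp only [e1, e2, rv_zero, tb, ← sub_eq_add_neg]

theorem Eff_tβ : Eff fun _ : Unit => tβ := by
  have e1 : rv (16, 0, 0) = 16 := by rw [rv_def]; norm_num
  refine (Eff_dsw_affine (16, 0, 0) (0, 0, 0)).of_eq fun _ t => ?_
  simp only [e1, rv_zero, add_zero]
  rfl

/-! ### The initial point -/

/-- the code of `dval b l` -/
def qdval (b : ℕ) (l : List ℕ) : Q3 :=
  l.foldr (fun d r => qmul (qadd (qnat d) r) (qinv (qnat b))) (0, 0, 0)

theorem rv_qdval (b : ℕ) (l : List ℕ) : rv (qdval b l) = dval b l := by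
  induction l with
  | nil => exact rv_zero
  | cons d l ih =>
    have : qdval b (d :: l) = qmul (qadd (qnat d) (qdval b l)) (qinv (qnat b)) := rfl
    rw [this, rv_qmul, rv_qadd, rv_qinv, rv_qnat, rv_qnat, ih, dval, div_eq_mul_inv]

theorem primrec_qdval : Primrec₂ qdval := by
  have : Primrec₂ fun (z : ℕ × List ℕ) (p : ℕ × Q3) =>
      qmul (qadd (qnat p.1) p.2) (qinv (qnat z.1)) := by
    have d : Primrec fun w : (ℕ × List ℕ) × (ℕ × Q3) => qnat w.2.1 :=
      primrec_qnat.comp (Primrec.fst.comp Primrec.snd)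
    have r : Primrec fun w : (ℕ × List ℕ) × (ℕ × Q3) => w.2.2 := Primrec.snd.comp Primrec.snd
    have b : Primrec fun w : (ℕ × List ℕ) × (ℕ × Q3) => qinv (qnat w.1.1) :=
      primrec_qinv.comp (primrec_qnat.comp (Primrec.fst.comp Primrec.fst))
    exact primrec_qmul.comp (primrec_qadd.comp d r) b
  exact Primrec.list_foldr Primrec.snd (Primrec.const (0, 0, 0)) this

theorem CR_pt (i : Fin 3) : CR fun x : Machine.Descr × List ℕ => pt x.1 ([], queue0 x) i := by
  have ceps : CR fun x : Machine.Descr × List ℕ => eps x.1 := CR_epsq Computable.fst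
  fin_cases i
  · have h1 : Computable fun x : Machine.Descr × List ℕ => qdval (base x.1) (queue0 x) :=
      (primrec_qdval.comp (primrec_base.comp Primrec.fst) primrec_queue0).to_comp
    exact (ceps.mul (CR.rat h1)).of_eq fun x => by rw [rv_qdval]; rfl
  · have h1 : Computable fun x : Machine.Descr × List ℕ =>
        qpow (qinv (qnat (base x.1))) (queue0 x).length :=
      (primrec_qpow.comp (primrec_qinv.comp (primrec_qnat.comp (primrec_base.comp Primrec.fst)))
        (Primrec.list_length.comp primrec_queue0)).to_comp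
    exact (ceps.mul (CR.rat h1)).of_eq fun x => by
      rw [rv_qpow, rv_qinv, rv_qnat]; rfl
  · exact CR.zero.of_eq fun x => by simp [pt, dval]

end Vale.Agent.P113.Sim
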